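import Vale.Agent.P237.Small.N5W7.Fam

/-!
# P237: data of one checked box
-/

open Vale.Agent.P237.Cal AtomCert CellCert FamAtoms StateTable CellEnds BoxHand BoxEnds CellGlue2 BoxVertex PackGlue2 HeadSplit TailRed

set_option linter.all false

namespace Vale.Agent.P237.Small.N5W7

/-- Data. -/
noncomputable def hn : Flat := ⟨[nat_lit 4722319264531643553470, nat_lit 4722309820920698986621, nat_lit 4722300377328639586715, nat_lit 4722281490201176136670, nat_lit 4722272046665772010999, nat_lit 4722262603149252901207, nat_lit 4722253159651618769528, nat_lit 4722234272713005289448, nat_lit 4722205942446721461034, nat_lit 0, nat_lit 0, nat_lit 0, nat_lit 0, nat_lit 0, nat_lit 0, nat_lit 0, nat_lit 0, nat_lit 0, nat_lit 0, nat_lit 0, nat_lit 0, nat_lit 0, nat_lit 0, nat_lit 0, nat_lit 0, nat_lit 0, nat_lit 0, nat_lit 0, nat_lit 0, nat_lit 0, nat_lit 0, nat_lit 0, nat_lit 0, nat_lit 0, nat_lit 0, nat_lit 0, nat_lit 0, nat_lit 0, nat_lit 0, nat_lit 0, nat_lit 0, nat_lit 0, nat_lit 0, nat_lit 0, nat_lit 0, nat_lit 0, nat_lit 0, nat_lit 0, nat_lit 0, nat_lit 0, nat_lit 0, nat_lit 0, nat_lit 0, nat_lit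 0, nat_lit 0, nat_lit 0, nat_lit 0, nat_lit 0, nat_lit 0, nat_lit 0, nat_lit 0, nat_lit 0, nat_lit 0, nat_lit 0, nat_lit 0],
  [nat_lit 4722366482869645213696, nat_lit 4722366482869645213696, nat_lit 4722366482869645213696, nat_lit 4722366482869645213696, nat_lit 4722366482869645213696, nat_lit 4722366482869645213696, nat_lit 4722366482869645213696, nat_lit 4722366482869645213696, nat_lit 4722366482869645213696, nat_lit 9444048418595930112, nat_lit 9444048418595930112, nat_lit 9444048418595930112, nat_lit 9444048418595930112, nat_lit 9444048418595930112, nat_lit 9444048418595930112, nat_lit 9444048418595930112, nat_lit 9444048418595930112, nat_lit 9444048418595930112, nat_lit 9444048418595930112, nat_lit 18886727842136064, nat_lit 18886727842136064, nat_lit 18886727842136064, nat_lit 18886727842136064, nat_lit 18886727842136064, nat_lit 18886727842136064, nat_lit 18886727842136064, nat_lit 18886727842136064, nat_lit 37770717892608, nat_lit 37770717892608, nat_lit 37770717892608, nat_lit 37770717892608, nat_lit 37770717892608, nat_lit 37770717892608, nat_lit 37770717892608, nat_lit 37770717892608,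 nat_lit 75535960599, nat_lit 75535960599, nat_lit 75535960599, nat_lit 75535960599, nat_lit 75535960599, nat_lit 151060972, nat_lit 151060972, nat_lit 151060972, nat_lit 151060972, nat_lit 302101, nat_lit 302101, nat_lit 302101, nat_lit 605, nat_lit 605, nat_lit 2, nat_lit 2, nat_lit 2, nat_lit 1, nat_lit 1, nat_lit 1, nat_lit 1, nat_lit 1, nat_lit 1, nat_lit 1, nat_lit 1, nat_lit 1, nat_lit 1, nat_lit 1, nat_lit 1, nat_lit 1], -4294967296, 0, -11452416, 8589934592, 2, 0⟩

/-- Data. -/
noncomputable def hp : Flat := ⟨[nat_lit 4722319264531643553470, nat_lit 4722309820920698986621, nat_lit 4722300377328639586715, nat_lit 4722281490201176136670, nat_lit 4722272046665772010999, nat_lit 4722262603149252901207, nat_lit 4722253159651618769528, nat_lit 4722234272713005289448, nat_lit 4722205942446721461034, nat_lit 0, nat_lit 0, nat_lit 0, nat_lit 0, nat_lit 0, nat_lit 0, nat_lit 0, nat_lit 0, nat_lit 0, nat_lit 0, nat_lit 0, nat_lit 0, nat_lit 0, nat_lit 0, nat_lit 0, nat_lit 0, nat_lit 0, nat_lit 0, nat_lit 0, nat_lit 0, nat_lit 0, nat_lit 0, nat_lit 0, nat_lit 0, nat_lit 0, nat_lit 0, nat_lit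 0, nat_lit 0, nat_lit 0, nat_lit 0, nat_lit 0, nat_lit 0, nat_lit 0, nat_lit 0, nat_lit 0, nat_lit 0, nat_lit 0, nat_lit 0, nat_lit 0, nat_lit 0, nat_lit 0, nat_lit 0, nat_lit 0, nat_lit 0, nat_lit 0, nat_lit 0, nat_lit 0, nat_lit 0, nat_lit 0, nat_lit 0, nat_lit 0, nat_lit 0, nat_lit 0, nat_lit 0, nat_lit 0, nat_lit 0],
  [nat_lit 4722366482869645213696, nat_lit 4722366482869645213696, nat_lit 4722366482869645213696, nat_lit 4722366482869645213696, nat_lit 4722366482869645213696, nat_lit 4722366482869645213696, nat_lit 4722366482869645213696, nat_lit 4722366482869645213696, nat_lit 4722366482869645213696, nat_lit 9444048418595930112, nat_lit 9444048418595930112, nat_lit 9444048418595930112, nat_lit 9444048418595930112, nat_lit 9444048418595930112, nat_lit 9444048418595930112, nat_lit 9444048418595930112, nat_lit 9444048418595930112, nat_lit 9444048418595930112, nat_lit 9444048418595930112, nat_lit 18886727842136064, nat_lit 18886727842136064, nat_lit 18886727842136064, nat_lit 18886727842136064, nat_lit 18886727842136064, nat_lit 18886727842136064, nat_lit 18886727842136064, nat_lit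 18886727842136064, nat_lit 37770717892608, nat_lit 37770717892608, nat_lit 37770717892608, nat_lit 37770717892608, nat_lit 37770717892608, nat_lit 37770717892608, nat_lit 37770717892608, nat_lit 37770717892608, nat_lit 75535960599, nat_lit 75535960599, nat_lit 75535960599, nat_lit 75535960599, nat_lit 75535960599, nat_lit 151060972, nat_lit 151060972, nat_lit 151060972, nat_lit 151060972, nat_lit 302101, nat_lit 302101, nat_lit 302101, nat_lit 605, nat_lit 605, nat_lit 2, nat_lit 2, nat_lit 2, nat_lit 1, nat_lit 1, nat_lit 1, nat_lit 1, nat_lit 1, nat_lit 1, nat_lit 1, nat_lit 1, nat_lit 1, nat_lit 1, nat_lit 1, nat_lit 1, nat_lit 1], 0, 3047124894, -11452416, 8589934592, 2, 0⟩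

/-- Data. -/
noncomputable def tn : Flat := ⟨[nat_lit 4722366482869645213696, nat_lit 0, nat_lit 0, nat_lit 0, nat_lit 0, nat_lit 0, nat_lit 0, nat_lit 0, nat_lit 0, nat_lit 0, nat_lit 0, nat_lit 0, nat_lit 0, nat_lit 0, nat_lit 0, nat_lit 0, nat_lit 0, nat_lit 0, nat_lit 0, nat_lit 0, nat_lit 0, nat_lit 0, nat_lit 0, nat_lit 0, nat_lit 0, nat_lit 0, nat_lit 0, nat_lit 4711907174001263247360, nat_lit 0, nat_lit 0, nat_lit 0, nat_lit 0, nat_lit 0, nat_lit 0, nat_lit 0, nat_lit 0, nat_lit 0, nat_lit 0, nat_lit 0, nat_lit 0, nat_lit 0, nat_lit 0, nat_lit 0, nat_lit 0, nat_lit 0, nat_lit 0, nat_lit 0, nat_lit 0, nat_lit 0, nat_lit 0, nat_lit 0, nat_lit 0],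
  [nat_lit 4722366482869645213696, nat_lit 314127146032929177600, nat_lit 20895426950182560000, nat_lit 1389943126356376589, nat_lit 92457641526604901, nat_lit 6150190834837361, nat_lit 409104609206729, nat_lit 27213233827828, nat_lit 1810197388888, nat_lit 120412539262, nat_lit 8009722974, nat_lit 532798848, nat_lit 35441253, nat_lit 2357518, nat_lit 156820, nat_lit 10432, nat_lit 694, nat_lit 47, nat_lit 4, nat_lit 1, nat_lit 1, nat_lit 1, nat_lit 1, nat_lit 1, nat_lit 1, nat_lit 1, nat_lit 1, nat_lit 4722366482869645213696, nat_lit 314127146032929177600, nat_lit 20895426950182560000, nat_lit 1389943126356376589, nat_lit 92457641526604901, nat_lit 6150190834837361, nat_lit 409104609206729, nat_lit 27213233827828, nat_lit 1810197388888, nat_lit 120412539262, nat_lit 8009722974, nat_lit 532798848, nat_lit 35441253, nat_lit 2357518, nat_lit 156820, nat_lit 10432, nat_lit 694, nat_lit 47, nat_lit 4, nat_lit 1, nat_lit 1, nat_lit 1, nat_lit 1, nat_lit 1, nat_lit 1], -1940911251, 0, -2201818522, 1189961029, 0, 0⟩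

/-- Data. -/
noncomputable def tp : Flat := ⟨[nat_lit 4722366482869645213696, nat_lit 0, nat_lit 0, nat_lit 0, nat_lit 0, nat_lit 0, nat_lit 0, nat_lit 0, nat_lit 0, nat_lit 0, nat_lit 0, nat_lit 0, nat_lit 0, nat_lit 0, nat_lit 0, nat_lit 0, nat_lit 0, nat_lit 0, nat_lit 0, nat_lit 0, nat_lit 0, nat_lit 0, nat_lit 0, nat_lit 0, nat_lit 0, nat_lit 0, nat_lit 0, nat_lit 4711907174001263247360, nat_lit 0, nat_lit 0, nat_lit 0, nat_lit 0, nat_lit 0, nat_lit 0, nat_lit 0, nat_lit 0, nat_lit 0, nat_lit 0, nat_lit 0, nat_lit 0, nat_lit 0, nat_lit 0, nat_lit 0, nat_lit 0, nat_lit 0, nat_lit 0, nat_lit 0, nat_lit 0, nat_lit 0, nat_lit 0, nat_lit 0, nat_lit 0],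
  [nat_lit 4722366482869645213696, nat_lit 314127146032929177600, nat_lit 20895426950182560000, nat_lit 1389943126356376589, nat_lit 92457641526604901, nat_lit 6150190834837361, nat_lit 409104609206729, nat_lit 27213233827828, nat_lit 1810197388888, nat_lit 120412539262, nat_lit 8009722974, nat_lit 532798848, nat_lit 35441253, nat_lit 2357518, nat_lit 156820, nat_lit 10432, nat_lit 694, nat_lit 47, nat_lit 4, nat_lit 1, nat_lit 1, nat_lit 1, nat_lit 1, nat_lit 1, nat_lit 1, nat_lit 1, nat_lit 1, nat_lit 4722366482869645213696, nat_lit 314127146032929177600, nat_lit 20895426950182560000, nat_lit 1389943126356376589, nat_lit 92457641526604901, nat_lit 6150190834837361, nat_lit 409104609206729, nat_lit 27213233827828, nat_lit 1810197388888, nat_lit 120412539262, nat_lit 8009722974, nat_lit 532798848, nat_lit 35441253, nat_lit 2357518, nat_lit 156820, nat_lit 10432, nat_lit 694, nat_lit 47, nat_lit 4, nat_lit 1, nat_lit 1, nat_lit 1, nat_lit 1, nat_lit 1, nat_lit 1], 0, 2152255834, -2201818522, 1189961029, 0, 0⟩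

/-- Data. -/
noncomputable def z : Node := (0, 4294967296, 4294967296)

/-- Data. -/
noncomputable def n0 : Node := (2097, 4294958707, 4294958708)

/-- Data. -/
noncomputable def lastRow : Row := ⟨(15728640, 285696974, 285696975), 15697151, 15697152, 2201818295, 1222616471, 2531407281⟩

/-- Data. -/
noncomputable def Hpn : VFam := ⟨⟨(FastCell.sprN 65 [(nat_lit 2, nat_lit 4611686018427387904), (nat_lit 36, nat_lit 315082645429858304), (nat_lit 44, nat_lit 262568912925753344), (nat_lit 45, nat_lit 149430997243060224), (nat_lit 49, nat_lit 124525850828734464), (nat_lit 57, nat_lit 49939043997873594368), (nat_lit 59, nat_lit 41615876612893442048), (nat_lit 63, nat_lit 12493198884864), (nat_lit 64, nat_lit 10411000725504)], FastCell.sprN 65 [(nat_lit 20, nat_lit 1367266327164616704)], FastCell.sprN 65 [(nat_lit 2, nat_lit 4611686018427387904), (nat_lit 20, nat_lit 1367266327164616704), (nat_lit 36, nat_lit 315082645429858304), (nat_lit 44, nat_lit 262568912925753344), (nat_lit 45, nat_lit 149430997243060224), (nat_lit 49, nat_lit 124525850828734464), (nat_lit 57, nat_lit 49939043997873594368),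 (nat_lit 59, nat_lit 41615876612893442048), (nat_lit 63, nat_lit 12493198884864), (nat_lit 64, nat_lit 10411000725504)]), (FastCell.sprN 65 [(nat_lit 44, nat_lit 525137825851506688), (nat_lit 49, nat_lit 249051701657468928), (nat_lit 59, nat_lit 83231753225786884096), (nat_lit 64, nat_lit 20822001451008)], FastCell.sprN 65 [(nat_lit 20, nat_lit 2734532654329233408)], FastCell.sprN 65 [(nat_lit 20, nat_lit 2734532654329233408), (nat_lit 44, nat_lit 525137825851506688), (nat_lit 49, nat_lit 249051701657468928), (nat_lit 59, nat_lit 83231753225786884096), (nat_lit 64, nat_lit 20822001451008)]), (FastCell.sprN 65 [(nat_lit 44, nat_lit 262568912925753344), (nat_lit 49, nat_lit 124525850828734464), (nat_lit 59, nat_lit 41615876612893442048), (nat_lit 64, nat_lit 10411000725504)], FastCell.sprN 65 [(nat_lit 20, nat_lit 1367266327164616704)], FastCell.sprN 65 [(nat_lit 20, nat_lit 1367266327164616704), (nat_lit 44, nat_lit 262568912925753344), (nat_lit 49, nat_lit 124525850828734464), (nat_lit 59, nat_lit 41615876612893442048), (nat_lit 64, nat_lit 10411000725504)]), z65, z65, z65, z65⟩,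
  ⟨(FastCell.sprN 65 [(nat_lit 2, nat_lit 3571450405755813888), (nat_lit 10, nat_lit 366774139605745664), (nat_lit 21, nat_lit 1547916329674297344), (nat_lit 35, nat_lit 124525850828734464), (nat_lit 36, nat_lit 2829755619322699776), (nat_lit 53, nat_lit 41615876612893442048), (nat_lit 60, nat_lit 10411000725504)], FastCell.sprN 65 [(nat_lit 20, nat_lit 1104697414238863360), (nat_lit 54, nat_lit 49939043997873594368), (nat_lit 61, nat_lit 12493198884864)], FastCell.sprN 65 [(nat_lit 2, nat_lit 3571450405755813888), (nat_lit 10, nat_lit 366774139605745664), (nat_lit 20, nat_lit 1104697414238863360), (nat_lit 21, nat_lit 1547916329674297344), (nat_lit 35, nat_lit 124525850828734464), (nat_lit 36, nat_lit 2829755619322699776), (nat_lit 53, nat_lit 41615876612893442048), (nat_lit 54, nat_lit 49939043997873594368), (nat_lit 60, nat_lit 10411000725504), (nat_lit 61, nat_lit 12493198884864)]), (FastCell.sprN 65 [(nat_lit 13, nat_lit 33618360741365022720), (nat_lit 20, nat_lit 28031952167356071936), (nat_lit 32, nat_lit 36137773529108054016)], FastCell.sprN 65 [(nat_lit 10, nat_lit 33684161173643067392),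 (nat_lit 22, nat_lit 27737904861444833280), (nat_lit 28, nat_lit 1014547515279671296), (nat_lit 40, nat_lit 1171937783695015936)], FastCell.sprN 65 [(nat_lit 10, nat_lit 33684161173643067392), (nat_lit 13, nat_lit 33618360741365022720), (nat_lit 20, nat_lit 28031952167356071936), (nat_lit 22, nat_lit 27737904861444833280), (nat_lit 28, nat_lit 1014547515279671296), (nat_lit 32, nat_lit 36137773529108054016), (nat_lit 40, nat_lit 1171937783695015936)]), (FastCell.sprN 65 [(nat_lit 28, nat_lit 4236775750474137600)], FastCell.sprN 65 [(nat_lit 20, nat_lit 1596997601624850432), (nat_lit 35, nat_lit 4714501372215558144)], FastCell.sprN 65 [(nat_lit 20, nat_lit 1596997601624850432), (nat_lit 28, nat_lit 4236775750474137600), (nat_lit 35, nat_lit 4714501372215558144)]), z65, (FastCell.sprN 65 [(nat_lit 0, nat_lit 139933384578170880), (nat_lit 4, nat_lit 65525773414432768), (nat_lit 10, nat_lit 291114489640648704), (nat_lit 29, nat_lit 771541059548217344)], FastCell.sprN 65 [(nat_lit 20, nat_lit 652080710328254464)], FastCell.sprN 65 [(nat_lit 0, nat_lit 139933384578170880), (nat_lit 4, nat_lit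 65525773414432768), (nat_lit 10, nat_lit 291114489640648704), (nat_lit 20, nat_lit 652080710328254464), (nat_lit 29, nat_lit 771541059548217344)]), z65, z65⟩,
  ⟨(FastCell.sprN 65 [(nat_lit 2, nat_lit 329329469036691456), (nat_lit 16, nat_lit 2487054499840000), (nat_lit 21, nat_lit 847160916641316864), (nat_lit 24, nat_lit 2569859316454522880), (nat_lit 29, nat_lit 445898399028346880), (nat_lit 36, nat_lit 3484202024566784), (nat_lit 46, nat_lit 3688867482266763264)], FastCell.sprN 65 [(nat_lit 11, nat_lit 1720074156541739008), (nat_lit 22, nat_lit 52513732504104960), (nat_lit 37, nat_lit 24905146414325760), (nat_lit 39, nat_lit 4441985411669032960), (nat_lit 55, nat_lit 8323167384980152320), (nat_lit 62, nat_lit 2082198159360)], FastCell.sprN 65 [(nat_lit 2, nat_lit 329329469036691456), (nat_lit 11, nat_lit 1720074156541739008), (nat_lit 16, nat_lit 2487054499840000), (nat_lit 21, nat_lit 847160916641316864), (nat_lit 22, nat_lit 52513732504104960), (nat_lit 24, nat_lit 2569859316454522880), (nat_lit 29, nat_lit 445898399028346880), (nat_lit 36, nat_lit 3484202024566784), (nat_lit 37,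 nat_lit 24905146414325760), (nat_lit 39, nat_lit 4441985411669032960), (nat_lit 46, nat_lit 3688867482266763264), (nat_lit 55, nat_lit 8323167384980152320), (nat_lit 62, nat_lit 2082198159360)]), (FastCell.sprN 65 [(nat_lit 1, nat_lit 44982176021338914816), (nat_lit 3, nat_lit 41852666419144032256), (nat_lit 10, nat_lit 1100322418817236992), (nat_lit 21, nat_lit 14733645189117640704), (nat_lit 36, nat_lit 582991097605652480)], FastCell.sprN 65 [(nat_lit 2, nat_lit 86833457241589284864), (nat_lit 29, nat_lit 2567418977240219648), (nat_lit 45, nat_lit 33020104483880828928), (nat_lit 57, nat_lit 83231753225786884096), (nat_lit 63, nat_lit 20822001451008)], FastCell.sprN 65 [(nat_lit 1, nat_lit 44982176021338914816), (nat_lit 2, nat_lit 86833457241589284864), (nat_lit 3, nat_lit 41852666419144032256), (nat_lit 10, nat_lit 1100322418817236992), (nat_lit 21, nat_lit 14733645189117640704), (nat_lit 29, nat_lit 2567418977240219648), (nat_lit 36, nat_lit 582991097605652480), (nat_lit 45, nat_lit 33020104483880828928), (nat_lit 57, nat_lit 83231753225786884096), (nat_lit 63, nat_lit 20822001451008)]),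 (FastCell.sprN 65 [(nat_lit 13, nat_lit 33618360741365022720), (nat_lit 15, nat_lit 559733538312683520), (nat_lit 18, nat_lit 262103093657731072), (nat_lit 20, nat_lit 40680661923869491200), (nat_lit 25, nat_lit 1164457958562594816), (nat_lit 29, nat_lit 117894564107750735872), (nat_lit 32, nat_lit 72275547058216108032), (nat_lit 37, nat_lit 152558476737946583040), (nat_lit 38, nat_lit 3086164238192869376), (nat_lit 40, nat_lit 35102952393801728), (nat_lit 44, nat_lit 262568912925753344), (nat_lit 47, nat_lit 5273720026627571712), (nat_lit 49, nat_lit 124525850828734464), (nat_lit 59, nat_lit 41615876612893442048), (nat_lit 64, nat_lit 10411000725504)], FastCell.sprN 65 [(nat_lit 10, nat_lit 33684161173643067392), (nat_lit 22, nat_lit 41606857292167249920), (nat_lit 28, nat_lit 2029095030559342592), (nat_lit 31, nat_lit 168091803706825113600), (nat_lit 33, nat_lit 2608322841313017856), (nat_lit 35, nat_lit 98111832585746251776), (nat_lit 43, nat_lit 234895527939202351104)], FastCell.sprN 65 [(nat_lit 10, nat_lit 33684161173643067392), (nat_lit 13, nat_lit 33618360741365022720), (nat_lit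 15, nat_lit 559733538312683520), (nat_lit 18, nat_lit 262103093657731072), (nat_lit 20, nat_lit 40680661923869491200), (nat_lit 22, nat_lit 41606857292167249920), (nat_lit 25, nat_lit 1164457958562594816), (nat_lit 28, nat_lit 2029095030559342592), (nat_lit 29, nat_lit 117894564107750735872), (nat_lit 31, nat_lit 168091803706825113600), (nat_lit 32, nat_lit 72275547058216108032), (nat_lit 33, nat_lit 2608322841313017856), (nat_lit 35, nat_lit 98111832585746251776), (nat_lit 37, nat_lit 152558476737946583040), (nat_lit 38, nat_lit 3086164238192869376), (nat_lit 40, nat_lit 35102952393801728), (nat_lit 43, nat_lit 234895527939202351104), (nat_lit 44, nat_lit 262568912925753344), (nat_lit 47, nat_lit 5273720026627571712), (nat_lit 49, nat_lit 124525850828734464), (nat_lit 59, nat_lit 41615876612893442048), (nat_lit 64, nat_lit 10411000725504)]), (FastCell.sprN 65 [(nat_lit 28, nat_lit 4236775750474137600), (nat_lit 44, nat_lit 14143504116646674432)], FastCell.sprN 65 [(nat_lit 20, nat_lit 1064665067749900288), (nat_lit 35, nat_lit 2559674092496093184), (nat_lit 40, nat_lit 9885810084439654400)],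 FastCell.sprN 65 [(nat_lit 20, nat_lit 1064665067749900288), (nat_lit 28, nat_lit 4236775750474137600), (nat_lit 35, nat_lit 2559674092496093184), (nat_lit 40, nat_lit 9885810084439654400), (nat_lit 44, nat_lit 14143504116646674432)]), z65, (FastCell.sprN 65 [(nat_lit 10, nat_lit 291114489640648704), (nat_lit 29, nat_lit 276821751160111104), (nat_lit 35, nat_lit 4564564972297781248)], FastCell.sprN 65 [(nat_lit 20, nat_lit 639827621751816192), (nat_lit 23, nat_lit 655257734144327680), (nat_lit 41, nat_lit 6943869535933956096)], FastCell.sprN 65 [(nat_lit 10, nat_lit 291114489640648704), (nat_lit 20, nat_lit 639827621751816192), (nat_lit 23, nat_lit 655257734144327680), (nat_lit 29, nat_lit 276821751160111104), (nat_lit 35, nat_lit 4564564972297781248), (nat_lit 41, nat_lit 6943869535933956096)]), z65⟩,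
  ⟨(FastCell.sprN 65 [(nat_lit 2, nat_lit 1040235612671574016), (nat_lit 45, nat_lit 24905146414325760), (nat_lit 54, nat_lit 8323167384980152320), (nat_lit 57, nat_lit 8323167384980152320), (nat_lit 61, nat_lit 2082198159360), (nat_lit 63, nat_lit 2082198159360)], FastCell.sprN 65 [(nat_lit 10, nat_lit 366774139605745664), (nat_lit 21, nat_lit 1810485242600050688), (nat_lit 36, nat_lit 2901767737647329280)], FastCell.sprN 65 [(nat_lit 2, nat_lit 1040235612671574016), (nat_lit 10, nat_lit 366774139605745664), (nat_lit 21, nat_lit 1810485242600050688), (nat_lit 36, nat_lit 2901767737647329280), (nat_lit 45, nat_lit 24905146414325760), (nat_lit 54, nat_lit 8323167384980152320), (nat_lit 57, nat_lit 8323167384980152320), (nat_lit 61, nat_lit 2082198159360), (nat_lit 63, nat_lit 2082198159360)]), (FastCell.sprN 65 [(nat_lit 10, nat_lit 33684161173643067392), (nat_lit 22, nat_lit 27737904861444833280), (nat_lit 28, nat_lit 1014547515279671296), (nat_lit 40, nat_lit 1171937783695015936), (nat_lit 44, nat_lit 525137825851506688), (nat_lit 49, nat_lit 249051701657468928), (nat_lit 59, nat_lit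 83231753225786884096), (nat_lit 64, nat_lit 20822001451008)], FastCell.sprN 65 [(nat_lit 13, nat_lit 33618360741365022720), (nat_lit 20, nat_lit 30766484821685305344), (nat_lit 32, nat_lit 36137773529108054016)], FastCell.sprN 65 [(nat_lit 10, nat_lit 33684161173643067392), (nat_lit 13, nat_lit 33618360741365022720), (nat_lit 20, nat_lit 30766484821685305344), (nat_lit 22, nat_lit 27737904861444833280), (nat_lit 28, nat_lit 1014547515279671296), (nat_lit 32, nat_lit 36137773529108054016), (nat_lit 40, nat_lit 1171937783695015936), (nat_lit 44, nat_lit 525137825851506688), (nat_lit 49, nat_lit 249051701657468928), (nat_lit 59, nat_lit 83231753225786884096), (nat_lit 64, nat_lit 20822001451008)]), (FastCell.sprN 65 [(nat_lit 20, nat_lit 229731274460233728), (nat_lit 35, nat_lit 4714501372215558144), (nat_lit 44, nat_lit 262568912925753344), (nat_lit 49, nat_lit 124525850828734464), (nat_lit 59, nat_lit 41615876612893442048), (nat_lit 64, nat_lit 10411000725504)], FastCell.sprN 65 [(nat_lit 28, nat_lit 4236775750474137600)], FastCell.sprN 65 [(nat_lit 20, nat_lit 229731274460233728), (nat_lit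 28, nat_lit 4236775750474137600), (nat_lit 35, nat_lit 4714501372215558144), (nat_lit 44, nat_lit 262568912925753344), (nat_lit 49, nat_lit 124525850828734464), (nat_lit 59, nat_lit 41615876612893442048), (nat_lit 64, nat_lit 10411000725504)]), z65, (FastCell.sprN 65 [(nat_lit 20, nat_lit 652080710328254464)], FastCell.sprN 65 [(nat_lit 0, nat_lit 139933384578170880), (nat_lit 4, nat_lit 65525773414432768), (nat_lit 10, nat_lit 291114489640648704), (nat_lit 29, nat_lit 771541059548217344)], FastCell.sprN 65 [(nat_lit 0, nat_lit 139933384578170880), (nat_lit 4, nat_lit 65525773414432768), (nat_lit 10, nat_lit 291114489640648704), (nat_lit 20, nat_lit 652080710328254464), (nat_lit 29, nat_lit 771541059548217344)]), z65, z65⟩⟩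

theorem eHpn : rfam Bh (headR false hn) 3 p sn = some Hpn := by decide +kernel

theorem hhpn : headTest false 72 3 15235533062 Bh Hpn z n0 hn = true := by decide +kernel

/-- Data. -/
noncomputable def Tpn : VFam := ⟨⟨(FastCell.sprN 52 [(nat_lit 0, nat_lit 40635715460484038656), (nat_lit 4, nat_lit 810970534591749410816), (nat_lit 8, nat_lit 1165220306577175588864), (nat_lit 12, nat_lit 116528469112456454144), (nat_lit 14, nat_lit 16643821427277832192), (nat_lit 20, nat_lit 109215744), (nat_lit 22, nat_lit 12493179027456)], FastCell.sprN 52 [(nat_lit 2, nat_lit 276850253934500909056), (nat_lit 6, nat_lit 1282224469901150638080), (nat_lit 10, nat_lit 582601768006985220096), (nat_lit 16, nat_lit 8322136695253032960), (nat_lit 18, nat_lit 229042343608320), (nat_lit 24, nat_lit 2082198159360)], FastCell.sprN 52 [(nat_lit 0, nat_lit 40635715460484038656), (nat_lit 2, nat_lit 276850253934500909056), (nat_lit 4, nat_lit 810970534591749410816), (nat_lit 6, nat_lit 1282224469901150638080), (nat_lit 8, nat_lit 1165220306577175588864), (nat_lit 10, nat_lit 582601768006985220096), (nat_lit 12, nat_lit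 116528469112456454144), (nat_lit 14, nat_lit 16643821427277832192), (nat_lit 16, nat_lit 8322136695253032960), (nat_lit 18, nat_lit 229042343608320), (nat_lit 20, nat_lit 109215744), (nat_lit 22, nat_lit 12493179027456), (nat_lit 24, nat_lit 2082198159360)]), (FastCell.sprN 52 [(nat_lit 29, nat_lit 81271430920968077312), (nat_lit 33, nat_lit 1750937686639103705088), (nat_lit 37, nat_lit 2913367285864677244928), (nat_lit 41, nat_lit 582631892345178554368), (nat_lit 45, nat_lit 3435630239416320), (nat_lit 49, nat_lit 229042015961088)], FastCell.sprN 52 [(nat_lit 31, nat_lit 582459589252379312128), (nat_lit 35, nat_lit 2914636143165261742080), (nat_lit 39, nat_lit 1747876437506194931712), (nat_lit 43, nat_lit 83238624486265716736), (nat_lit 47, nat_lit 1145210079805440), (nat_lit 51, nat_lit 20822001451008)], FastCell.sprN 52 [(nat_lit 29, nat_lit 81271430920968077312), (nat_lit 31, nat_lit 582459589252379312128), (nat_lit 33, nat_lit 1750937686639103705088), (nat_lit 35, nat_lit 2914636143165261742080), (nat_lit 37, nat_lit 2913367285864677244928), (nat_lit 39, nat_lit 1747876437506194931712),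 (nat_lit 41, nat_lit 582631892345178554368), (nat_lit 43, nat_lit 83238624486265716736), (nat_lit 45, nat_lit 3435630239416320), (nat_lit 47, nat_lit 1145210079805440), (nat_lit 49, nat_lit 229042015961088), (nat_lit 51, nat_lit 20822001451008)]), (FastCell.sprN 52 [(nat_lit 4, nat_lit 40635715460484038656), (nat_lit 8, nat_lit 875468843319551852544), (nat_lit 12, nat_lit 1456683642932338622464), (nat_lit 16, nat_lit 291315946172589277184), (nat_lit 20, nat_lit 1717815119708160), (nat_lit 24, nat_lit 114521007980544)], FastCell.sprN 52 [(nat_lit 6, nat_lit 291229794626189656064), (nat_lit 10, nat_lit 1457318071582630871040), (nat_lit 14, nat_lit 873938218753097465856), (nat_lit 18, nat_lit 41619312243132858368), (nat_lit 22, nat_lit 572605039902720), (nat_lit 26, nat_lit 10411000725504)], FastCell.sprN 52 [(nat_lit 4, nat_lit 40635715460484038656), (nat_lit 6, nat_lit 291229794626189656064), (nat_lit 8, nat_lit 875468843319551852544), (nat_lit 10, nat_lit 1457318071582630871040), (nat_lit 12, nat_lit 1456683642932338622464), (nat_lit 14, nat_lit 873938218753097465856), (nat_lit 16, nat_lit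 291315946172589277184), (nat_lit 18, nat_lit 41619312243132858368), (nat_lit 20, nat_lit 1717815119708160), (nat_lit 22, nat_lit 572605039902720), (nat_lit 24, nat_lit 114521007980544), (nat_lit 26, nat_lit 10411000725504)]), z52, z52, z52, z52⟩,
  ⟨(FastCell.sprN 52 [(nat_lit 0, nat_lit 40635715460484038656), (nat_lit 4, nat_lit 907985336822839525376), (nat_lit 8, nat_lit 1620192959025569357824), (nat_lit 12, nat_lit 341255475196406349824), (nat_lit 16, nat_lit 1967678898831360), (nat_lit 20, nat_lit 135342989574144), (nat_lit 28, nat_lit 366774139605745664)], FastCell.sprN 52 [(nat_lit 2, nat_lit 289849480647696052224), (nat_lit 6, nat_lit 1571492346403195973632), (nat_lit 10, nat_lit 998786166789413216256), (nat_lit 14, nat_lit 49942916889726476288), (nat_lit 18, nat_lit 666303957073920), (nat_lit 22, nat_lit 12493198884864), (nat_lit 30, nat_lit 366774139605745664)], FastCell.sprN 52 [(nat_lit 0, nat_lit 40635715460484038656), (nat_lit 2, nat_lit 289849480647696052224), (nat_lit 4, nat_lit 907985336822839525376), (nat_lit 6, nat_lit 1571492346403195973632), (nat_lit 8, nat_lit 1620192959025569357824),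 (nat_lit 10, nat_lit 998786166789413216256), (nat_lit 12, nat_lit 341255475196406349824), (nat_lit 14, nat_lit 49942916889726476288), (nat_lit 16, nat_lit 1967678898831360), (nat_lit 18, nat_lit 666303957073920), (nat_lit 20, nat_lit 135342989574144), (nat_lit 22, nat_lit 12493198884864), (nat_lit 28, nat_lit 366774139605745664), (nat_lit 30, nat_lit 366774139605745664)]), (FastCell.sprN 52 [(nat_lit 5, nat_lit 29153800307278348288), (nat_lit 6, nat_lit 33618360741365022720), (nat_lit 7, nat_lit 37309711312803069952), (nat_lit 11, nat_lit 36137773529108054016), (nat_lit 29, nat_lit 28031952167356071936), (nat_lit 35, nat_lit 27737904861444833280)], FastCell.sprN 52 [(nat_lit 1, nat_lit 2186485298974687232), (nat_lit 3, nat_lit 28139252791998676992), (nat_lit 8, nat_lit 33618360741365022720), (nat_lit 9, nat_lit 72275547058216108032), (nat_lit 31, nat_lit 28031952167356071936), (nat_lit 33, nat_lit 27737904861444833280)], FastCell.sprN 52 [(nat_lit 1, nat_lit 2186485298974687232), (nat_lit 3, nat_lit 28139252791998676992), (nat_lit 5, nat_lit 29153800307278348288), (nat_lit 6, nat_lit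 33618360741365022720), (nat_lit 7, nat_lit 37309711312803069952), (nat_lit 8, nat_lit 33618360741365022720), (nat_lit 9, nat_lit 72275547058216108032), (nat_lit 11, nat_lit 36137773529108054016), (nat_lit 29, nat_lit 28031952167356071936), (nat_lit 31, nat_lit 28031952167356071936), (nat_lit 33, nat_lit 27737904861444833280), (nat_lit 35, nat_lit 27737904861444833280)]), (FastCell.sprN 52 [(nat_lit 6, nat_lit 11026000346055966720), (nat_lit 30, nat_lit 4236775750474137600)], FastCell.sprN 52 [(nat_lit 4, nat_lit 6311498973840408576), (nat_lit 8, nat_lit 4714501372215558144), (nat_lit 32, nat_lit 4236775750474137600)], FastCell.sprN 52 [(nat_lit 4, nat_lit 6311498973840408576), (nat_lit 6, nat_lit 11026000346055966720), (nat_lit 8, nat_lit 4714501372215558144), (nat_lit 30, nat_lit 4236775750474137600), (nat_lit 32, nat_lit 4236775750474137600)]), z52, (FastCell.sprN 52 [(nat_lit 4, nat_lit 652080710328254464), (nat_lit 7, nat_lit 65525773414432768), (nat_lit 30, nat_lit 1062655549188866048)], FastCell.sprN 52 [(nat_lit 2, nat_lit 512147325750083584), (nat_lit 32, nat_lit 771541059548217344)],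 FastCell.sprN 52 [(nat_lit 2, nat_lit 512147325750083584), (nat_lit 4, nat_lit 652080710328254464), (nat_lit 7, nat_lit 65525773414432768), (nat_lit 30, nat_lit 1062655549188866048), (nat_lit 32, nat_lit 771541059548217344)]), z52, z52⟩,
  ⟨(FastCell.sprN 52 [(nat_lit 1, nat_lit 1179974587702575104), (nat_lit 5, nat_lit 38790770946216181760), (nat_lit 9, nat_lit 167628848332191064064), (nat_lit 13, nat_lit 54381514435486105600), (nat_lit 17, nat_lit 249863779123200), (nat_lit 21, nat_lit 20821981593600), (nat_lit 27, nat_lit 445898399028346880), (nat_lit 30, nat_lit 1720074156541739008), (nat_lit 31, nat_lit 445898399028346880), (nat_lit 33, nat_lit 2487054499840000)], FastCell.sprN 52 [(nat_lit 3, nat_lit 6745824772223004672), (nat_lit 7, nat_lit 112426816998368604160), (nat_lit 11, nat_lit 134485036789056086016), (nat_lit 15, nat_lit 8323604646593617920), (nat_lit 19, nat_lit 93698917171200), (nat_lit 23, nat_lit 2082198159360), (nat_lit 28, nat_lit 1720074156541739008), (nat_lit 29, nat_lit 891796798056693760), (nat_lit 35, nat_lit 2487054499840000)], FastCell.sprN 52 [(nat_lit 1,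 nat_lit 1179974587702575104), (nat_lit 3, nat_lit 6745824772223004672), (nat_lit 5, nat_lit 38790770946216181760), (nat_lit 7, nat_lit 112426816998368604160), (nat_lit 9, nat_lit 167628848332191064064), (nat_lit 11, nat_lit 134485036789056086016), (nat_lit 13, nat_lit 54381514435486105600), (nat_lit 15, nat_lit 8323604646593617920), (nat_lit 17, nat_lit 249863779123200), (nat_lit 19, nat_lit 93698917171200), (nat_lit 21, nat_lit 20821981593600), (nat_lit 23, nat_lit 2082198159360), (nat_lit 27, nat_lit 445898399028346880), (nat_lit 28, nat_lit 1720074156541739008), (nat_lit 29, nat_lit 891796798056693760), (nat_lit 30, nat_lit 1720074156541739008), (nat_lit 31, nat_lit 445898399028346880), (nat_lit 33, nat_lit 2487054499840000), (nat_lit 35, nat_lit 2487054499840000)]), (FastCell.sprN 52 [(nat_lit 4, nat_lit 4034515535663202304), (nat_lit 29, nat_lit 44982176021338914816), (nat_lit 32, nat_lit 624404080061193388032), (nat_lit 36, nat_lit 1697657667639792631808), (nat_lit 40, nat_lit 499395766499086958592), (nat_lit 44, nat_lit 2498640174120960), (nat_lit 48, nat_lit 208220014510080)],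 FastCell.sprN 52 [(nat_lit 2, nat_lit 1467096558422982656), (nat_lit 6, nat_lit 2567418977240219648), (nat_lit 30, nat_lit 187768699486535155712), (nat_lit 34, nat_lit 1346954557730905391104), (nat_lit 38, nat_lit 1248480671007107973120), (nat_lit 42, nat_lit 83236125846091595776), (nat_lit 46, nat_lit 936990065295360), (nat_lit 50, nat_lit 20822001451008)], FastCell.sprN 52 [(nat_lit 2, nat_lit 1467096558422982656), (nat_lit 4, nat_lit 4034515535663202304), (nat_lit 6, nat_lit 2567418977240219648), (nat_lit 29, nat_lit 44982176021338914816), (nat_lit 30, nat_lit 187768699486535155712), (nat_lit 32, nat_lit 624404080061193388032), (nat_lit 34, nat_lit 1346954557730905391104), (nat_lit 36, nat_lit 1697657667639792631808), (nat_lit 38, nat_lit 1248480671007107973120), (nat_lit 40, nat_lit 499395766499086958592), (nat_lit 42, nat_lit 83236125846091595776), (nat_lit 44, nat_lit 2498640174120960), (nat_lit 46, nat_lit 936990065295360), (nat_lit 48, nat_lit 208220014510080), (nat_lit 50, nat_lit 20822001451008)]), (FastCell.sprN 52 [(nat_lit 7, nat_lit 888308630179584933888), (nat_lit 10, nat_lit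 4250622196755464192), (nat_lit 11, nat_lit 1609242119670285205504), (nat_lit 14, nat_lit 3086164238192869376), (nat_lit 15, nat_lit 291315946172589277184), (nat_lit 19, nat_lit 1717815119708160), (nat_lit 23, nat_lit 114521007980544), (nat_lit 29, nat_lit 3279727948462030848), (nat_lit 31, nat_lit 70348131979996692480), (nat_lit 36, nat_lit 166043214403824779264), (nat_lit 37, nat_lit 397515508820188594176), (nat_lit 38, nat_lit 2608322841313017856), (nat_lit 41, nat_lit 262103093657731072)], FastCell.sprN 52 [(nat_lit 3, nat_lit 15428188874228105216), (nat_lit 5, nat_lit 137054057705731260416), (nat_lit 9, nat_lit 1720828167766356787200), (nat_lit 12, nat_lit 7336786434948333568), (nat_lit 13, nat_lit 873938218753097465856), (nat_lit 17, nat_lit 41619312243132858368), (nat_lit 21, nat_lit 572605039902720), (nat_lit 25, nat_lit 10411000725504), (nat_lit 33, nat_lit 102038301075474219008), (nat_lit 34, nat_lit 134473442965460090880), (nat_lit 35, nat_lit 167893700907613814784), (nat_lit 39, nat_lit 234895527939202351104)], FastCell.sprN 52 [(nat_lit 3, nat_lit 15428188874228105216), (nat_lit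 5, nat_lit 137054057705731260416), (nat_lit 7, nat_lit 888308630179584933888), (nat_lit 9, nat_lit 1720828167766356787200), (nat_lit 10, nat_lit 4250622196755464192), (nat_lit 11, nat_lit 1609242119670285205504), (nat_lit 12, nat_lit 7336786434948333568), (nat_lit 13, nat_lit 873938218753097465856), (nat_lit 14, nat_lit 3086164238192869376), (nat_lit 15, nat_lit 291315946172589277184), (nat_lit 17, nat_lit 41619312243132858368), (nat_lit 19, nat_lit 1717815119708160), (nat_lit 21, nat_lit 572605039902720), (nat_lit 23, nat_lit 114521007980544), (nat_lit 25, nat_lit 10411000725504), (nat_lit 29, nat_lit 3279727948462030848), (nat_lit 31, nat_lit 70348131979996692480), (nat_lit 33, nat_lit 102038301075474219008), (nat_lit 34, nat_lit 134473442965460090880), (nat_lit 35, nat_lit 167893700907613814784), (nat_lit 36, nat_lit 166043214403824779264), (nat_lit 37, nat_lit 397515508820188594176), (nat_lit 38, nat_lit 2608322841313017856), (nat_lit 39, nat_lit 234895527939202351104), (nat_lit 41, nat_lit 262103093657731072)]), (FastCell.sprN 52 [(nat_lit 6, nat_lit 15534844418405171200), (nat_lit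 32, nat_lit 10519164956400680960), (nat_lit 36, nat_lit 14143504116646674432)], FastCell.sprN 52 [(nat_lit 4, nat_lit 5649034333965516800), (nat_lit 8, nat_lit 9885810084439654400), (nat_lit 34, nat_lit 25727334140797255680)], FastCell.sprN 52 [(nat_lit 4, nat_lit 5649034333965516800), (nat_lit 6, nat_lit 15534844418405171200), (nat_lit 8, nat_lit 9885810084439654400), (nat_lit 32, nat_lit 10519164956400680960), (nat_lit 34, nat_lit 25727334140797255680), (nat_lit 36, nat_lit 14143504116646674432)]), z52, (FastCell.sprN 52 [(nat_lit 6, nat_lit 13610917320707801088), (nat_lit 30, nat_lit 3924737350545965056)], FastCell.sprN 52 [(nat_lit 4, nat_lit 6375933295133196288), (nat_lit 8, nat_lit 6943869535933956096), (nat_lit 32, nat_lit 4564564972297781248), (nat_lit 35, nat_lit 655257734144327680)], FastCell.sprN 52 [(nat_lit 4, nat_lit 6375933295133196288), (nat_lit 6, nat_lit 13610917320707801088), (nat_lit 8, nat_lit 6943869535933956096), (nat_lit 30, nat_lit 3924737350545965056), (nat_lit 32, nat_lit 4564564972297781248), (nat_lit 35, nat_lit 655257734144327680)]), z52⟩,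
  ⟨(FastCell.sprN 52 [(nat_lit 1, nat_lit 12999226713195143168), (nat_lit 5, nat_lit 289267876502045335552), (nat_lit 9, nat_lit 416184398782427996160), (nat_lit 13, nat_lit 66586738317004308480), (nat_lit 17, nat_lit 437261613465600), (nat_lit 21, nat_lit 24986377912320), (nat_lit 29, nat_lit 366774139605745664)], FastCell.sprN 52 [(nat_lit 3, nat_lit 97014802231090114560), (nat_lit 7, nat_lit 454972652448393768960), (nat_lit 11, nat_lit 224727006083949895680), (nat_lit 15, nat_lit 8324104374151864320), (nat_lit 19, nat_lit 135342880358400), (nat_lit 23, nat_lit 2082198159360), (nat_lit 27, nat_lit 366774139605745664)], FastCell.sprN 52 [(nat_lit 1, nat_lit 12999226713195143168), (nat_lit 3, nat_lit 97014802231090114560), (nat_lit 5, nat_lit 289267876502045335552), (nat_lit 7, nat_lit 454972652448393768960), (nat_lit 9, nat_lit 416184398782427996160), (nat_lit 11, nat_lit 224727006083949895680), (nat_lit 13, nat_lit 66586738317004308480), (nat_lit 15, nat_lit 8324104374151864320), (nat_lit 17, nat_lit 437261613465600), (nat_lit 19, nat_lit 135342880358400), (nat_lit 21, nat_lit 24986377912320),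 (nat_lit 23, nat_lit 2082198159360), (nat_lit 27, nat_lit 366774139605745664), (nat_lit 29, nat_lit 366774139605745664)]), (FastCell.sprN 52 [(nat_lit 0, nat_lit 2186485298974687232), (nat_lit 2, nat_lit 28139252791998676992), (nat_lit 7, nat_lit 33618360741365022720), (nat_lit 8, nat_lit 72275547058216108032), (nat_lit 28, nat_lit 53239478753612005376), (nat_lit 32, nat_lit 1778675591500548538368), (nat_lit 36, nat_lit 2913367285864677244928), (nat_lit 40, nat_lit 582631892345178554368), (nat_lit 44, nat_lit 3435630239416320), (nat_lit 48, nat_lit 229042015961088)], FastCell.sprN 52 [(nat_lit 4, nat_lit 29153800307278348288), (nat_lit 5, nat_lit 33618360741365022720), (nat_lit 6, nat_lit 37309711312803069952), (nat_lit 10, nat_lit 36137773529108054016), (nat_lit 30, nat_lit 554427637085023240192), (nat_lit 34, nat_lit 2942374048026706575360), (nat_lit 38, nat_lit 1747876437506194931712), (nat_lit 42, nat_lit 83238624486265716736), (nat_lit 46, nat_lit 1145210079805440), (nat_lit 50, nat_lit 20822001451008)], FastCell.sprN 52 [(nat_lit 0, nat_lit 2186485298974687232), (nat_lit 2, nat_lit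 28139252791998676992), (nat_lit 4, nat_lit 29153800307278348288), (nat_lit 5, nat_lit 33618360741365022720), (nat_lit 6, nat_lit 37309711312803069952), (nat_lit 7, nat_lit 33618360741365022720), (nat_lit 8, nat_lit 72275547058216108032), (nat_lit 10, nat_lit 36137773529108054016), (nat_lit 28, nat_lit 53239478753612005376), (nat_lit 30, nat_lit 554427637085023240192), (nat_lit 32, nat_lit 1778675591500548538368), (nat_lit 34, nat_lit 2942374048026706575360), (nat_lit 36, nat_lit 2913367285864677244928), (nat_lit 38, nat_lit 1747876437506194931712), (nat_lit 40, nat_lit 582631892345178554368), (nat_lit 42, nat_lit 83238624486265716736), (nat_lit 44, nat_lit 3435630239416320), (nat_lit 46, nat_lit 1145210079805440), (nat_lit 48, nat_lit 229042015961088), (nat_lit 50, nat_lit 20822001451008)]), (FastCell.sprN 52 [(nat_lit 3, nat_lit 46947214434324447232), (nat_lit 7, nat_lit 880183344691767410688), (nat_lit 11, nat_lit 1456683642932338622464), (nat_lit 15, nat_lit 291315946172589277184), (nat_lit 19, nat_lit 1717815119708160), (nat_lit 23, nat_lit 114521007980544), (nat_lit 31, nat_lit 4236775750474137600)],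 FastCell.sprN 52 [(nat_lit 5, nat_lit 302255794972245622784), (nat_lit 9, nat_lit 1457318071582630871040), (nat_lit 13, nat_lit 873938218753097465856), (nat_lit 17, nat_lit 41619312243132858368), (nat_lit 21, nat_lit 572605039902720), (nat_lit 25, nat_lit 10411000725504), (nat_lit 29, nat_lit 4236775750474137600)], FastCell.sprN 52 [(nat_lit 3, nat_lit 46947214434324447232), (nat_lit 5, nat_lit 302255794972245622784), (nat_lit 7, nat_lit 880183344691767410688), (nat_lit 9, nat_lit 1457318071582630871040), (nat_lit 11, nat_lit 1456683642932338622464), (nat_lit 13, nat_lit 873938218753097465856), (nat_lit 15, nat_lit 291315946172589277184), (nat_lit 17, nat_lit 41619312243132858368), (nat_lit 19, nat_lit 1717815119708160), (nat_lit 21, nat_lit 572605039902720), (nat_lit 23, nat_lit 114521007980544), (nat_lit 25, nat_lit 10411000725504), (nat_lit 29, nat_lit 4236775750474137600), (nat_lit 31, nat_lit 4236775750474137600)]), z52, (FastCell.sprN 52 [(nat_lit 1, nat_lit 512147325750083584), (nat_lit 31, nat_lit 771541059548217344)], FastCell.sprN 52 [(nat_lit 3, nat_lit 652080710328254464),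 (nat_lit 6, nat_lit 65525773414432768), (nat_lit 29, nat_lit 1062655549188866048)], FastCell.sprN 52 [(nat_lit 1, nat_lit 512147325750083584), (nat_lit 3, nat_lit 652080710328254464), (nat_lit 6, nat_lit 65525773414432768), (nat_lit 29, nat_lit 1062655549188866048), (nat_lit 31, nat_lit 771541059548217344)]), z52, z52⟩⟩

theorem eTpn : rfam2 Bt 3 p sn = some Tpn := by decide +kernel

theorem ttpn : tailTest2 1107727027 false 72 3 989560045568 (2412577500) Bt Tpn lastRow tn = true := by decide +kernel

/-- Data. -/
noncomputable def Hpp : VFam := ⟨⟨(FastCell.sprN 65 [(nat_lit 2, nat_lit 4611686018427387904), (nat_lit 50, nat_lit 5174436134353494016), (nat_lit 53, nat_lit 4312030797340082176), (nat_lit 57, nat_lit 14193871325778268160), (nat_lit 59, nat_lit 11828227984861429760)], FastCell.sprN 65 [(nat_lit 20, nat_lit 1367266327164616704)], FastCell.sprN 65 [(nat_lit 2, nat_lit 4611686018427387904), (nat_lit 20, nat_lit 1367266327164616704), (nat_lit 50, nat_lit 5174436134353494016), (nat_lit 53, nat_lit 4312030797340082176), (nat_lit 57, nat_lit 14193871325778268160), (nat_lit 59, nat_lit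 11828227984861429760)]), (FastCell.sprN 65 [(nat_lit 52, nat_lit 8624061594680164352), (nat_lit 58, nat_lit 23656455969722859520)], FastCell.sprN 65 [(nat_lit 10, nat_lit 2734532654329233408)], FastCell.sprN 65 [(nat_lit 10, nat_lit 2734532654329233408), (nat_lit 52, nat_lit 8624061594680164352), (nat_lit 58, nat_lit 23656455969722859520)]), (FastCell.sprN 65 [(nat_lit 50, nat_lit 4312030797340082176), (nat_lit 51, nat_lit 71409456973013319680), (nat_lit 57, nat_lit 11828227984861429760)], FastCell.sprN 65 [(nat_lit 2, nat_lit 1367266327164616704)], FastCell.sprN 65 [(nat_lit 2, nat_lit 1367266327164616704), (nat_lit 50, nat_lit 4312030797340082176), (nat_lit 51, nat_lit 71409456973013319680), (nat_lit 57, nat_lit 11828227984861429760)]), z65, z65, z65, z65⟩,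
  ⟨(FastCell.sprN 65 [(nat_lit 2, nat_lit 3571450405755813888), (nat_lit 10, nat_lit 366774139605745664), (nat_lit 21, nat_lit 1862998975104155648), (nat_lit 36, nat_lit 2979186616565760000), (nat_lit 44, nat_lit 4312030797340082176), (nat_lit 53, nat_lit 11828227984861429760)], FastCell.sprN 65 [(nat_lit 20, nat_lit 1367266327164616704), (nat_lit 45, nat_lit 5174436134353494016), (nat_lit 54, nat_lit 14193871325778268160)], FastCell.sprN 65 [(nat_lit 2, nat_lit 3571450405755813888), (nat_lit 10, nat_lit 366774139605745664), (nat_lit 20, nat_lit 1367266327164616704), (nat_lit 21, nat_lit 1862998975104155648), (nat_lit 36, nat_lit 2979186616565760000), (nat_lit 44, nat_lit 4312030797340082176), (nat_lit 45, nat_lit 5174436134353494016), (nat_lit 53, nat_lit 11828227984861429760), (nat_lit 54, nat_lit 14193871325778268160)]), (FastCell.sprN 65 [(nat_lit 4, nat_lit 33618360741365022720), (nat_lit 10, nat_lit 28031952167356071936), (nat_lit 24, nat_lit 36137773529108054016)], FastCell.sprN 65 [(nat_lit 2, nat_lit 33684161173643067392), (nat_lit 14, nat_lit 27737904861444833280), (nat_lit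 20, nat_lit 1014547515279671296), (nat_lit 35, nat_lit 1171937783695015936)], FastCell.sprN 65 [(nat_lit 2, nat_lit 33684161173643067392), (nat_lit 4, nat_lit 33618360741365022720), (nat_lit 10, nat_lit 28031952167356071936), (nat_lit 14, nat_lit 27737904861444833280), (nat_lit 20, nat_lit 1014547515279671296), (nat_lit 24, nat_lit 36137773529108054016), (nat_lit 35, nat_lit 1171937783695015936)]), (FastCell.sprN 65 [(nat_lit 10, nat_lit 4236775750474137600)], FastCell.sprN 65 [(nat_lit 2, nat_lit 1596997601624850432), (nat_lit 21, nat_lit 4714501372215558144)], FastCell.sprN 65 [(nat_lit 2, nat_lit 1596997601624850432), (nat_lit 10, nat_lit 4236775750474137600), (nat_lit 21, nat_lit 4714501372215558144)]), z65, (FastCell.sprN 65 [(nat_lit 0, nat_lit 139933384578170880), (nat_lit 4, nat_lit 65525773414432768), (nat_lit 10, nat_lit 291114489640648704), (nat_lit 29, nat_lit 771541059548217344)], FastCell.sprN 65 [(nat_lit 20, nat_lit 652080710328254464)], FastCell.sprN 65 [(nat_lit 0, nat_lit 139933384578170880), (nat_lit 4, nat_lit 65525773414432768), (nat_lit 10, nat_lit 291114489640648704),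 (nat_lit 20, nat_lit 652080710328254464), (nat_lit 29, nat_lit 771541059548217344)]), z65, z65⟩,
  ⟨(FastCell.sprN 65 [(nat_lit 2, nat_lit 329329469036691456), (nat_lit 16, nat_lit 2487054499840000), (nat_lit 21, nat_lit 847160916641316864), (nat_lit 24, nat_lit 2569859316454522880), (nat_lit 29, nat_lit 445898399028346880), (nat_lit 36, nat_lit 3484202024566784), (nat_lit 46, nat_lit 2826462145253351424)], FastCell.sprN 65 [(nat_lit 11, nat_lit 1720074156541739008), (nat_lit 39, nat_lit 4441985411669032960), (nat_lit 55, nat_lit 2365643340916838400)], FastCell.sprN 65 [(nat_lit 2, nat_lit 329329469036691456), (nat_lit 11, nat_lit 1720074156541739008), (nat_lit 16, nat_lit 2487054499840000), (nat_lit 21, nat_lit 847160916641316864), (nat_lit 24, nat_lit 2569859316454522880), (nat_lit 29, nat_lit 445898399028346880), (nat_lit 36, nat_lit 3484202024566784), (nat_lit 39, nat_lit 4441985411669032960), (nat_lit 46, nat_lit 2826462145253351424), (nat_lit 55, nat_lit 2365643340916838400)]), (FastCell.sprN 65 [(nat_lit 2, nat_lit 1100322418817236992), (nat_lit 12, nat_lit 14733645189117640704),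 (nat_lit 30, nat_lit 1108128923457159168)], FastCell.sprN 65 [(nat_lit 21, nat_lit 2567418977240219648), (nat_lit 42, nat_lit 32771052782223360000), (nat_lit 48, nat_lit 8624061594680164352), (nat_lit 56, nat_lit 23656455969722859520)], FastCell.sprN 65 [(nat_lit 2, nat_lit 1100322418817236992), (nat_lit 12, nat_lit 14733645189117640704), (nat_lit 21, nat_lit 2567418977240219648), (nat_lit 30, nat_lit 1108128923457159168), (nat_lit 42, nat_lit 32771052782223360000), (nat_lit 48, nat_lit 8624061594680164352), (nat_lit 56, nat_lit 23656455969722859520)]), (FastCell.sprN 65 [(nat_lit 2, nat_lit 40680661923869491200), (nat_lit 7, nat_lit 1164457958562594816), (nat_lit 12, nat_lit 117894564107750735872), (nat_lit 16, nat_lit 72275547058216108032), (nat_lit 24, nat_lit 152558476737946583040), (nat_lit 26, nat_lit 3086164238192869376), (nat_lit 29, nat_lit 35102952393801728), (nat_lit 41, nat_lit 5273720026627571712), (nat_lit 50, nat_lit 4312030797340082176), (nat_lit 51, nat_lit 71409456973013319680), (nat_lit 57, nat_lit 11828227984861429760)], FastCell.sprN 65 [(nat_lit 5, nat_lit 41606857292167249920),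 (nat_lit 10, nat_lit 2029095030559342592), (nat_lit 15, nat_lit 168091803706825113600), (nat_lit 17, nat_lit 2608322841313017856), (nat_lit 21, nat_lit 98111832585746251776), (nat_lit 34, nat_lit 234895527939202351104), (nat_lit 48, nat_lit 71409456973013319680)], FastCell.sprN 65 [(nat_lit 2, nat_lit 40680661923869491200), (nat_lit 5, nat_lit 41606857292167249920), (nat_lit 7, nat_lit 1164457958562594816), (nat_lit 10, nat_lit 2029095030559342592), (nat_lit 12, nat_lit 117894564107750735872), (nat_lit 15, nat_lit 168091803706825113600), (nat_lit 16, nat_lit 72275547058216108032), (nat_lit 17, nat_lit 2608322841313017856), (nat_lit 21, nat_lit 98111832585746251776), (nat_lit 24, nat_lit 152558476737946583040), (nat_lit 26, nat_lit 3086164238192869376), (nat_lit 29, nat_lit 35102952393801728), (nat_lit 34, nat_lit 234895527939202351104), (nat_lit 41, nat_lit 5273720026627571712), (nat_lit 48, nat_lit 71409456973013319680), (nat_lit 50, nat_lit 4312030797340082176), (nat_lit 51, nat_lit 71409456973013319680), (nat_lit 57, nat_lit 11828227984861429760)]), (FastCell.sprN 65 [(nat_lit 2, nat_lit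 4236775750474137600), (nat_lit 30, nat_lit 14143504116646674432)], FastCell.sprN 65 [(nat_lit 12, nat_lit 2559674092496093184), (nat_lit 21, nat_lit 9885810084439654400)], FastCell.sprN 65 [(nat_lit 2, nat_lit 4236775750474137600), (nat_lit 12, nat_lit 2559674092496093184), (nat_lit 21, nat_lit 9885810084439654400), (nat_lit 30, nat_lit 14143504116646674432)]), z65, (FastCell.sprN 65 [(nat_lit 2, nat_lit 291114489640648704), (nat_lit 21, nat_lit 276821751160111104), (nat_lit 29, nat_lit 4564564972297781248)], FastCell.sprN 65 [(nat_lit 10, nat_lit 639827621751816192), (nat_lit 15, nat_lit 655257734144327680), (nat_lit 36, nat_lit 6943869535933956096)], FastCell.sprN 65 [(nat_lit 2, nat_lit 291114489640648704), (nat_lit 10, nat_lit 639827621751816192), (nat_lit 15, nat_lit 655257734144327680), (nat_lit 21, nat_lit 276821751160111104), (nat_lit 29, nat_lit 4564564972297781248), (nat_lit 36, nat_lit 6943869535933956096)]), z65⟩,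
  ⟨(FastCell.sprN 65 [(nat_lit 2, nat_lit 1040235612671574016), (nat_lit 45, nat_lit 862405337013411840), (nat_lit 50, nat_lit 862405337013411840), (nat_lit 54, nat_lit 2365643340916838400), (nat_lit 57, nat_lit 2365643340916838400)], FastCell.sprN 65 [(nat_lit 10, nat_lit 366774139605745664), (nat_lit 21, nat_lit 1862998975104155648), (nat_lit 36, nat_lit 2979186616565760000)], FastCell.sprN 65 [(nat_lit 2, nat_lit 1040235612671574016), (nat_lit 10, nat_lit 366774139605745664), (nat_lit 21, nat_lit 1862998975104155648), (nat_lit 36, nat_lit 2979186616565760000), (nat_lit 45, nat_lit 862405337013411840), (nat_lit 50, nat_lit 862405337013411840), (nat_lit 54, nat_lit 2365643340916838400), (nat_lit 57, nat_lit 2365643340916838400)]), (FastCell.sprN 65 [(nat_lit 2, nat_lit 33684161173643067392), (nat_lit 14, nat_lit 27737904861444833280), (nat_lit 20, nat_lit 1014547515279671296), (nat_lit 35, nat_lit 1171937783695015936), (nat_lit 52, nat_lit 8624061594680164352), (nat_lit 58, nat_lit 23656455969722859520)], FastCell.sprN 65 [(nat_lit 4, nat_lit 33618360741365022720), (nat_lit 10, nat_lit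 30766484821685305344), (nat_lit 24, nat_lit 36137773529108054016)], FastCell.sprN 65 [(nat_lit 2, nat_lit 33684161173643067392), (nat_lit 4, nat_lit 33618360741365022720), (nat_lit 10, nat_lit 30766484821685305344), (nat_lit 14, nat_lit 27737904861444833280), (nat_lit 20, nat_lit 1014547515279671296), (nat_lit 24, nat_lit 36137773529108054016), (nat_lit 35, nat_lit 1171937783695015936), (nat_lit 52, nat_lit 8624061594680164352), (nat_lit 58, nat_lit 23656455969722859520)]), (FastCell.sprN 65 [(nat_lit 2, nat_lit 229731274460233728), (nat_lit 21, nat_lit 4714501372215558144), (nat_lit 50, nat_lit 4312030797340082176), (nat_lit 51, nat_lit 71409456973013319680), (nat_lit 57, nat_lit 11828227984861429760)], FastCell.sprN 65 [(nat_lit 10, nat_lit 4236775750474137600)], FastCell.sprN 65 [(nat_lit 2, nat_lit 229731274460233728), (nat_lit 10, nat_lit 4236775750474137600), (nat_lit 21, nat_lit 4714501372215558144), (nat_lit 50, nat_lit 4312030797340082176), (nat_lit 51, nat_lit 71409456973013319680), (nat_lit 57, nat_lit 11828227984861429760)]), z65, (FastCell.sprN 65 [(nat_lit 20, nat_lit 652080710328254464)],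 FastCell.sprN 65 [(nat_lit 0, nat_lit 139933384578170880), (nat_lit 4, nat_lit 65525773414432768), (nat_lit 10, nat_lit 291114489640648704), (nat_lit 29, nat_lit 771541059548217344)], FastCell.sprN 65 [(nat_lit 0, nat_lit 139933384578170880), (nat_lit 4, nat_lit 65525773414432768), (nat_lit 10, nat_lit 291114489640648704), (nat_lit 20, nat_lit 652080710328254464), (nat_lit 29, nat_lit 771541059548217344)]), z65, z65⟩⟩

/-- Data. -/
noncomputable def Gpp : VFam := ⟨⟨(FastCell.sprN 65 [(nat_lit 1, nat_lit 44982176021338914816), (nat_lit 3, nat_lit 41852666419144032256)], FastCell.sprN 65 [(nat_lit 2, nat_lit 86833457241589284864)], FastCell.sprN 65 [(nat_lit 1, nat_lit 44982176021338914816), (nat_lit 2, nat_lit 86833457241589284864), (nat_lit 3, nat_lit 41852666419144032256)]), (FastCell.sprN 65 [(nat_lit 4, nat_lit 33618360741365022720), (nat_lit 6, nat_lit 559733538312683520), (nat_lit 8, nat_lit 262103093657731072)], FastCell.sprN 65 [(nat_lit 2, nat_lit 33684161173643067392)], FastCell.sprN 65 [(nat_lit 2, nat_lit 33684161173643067392), (nat_lit 4, nat_lit 33618360741365022720), (nat_lit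 6, nat_lit 559733538312683520), (nat_lit 8, nat_lit 262103093657731072)]), (FastCell.sprN 65 [], FastCell.sprN 65 [(nat_lit 2, nat_lit 1064665067749900288)], FastCell.sprN 65 [(nat_lit 2, nat_lit 1064665067749900288)]), z65, z65, z65, z65⟩,
  ⟨(FastCell.sprN 65 [(nat_lit 1, nat_lit 44982176021338914816), (nat_lit 3, nat_lit 41852666419144032256)], FastCell.sprN 65 [(nat_lit 2, nat_lit 86833457241589284864)], FastCell.sprN 65 [(nat_lit 1, nat_lit 44982176021338914816), (nat_lit 2, nat_lit 86833457241589284864), (nat_lit 3, nat_lit 41852666419144032256)]), (FastCell.sprN 65 [(nat_lit 4, nat_lit 33618360741365022720), (nat_lit 6, nat_lit 559733538312683520), (nat_lit 8, nat_lit 262103093657731072)], FastCell.sprN 65 [(nat_lit 2, nat_lit 33684161173643067392)], FastCell.sprN 65 [(nat_lit 2, nat_lit 33684161173643067392), (nat_lit 4, nat_lit 33618360741365022720), (nat_lit 6, nat_lit 559733538312683520), (nat_lit 8, nat_lit 262103093657731072)]), (FastCell.sprN 65 [], FastCell.sprN 65 [(nat_lit 2, nat_lit 1064665067749900288)], FastCell.sprN 65 [(nat_lit 2, nat_lit 1064665067749900288)]),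 z65, z65, z65, z65⟩,
  ⟨(FastCell.sprN 65 [(nat_lit 1, nat_lit 44982176021338914816), (nat_lit 3, nat_lit 41852666419144032256)], FastCell.sprN 65 [(nat_lit 2, nat_lit 86833457241589284864)], FastCell.sprN 65 [(nat_lit 1, nat_lit 44982176021338914816), (nat_lit 2, nat_lit 86833457241589284864), (nat_lit 3, nat_lit 41852666419144032256)]), (FastCell.sprN 65 [(nat_lit 4, nat_lit 33618360741365022720), (nat_lit 6, nat_lit 559733538312683520), (nat_lit 8, nat_lit 262103093657731072)], FastCell.sprN 65 [(nat_lit 2, nat_lit 33684161173643067392)], FastCell.sprN 65 [(nat_lit 2, nat_lit 33684161173643067392), (nat_lit 4, nat_lit 33618360741365022720), (nat_lit 6, nat_lit 559733538312683520), (nat_lit 8, nat_lit 262103093657731072)]), (FastCell.sprN 65 [], FastCell.sprN 65 [(nat_lit 2, nat_lit 1064665067749900288)], FastCell.sprN 65 [(nat_lit 2, nat_lit 1064665067749900288)]), z65, z65, z65, z65⟩,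
  ⟨z65, z65, z65, z65, z65, z65, z65⟩⟩

theorem eHpp : rfamH Bh 3 p sp = some (Hpp, Gpp) := by decide +kernel

theorem hhpp : headTestS 72 3 15235533062 Bh Hpp Gpp z n0 hp = true := by decide +kernel

/-- Data. -/
noncomputable def Tpp : VFam := ⟨⟨(FastCell.sprN 52 [(nat_lit 0, nat_lit 14772992455036895232), (nat_lit 4, nat_lit 264662613238413914112), (nat_lit 8, nat_lit 344126563154626990080), (nat_lit 12, nat_lit 32256680397762990080), (nat_lit 14, nat_lit 4731275401556439040)], FastCell.sprN 52 [(nat_lit 2, nat_lit 93783482530043547648), (nat_lit 6, nat_lit 398805723914163138560), (nat_lit 10, nat_lit 165595274862273703936), (nat_lit 16, nat_lit 2365643340916838400)], FastCell.sprN 52 [(nat_lit 0, nat_lit 14772992455036895232), (nat_lit 2, nat_lit 93783482530043547648), (nat_lit 4, nat_lit 264662613238413914112), (nat_lit 6, nat_lit 398805723914163138560), (nat_lit 8, nat_lit 344126563154626990080), (nat_lit 10, nat_lit 165595274862273703936), (nat_lit 12, nat_lit 32256680397762990080), (nat_lit 14, nat_lit 4731275401556439040), (nat_lit 16, nat_lit 2365643340916838400)]), (FastCell.sprN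 52 [(nat_lit 29, nat_lit 29545984910073790464), (nat_lit 33, nat_lit 583026191310981693440), (nat_lit 37, nat_lit 871096266913700904960), (nat_lit 41, nat_lit 165595191788060016640)], FastCell.sprN 52 [(nat_lit 31, nat_lit 205980967107131604992), (nat_lit 35, nat_lit 914216574887101726720), (nat_lit 39, nat_lit 505409636958860214272), (nat_lit 43, nat_lit 23656455969722859520)], FastCell.sprN 52 [(nat_lit 29, nat_lit 29545984910073790464), (nat_lit 31, nat_lit 205980967107131604992), (nat_lit 33, nat_lit 583026191310981693440), (nat_lit 35, nat_lit 914216574887101726720), (nat_lit 37, nat_lit 871096266913700904960), (nat_lit 39, nat_lit 505409636958860214272), (nat_lit 41, nat_lit 165595191788060016640), (nat_lit 43, nat_lit 23656455969722859520)]), (FastCell.sprN 52 [(nat_lit 4, nat_lit 14772992455036895232), (nat_lit 5, nat_lit 71409456973013319680), (nat_lit 8, nat_lit 291513095655490846720), (nat_lit 9, nat_lit 714094569730133196800), (nat_lit 12, nat_lit 435548133456850452480), (nat_lit 13, nat_lit 357047284865066598400), (nat_lit 16, nat_lit 82797595894030008320)], FastCell.sprN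 52 [(nat_lit 6, nat_lit 102990483553565802496), (nat_lit 7, nat_lit 357047284865066598400), (nat_lit 10, nat_lit 457108287443550863360), (nat_lit 11, nat_lit 714094569730133196800), (nat_lit 14, nat_lit 252704818479430107136), (nat_lit 15, nat_lit 71409456973013319680), (nat_lit 18, nat_lit 11828227984861429760)], FastCell.sprN 52 [(nat_lit 4, nat_lit 14772992455036895232), (nat_lit 5, nat_lit 71409456973013319680), (nat_lit 6, nat_lit 102990483553565802496), (nat_lit 7, nat_lit 357047284865066598400), (nat_lit 8, nat_lit 291513095655490846720), (nat_lit 9, nat_lit 714094569730133196800), (nat_lit 10, nat_lit 457108287443550863360), (nat_lit 11, nat_lit 714094569730133196800), (nat_lit 12, nat_lit 435548133456850452480), (nat_lit 13, nat_lit 357047284865066598400), (nat_lit 14, nat_lit 252704818479430107136), (nat_lit 15, nat_lit 71409456973013319680), (nat_lit 16, nat_lit 82797595894030008320), (nat_lit 18, nat_lit 11828227984861429760)]), z52, z52, z52, z52⟩,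
  ⟨(FastCell.sprN 52 [(nat_lit 0, nat_lit 14772992455036895232), (nat_lit 4, nat_lit 291554302516219502592), (nat_lit 8, nat_lit 483331435006675107840), (nat_lit 12, nat_lit 96991455939531038720), (nat_lit 28, nat_lit 366774139605745664)], FastCell.sprN 52 [(nat_lit 2, nat_lit 96437629906905706496), (nat_lit 6, nat_lit 486966810754582474752), (nat_lit 10, nat_lit 289051873930196094976), (nat_lit 14, nat_lit 14193871325778268160), (nat_lit 30, nat_lit 366774139605745664)], FastCell.sprN 52 [(nat_lit 0, nat_lit 14772992455036895232), (nat_lit 2, nat_lit 96437629906905706496), (nat_lit 4, nat_lit 291554302516219502592), (nat_lit 6, nat_lit 486966810754582474752), (nat_lit 8, nat_lit 483331435006675107840), (nat_lit 10, nat_lit 289051873930196094976), (nat_lit 12, nat_lit 96991455939531038720), (nat_lit 14, nat_lit 14193871325778268160), (nat_lit 28, nat_lit 366774139605745664), (nat_lit 30, nat_lit 366774139605745664)]), (FastCell.sprN 52 [(nat_lit 5, nat_lit 29153800307278348288), (nat_lit 6, nat_lit 33618360741365022720), (nat_lit 7, nat_lit 37309711312803069952), (nat_lit 11, nat_lit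 36137773529108054016), (nat_lit 29, nat_lit 28031952167356071936), (nat_lit 35, nat_lit 27737904861444833280)], FastCell.sprN 52 [(nat_lit 1, nat_lit 2186485298974687232), (nat_lit 3, nat_lit 28139252791998676992), (nat_lit 8, nat_lit 33618360741365022720), (nat_lit 9, nat_lit 72275547058216108032), (nat_lit 31, nat_lit 28031952167356071936), (nat_lit 33, nat_lit 27737904861444833280)], FastCell.sprN 52 [(nat_lit 1, nat_lit 2186485298974687232), (nat_lit 3, nat_lit 28139252791998676992), (nat_lit 5, nat_lit 29153800307278348288), (nat_lit 6, nat_lit 33618360741365022720), (nat_lit 7, nat_lit 37309711312803069952), (nat_lit 8, nat_lit 33618360741365022720), (nat_lit 9, nat_lit 72275547058216108032), (nat_lit 11, nat_lit 36137773529108054016), (nat_lit 29, nat_lit 28031952167356071936), (nat_lit 31, nat_lit 28031952167356071936), (nat_lit 33, nat_lit 27737904861444833280), (nat_lit 35, nat_lit 27737904861444833280)]), (FastCell.sprN 52 [(nat_lit 6, nat_lit 11026000346055966720), (nat_lit 30, nat_lit 4236775750474137600)], FastCell.sprN 52 [(nat_lit 4, nat_lit 6311498973840408576), (nat_lit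 8, nat_lit 4714501372215558144), (nat_lit 32, nat_lit 4236775750474137600)], FastCell.sprN 52 [(nat_lit 4, nat_lit 6311498973840408576), (nat_lit 6, nat_lit 11026000346055966720), (nat_lit 8, nat_lit 4714501372215558144), (nat_lit 30, nat_lit 4236775750474137600), (nat_lit 32, nat_lit 4236775750474137600)]), z52, (FastCell.sprN 52 [(nat_lit 4, nat_lit 652080710328254464), (nat_lit 7, nat_lit 65525773414432768), (nat_lit 30, nat_lit 1062655549188866048)], FastCell.sprN 52 [(nat_lit 2, nat_lit 512147325750083584), (nat_lit 32, nat_lit 771541059548217344)], FastCell.sprN 52 [(nat_lit 2, nat_lit 512147325750083584), (nat_lit 4, nat_lit 652080710328254464), (nat_lit 7, nat_lit 65525773414432768), (nat_lit 30, nat_lit 1062655549188866048), (nat_lit 32, nat_lit 771541059548217344)]), z52, z52⟩,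
  ⟨(FastCell.sprN 52 [(nat_lit 1, nat_lit 1179974587702575104), (nat_lit 5, nat_lit 6315484303657164800), (nat_lit 9, nat_lit 51902833788784984064), (nat_lit 13, nat_lit 18635845457170063360), (nat_lit 27, nat_lit 445898399028346880), (nat_lit 30, nat_lit 1720074156541739008), (nat_lit 31, nat_lit 445898399028346880), (nat_lit 33, nat_lit 2487054499840000)], FastCell.sprN 52 [(nat_lit 3, nat_lit 1573285104056512512), (nat_lit 7, nat_lit 28111065488835112960), (nat_lit 11, nat_lit 45984144203506323456), (nat_lit 15, nat_lit 2365643340916838400), (nat_lit 28, nat_lit 1720074156541739008), (nat_lit 29, nat_lit 891796798056693760), (nat_lit 35, nat_lit 2487054499840000)], FastCell.sprN 52 [(nat_lit 1, nat_lit 1179974587702575104), (nat_lit 3, nat_lit 1573285104056512512), (nat_lit 5, nat_lit 6315484303657164800), (nat_lit 7, nat_lit 28111065488835112960), (nat_lit 9, nat_lit 51902833788784984064), (nat_lit 11, nat_lit 45984144203506323456), (nat_lit 13, nat_lit 18635845457170063360), (nat_lit 15, nat_lit 2365643340916838400), (nat_lit 27, nat_lit 445898399028346880), (nat_lit 28, nat_lit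 1720074156541739008), (nat_lit 29, nat_lit 891796798056693760), (nat_lit 30, nat_lit 1720074156541739008), (nat_lit 31, nat_lit 445898399028346880), (nat_lit 33, nat_lit 2487054499840000), (nat_lit 35, nat_lit 2487054499840000)]), (FastCell.sprN 52 [(nat_lit 4, nat_lit 4034515535663202304), (nat_lit 29, nat_lit 44982176021338914816), (nat_lit 32, nat_lit 299650903926839967744), (nat_lit 36, nat_lit 540396418555401207808), (nat_lit 40, nat_lit 141938735818337157120)], FastCell.sprN 52 [(nat_lit 2, nat_lit 1467096558422982656), (nat_lit 6, nat_lit 2567418977240219648), (nat_lit 30, nat_lit 136043253475640868864), (nat_lit 34, nat_lit 503796238537136799744), (nat_lit 38, nat_lit 363470901140523057152), (nat_lit 42, nat_lit 23656455969722859520)], FastCell.sprN 52 [(nat_lit 2, nat_lit 1467096558422982656), (nat_lit 4, nat_lit 4034515535663202304), (nat_lit 6, nat_lit 2567418977240219648), (nat_lit 29, nat_lit 44982176021338914816), (nat_lit 30, nat_lit 136043253475640868864), (nat_lit 32, nat_lit 299650903926839967744), (nat_lit 34, nat_lit 503796238537136799744), (nat_lit 36, nat_lit 540396418555401207808),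 (nat_lit 38, nat_lit 363470901140523057152), (nat_lit 40, nat_lit 141938735818337157120), (nat_lit 42, nat_lit 23656455969722859520)]), (FastCell.sprN 52 [(nat_lit 4, nat_lit 71409456973013319680), (nat_lit 5, nat_lit 51185253366892593152), (nat_lit 7, nat_lit 304352882515523928064), (nat_lit 8, nat_lit 714094569730133196800), (nat_lit 11, nat_lit 588106610194797035520), (nat_lit 12, nat_lit 349710498430118264832), (nat_lit 15, nat_lit 82797595894030008320), (nat_lit 29, nat_lit 3279727948462030848), (nat_lit 33, nat_lit 183599526816579059712), (nat_lit 36, nat_lit 166043214403824779264), (nat_lit 37, nat_lit 683153336712241872896), (nat_lit 38, nat_lit 2608322841313017856), (nat_lit 41, nat_lit 262103093657731072)], FastCell.sprN 52 [(nat_lit 3, nat_lit 41290911879675248640), (nat_lit 6, nat_lit 357047284865066598400), (nat_lit 9, nat_lit 720618383627276779520), (nat_lit 10, nat_lit 709843947533377732608), (nat_lit 13, nat_lit 252704818479430107136), (nat_lit 14, nat_lit 68323292734820450304), (nat_lit 17, nat_lit 11828227984861429760), (nat_lit 31, nat_lit 1061324993016627200), (nat_lit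 34, nat_lit 134473442965460090880), (nat_lit 35, nat_lit 596350442745693732864), (nat_lit 39, nat_lit 306304984912215670784)], FastCell.sprN 52 [(nat_lit 3, nat_lit 41290911879675248640), (nat_lit 4, nat_lit 71409456973013319680), (nat_lit 5, nat_lit 51185253366892593152), (nat_lit 6, nat_lit 357047284865066598400), (nat_lit 7, nat_lit 304352882515523928064), (nat_lit 8, nat_lit 714094569730133196800), (nat_lit 9, nat_lit 720618383627276779520), (nat_lit 10, nat_lit 709843947533377732608), (nat_lit 11, nat_lit 588106610194797035520), (nat_lit 12, nat_lit 349710498430118264832), (nat_lit 13, nat_lit 252704818479430107136), (nat_lit 14, nat_lit 68323292734820450304), (nat_lit 15, nat_lit 82797595894030008320), (nat_lit 17, nat_lit 11828227984861429760), (nat_lit 29, nat_lit 3279727948462030848), (nat_lit 31, nat_lit 1061324993016627200), (nat_lit 33, nat_lit 183599526816579059712), (nat_lit 34, nat_lit 134473442965460090880), (nat_lit 35, nat_lit 596350442745693732864), (nat_lit 36, nat_lit 166043214403824779264), (nat_lit 37, nat_lit 683153336712241872896), (nat_lit 38, nat_lit 2608322841313017856),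 (nat_lit 39, nat_lit 306304984912215670784), (nat_lit 41, nat_lit 262103093657731072)]), (FastCell.sprN 52 [(nat_lit 6, nat_lit 15534844418405171200), (nat_lit 32, nat_lit 10519164956400680960), (nat_lit 36, nat_lit 14143504116646674432)], FastCell.sprN 52 [(nat_lit 4, nat_lit 5649034333965516800), (nat_lit 8, nat_lit 9885810084439654400), (nat_lit 34, nat_lit 25727334140797255680)], FastCell.sprN 52 [(nat_lit 4, nat_lit 5649034333965516800), (nat_lit 6, nat_lit 15534844418405171200), (nat_lit 8, nat_lit 9885810084439654400), (nat_lit 32, nat_lit 10519164956400680960), (nat_lit 34, nat_lit 25727334140797255680), (nat_lit 36, nat_lit 14143504116646674432)]), z52, (FastCell.sprN 52 [(nat_lit 6, nat_lit 13610917320707801088), (nat_lit 30, nat_lit 3924737350545965056)], FastCell.sprN 52 [(nat_lit 4, nat_lit 6375933295133196288), (nat_lit 8, nat_lit 6943869535933956096), (nat_lit 32, nat_lit 4564564972297781248), (nat_lit 35, nat_lit 655257734144327680)], FastCell.sprN 52 [(nat_lit 4, nat_lit 6375933295133196288), (nat_lit 6, nat_lit 13610917320707801088), (nat_lit 8, nat_lit 6943869535933956096),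 (nat_lit 30, nat_lit 3924737350545965056), (nat_lit 32, nat_lit 4564564972297781248), (nat_lit 35, nat_lit 655257734144327680)]), z52⟩,
  ⟨(FastCell.sprN 52 [(nat_lit 1, nat_lit 2654147376862158848), (nat_lit 5, nat_lit 88161086840419336192), (nat_lit 9, nat_lit 123456599067922391040), (nat_lit 13, nat_lit 18925146727334707200), (nat_lit 29, nat_lit 366774139605745664)], FastCell.sprN 52 [(nat_lit 3, nat_lit 26891689277805588480), (nat_lit 7, nat_lit 139204871852048117760), (nat_lit 11, nat_lit 64734775541768048640), (nat_lit 15, nat_lit 2365643340916838400), (nat_lit 27, nat_lit 366774139605745664)], FastCell.sprN 52 [(nat_lit 1, nat_lit 2654147376862158848), (nat_lit 3, nat_lit 26891689277805588480), (nat_lit 5, nat_lit 88161086840419336192), (nat_lit 7, nat_lit 139204871852048117760), (nat_lit 9, nat_lit 123456599067922391040), (nat_lit 11, nat_lit 64734775541768048640), (nat_lit 13, nat_lit 18925146727334707200), (nat_lit 15, nat_lit 2365643340916838400), (nat_lit 27, nat_lit 366774139605745664), (nat_lit 29, nat_lit 366774139605745664)]), (FastCell.sprN 52 [(nat_lit 0, nat_lit 2186485298974687232),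 (nat_lit 2, nat_lit 28139252791998676992), (nat_lit 7, nat_lit 33618360741365022720), (nat_lit 8, nat_lit 72275547058216108032), (nat_lit 28, nat_lit 1514032742717718528), (nat_lit 32, nat_lit 610764096172426526720), (nat_lit 36, nat_lit 871096266913700904960), (nat_lit 40, nat_lit 165595191788060016640)], FastCell.sprN 52 [(nat_lit 4, nat_lit 29153800307278348288), (nat_lit 5, nat_lit 33618360741365022720), (nat_lit 6, nat_lit 37309711312803069952), (nat_lit 10, nat_lit 36137773529108054016), (nat_lit 30, nat_lit 177949014939775533056), (nat_lit 34, nat_lit 941954479748546560000), (nat_lit 38, nat_lit 505409636958860214272), (nat_lit 42, nat_lit 23656455969722859520)], FastCell.sprN 52 [(nat_lit 0, nat_lit 2186485298974687232), (nat_lit 2, nat_lit 28139252791998676992), (nat_lit 4, nat_lit 29153800307278348288), (nat_lit 5, nat_lit 33618360741365022720), (nat_lit 6, nat_lit 37309711312803069952), (nat_lit 7, nat_lit 33618360741365022720), (nat_lit 8, nat_lit 72275547058216108032), (nat_lit 10, nat_lit 36137773529108054016), (nat_lit 28, nat_lit 1514032742717718528), (nat_lit 30, nat_lit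 177949014939775533056), (nat_lit 32, nat_lit 610764096172426526720), (nat_lit 34, nat_lit 941954479748546560000), (nat_lit 36, nat_lit 871096266913700904960), (nat_lit 38, nat_lit 505409636958860214272), (nat_lit 40, nat_lit 165595191788060016640), (nat_lit 42, nat_lit 23656455969722859520)]), (FastCell.sprN 52 [(nat_lit 3, nat_lit 21084491428877303808), (nat_lit 4, nat_lit 71409456973013319680), (nat_lit 7, nat_lit 296227597027706404864), (nat_lit 8, nat_lit 714094569730133196800), (nat_lit 11, nat_lit 435548133456850452480), (nat_lit 12, nat_lit 357047284865066598400), (nat_lit 15, nat_lit 82797595894030008320), (nat_lit 31, nat_lit 4236775750474137600)], FastCell.sprN 52 [(nat_lit 5, nat_lit 114016483899621769216), (nat_lit 6, nat_lit 357047284865066598400), (nat_lit 9, nat_lit 457108287443550863360), (nat_lit 10, nat_lit 714094569730133196800), (nat_lit 13, nat_lit 252704818479430107136), (nat_lit 14, nat_lit 71409456973013319680), (nat_lit 17, nat_lit 11828227984861429760), (nat_lit 29, nat_lit 4236775750474137600)], FastCell.sprN 52 [(nat_lit 3, nat_lit 21084491428877303808), (nat_lit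 4, nat_lit 71409456973013319680), (nat_lit 5, nat_lit 114016483899621769216), (nat_lit 6, nat_lit 357047284865066598400), (nat_lit 7, nat_lit 296227597027706404864), (nat_lit 8, nat_lit 714094569730133196800), (nat_lit 9, nat_lit 457108287443550863360), (nat_lit 10, nat_lit 714094569730133196800), (nat_lit 11, nat_lit 435548133456850452480), (nat_lit 12, nat_lit 357047284865066598400), (nat_lit 13, nat_lit 252704818479430107136), (nat_lit 14, nat_lit 71409456973013319680), (nat_lit 15, nat_lit 82797595894030008320), (nat_lit 17, nat_lit 11828227984861429760), (nat_lit 29, nat_lit 4236775750474137600), (nat_lit 31, nat_lit 4236775750474137600)]), z52, (FastCell.sprN 52 [(nat_lit 1, nat_lit 512147325750083584), (nat_lit 31, nat_lit 771541059548217344)], FastCell.sprN 52 [(nat_lit 3, nat_lit 652080710328254464), (nat_lit 6, nat_lit 65525773414432768), (nat_lit 29, nat_lit 1062655549188866048)], FastCell.sprN 52 [(nat_lit 1, nat_lit 512147325750083584), (nat_lit 3, nat_lit 652080710328254464), (nat_lit 6, nat_lit 65525773414432768), (nat_lit 29, nat_lit 1062655549188866048), (nat_lit 31,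 nat_lit 771541059548217344)]), z52, z52⟩⟩

theorem eTpp : rfam2 Bt 3 p sp = some Tpp := by decide +kernel

theorem ttpp : tailTest2 1107727027 true 72 3 989560045568 (2412577500) Bt Tpp lastRow tp = true := by decide +kernel

/-- Data. -/
noncomputable def Hqn : VFam := ⟨⟨(FastCell.sprN 65 [(nat_lit 2, nat_lit 4611686018427387904), (nat_lit 36, nat_lit 315082645429858304), (nat_lit 44, nat_lit 262568912925753344), (nat_lit 45, nat_lit 149430997243060224), (nat_lit 49, nat_lit 124525850828734464), (nat_lit 57, nat_lit 49939043997873594368), (nat_lit 59, nat_lit 41615876612893442048), (nat_lit 63, nat_lit 12493198884864), (nat_lit 64, nat_lit 10411000725504)], FastCell.sprN 65 [(nat_lit 20, nat_lit 2591781968773382144)], FastCell.sprN 65 [(nat_lit 2, nat_lit 4611686018427387904), (nat_lit 20, nat_lit 2591781968773382144), (nat_lit 36, nat_lit 315082645429858304), (nat_lit 44, nat_lit 262568912925753344), (nat_lit 45, nat_lit 149430997243060224), (nat_lit 49, nat_lit 124525850828734464), (nat_lit 57, nat_lit 49939043997873594368), (nat_lit 59, nat_lit 41615876612893442048), (nat_lit 63,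 nat_lit 12493198884864), (nat_lit 64, nat_lit 10411000725504)]), (FastCell.sprN 65 [(nat_lit 44, nat_lit 525137825851506688), (nat_lit 49, nat_lit 249051701657468928), (nat_lit 59, nat_lit 83231753225786884096), (nat_lit 64, nat_lit 20822001451008)], FastCell.sprN 65 [(nat_lit 20, nat_lit 5183563937546764288)], FastCell.sprN 65 [(nat_lit 20, nat_lit 5183563937546764288), (nat_lit 44, nat_lit 525137825851506688), (nat_lit 49, nat_lit 249051701657468928), (nat_lit 59, nat_lit 83231753225786884096), (nat_lit 64, nat_lit 20822001451008)]), (FastCell.sprN 65 [(nat_lit 44, nat_lit 262568912925753344), (nat_lit 49, nat_lit 124525850828734464), (nat_lit 59, nat_lit 41615876612893442048), (nat_lit 64, nat_lit 10411000725504)], FastCell.sprN 65 [(nat_lit 20, nat_lit 2591781968773382144)], FastCell.sprN 65 [(nat_lit 20, nat_lit 2591781968773382144), (nat_lit 44, nat_lit 262568912925753344), (nat_lit 49, nat_lit 124525850828734464), (nat_lit 59, nat_lit 41615876612893442048), (nat_lit 64, nat_lit 10411000725504)]), z65, z65, z65, z65⟩,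
  ⟨(FastCell.sprN 65 [(nat_lit 2, nat_lit 3139137977200934912), (nat_lit 10, nat_lit 810115142233620480), (nat_lit 21, nat_lit 1643421729655312384), (nat_lit 35, nat_lit 124525850828734464), (nat_lit 36, nat_lit 2353401707056406528), (nat_lit 53, nat_lit 41615876612893442048), (nat_lit 60, nat_lit 10411000725504)], FastCell.sprN 65 [(nat_lit 20, nat_lit 2329213055847628800), (nat_lit 54, nat_lit 49939043997873594368), (nat_lit 61, nat_lit 12493198884864)], FastCell.sprN 65 [(nat_lit 2, nat_lit 3139137977200934912), (nat_lit 10, nat_lit 810115142233620480), (nat_lit 20, nat_lit 2329213055847628800), (nat_lit 21, nat_lit 1643421729655312384), (nat_lit 35, nat_lit 124525850828734464), (nat_lit 36, nat_lit 2353401707056406528), (nat_lit 53, nat_lit 41615876612893442048), (nat_lit 54, nat_lit 49939043997873594368), (nat_lit 60, nat_lit 10411000725504), (nat_lit 61, nat_lit 12493198884864)]), (FastCell.sprN 65 [(nat_lit 13, nat_lit 10947531261345792000), (nat_lit 20, nat_lit 7530137959874428928), (nat_lit 22, nat_lit 6076167543062528), (nat_lit 28, nat_lit 4124435106263728128)], FastCell.sprN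 65 [(nat_lit 10, nat_lit 15145366267776466944), (nat_lit 32, nat_lit 2721092153324339200), (nat_lit 40, nat_lit 8443435405017088)], FastCell.sprN 65 [(nat_lit 10, nat_lit 15145366267776466944), (nat_lit 13, nat_lit 10947531261345792000), (nat_lit 20, nat_lit 7530137959874428928), (nat_lit 22, nat_lit 6076167543062528), (nat_lit 28, nat_lit 4124435106263728128), (nat_lit 32, nat_lit 2721092153324339200), (nat_lit 40, nat_lit 8443435405017088)]), (FastCell.sprN 65 [(nat_lit 20, nat_lit 424491781661392896), (nat_lit 35, nat_lit 2649344415407013888)], FastCell.sprN 65 [(nat_lit 28, nat_lit 2531058245821267968)], FastCell.sprN 65 [(nat_lit 20, nat_lit 424491781661392896), (nat_lit 28, nat_lit 2531058245821267968), (nat_lit 35, nat_lit 2649344415407013888)]), z65, (FastCell.sprN 65 [(nat_lit 0, nat_lit 1884156342634020864), (nat_lit 29, nat_lit 1043215277371686912)], FastCell.sprN 65 [(nat_lit 4, nat_lit 834597649821728768), (nat_lit 10, nat_lit 433414800630874112), (nat_lit 20, nat_lit 2293390692136779776)], FastCell.sprN 65 [(nat_lit 0, nat_lit 1884156342634020864), (nat_lit 4, nat_lit 834597649821728768),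 (nat_lit 10, nat_lit 433414800630874112), (nat_lit 20, nat_lit 2293390692136779776), (nat_lit 29, nat_lit 1043215277371686912)]), z65, z65⟩,
  ⟨(FastCell.sprN 65 [(nat_lit 2, nat_lit 839345440888455168), (nat_lit 24, nat_lit 3111755345559552), (nat_lit 29, nat_lit 725473496955617280), (nat_lit 46, nat_lit 2035293733519360)], FastCell.sprN 65 [(nat_lit 11, nat_lit 13897493041381376), (nat_lit 16, nat_lit 1799619261556064256), (nat_lit 21, nat_lit 875047840794017792), (nat_lit 22, nat_lit 52513732504104960), (nat_lit 36, nat_lit 871571298843623424), (nat_lit 37, nat_lit 24905146414325760), (nat_lit 39, nat_lit 3341293232674832384), (nat_lit 55, nat_lit 8323167384980152320), (nat_lit 62, nat_lit 2082198159360)], FastCell.sprN 65 [(nat_lit 2, nat_lit 839345440888455168), (nat_lit 11, nat_lit 13897493041381376), (nat_lit 16, nat_lit 1799619261556064256), (nat_lit 21, nat_lit 875047840794017792), (nat_lit 22, nat_lit 52513732504104960), (nat_lit 24, nat_lit 3111755345559552), (nat_lit 29, nat_lit 725473496955617280), (nat_lit 36, nat_lit 871571298843623424), (nat_lit 37, nat_lit 24905146414325760),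 (nat_lit 39, nat_lit 3341293232674832384), (nat_lit 46, nat_lit 2035293733519360), (nat_lit 55, nat_lit 8323167384980152320), (nat_lit 62, nat_lit 2082198159360)]), (FastCell.sprN 65 [(nat_lit 1, nat_lit 52723438286968717312), (nat_lit 3, nat_lit 50424275910405390336), (nat_lit 10, nat_lit 2430345426700861440), (nat_lit 21, nat_lit 18141853788925853696)], FastCell.sprN 65 [(nat_lit 2, nat_lit 103146081934781710336), (nat_lit 29, nat_lit 5670805995635343360), (nat_lit 36, nat_lit 3134680975821242368), (nat_lit 45, nat_lit 27780211448951603200), (nat_lit 57, nat_lit 83231753225786884096), (nat_lit 63, nat_lit 20822001451008)], FastCell.sprN 65 [(nat_lit 1, nat_lit 52723438286968717312), (nat_lit 2, nat_lit 103146081934781710336), (nat_lit 3, nat_lit 50424275910405390336), (nat_lit 10, nat_lit 2430345426700861440), (nat_lit 21, nat_lit 18141853788925853696), (nat_lit 29, nat_lit 5670805995635343360), (nat_lit 36, nat_lit 3134680975821242368), (nat_lit 45, nat_lit 27780211448951603200), (nat_lit 57, nat_lit 83231753225786884096), (nat_lit 63, nat_lit 20822001451008)]), (FastCell.sprN 65 [(nat_lit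 13, nat_lit 10947531261345792000), (nat_lit 15, nat_lit 7536625370536083456), (nat_lit 20, nat_lit 8703424971038261248), (nat_lit 22, nat_lit 9114251314593792), (nat_lit 28, nat_lit 8248870212527456256), (nat_lit 29, nat_lit 53008781937217634304), (nat_lit 38, nat_lit 4172861109486747648), (nat_lit 43, nat_lit 17687098996608204800), (nat_lit 44, nat_lit 262568912925753344), (nat_lit 47, nat_lit 37995459322576896), (nat_lit 49, nat_lit 124525850828734464), (nat_lit 59, nat_lit 41615876612893442048), (nat_lit 64, nat_lit 10411000725504)], FastCell.sprN 65 [(nat_lit 10, nat_lit 15145366267776466944), (nat_lit 18, nat_lit 3338390599286915072), (nat_lit 25, nat_lit 1733659202523496448), (nat_lit 31, nat_lit 54737656306728960000), (nat_lit 32, nat_lit 5442184306648678400), (nat_lit 33, nat_lit 9173562768547119104), (nat_lit 35, nat_lit 26355482859560501248), (nat_lit 37, nat_lit 33418921486843904), (nat_lit 40, nat_lit 14460853178138099712)], FastCell.sprN 65 [(nat_lit 10, nat_lit 15145366267776466944), (nat_lit 13, nat_lit 10947531261345792000), (nat_lit 15, nat_lit 7536625370536083456), (nat_lit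 18, nat_lit 3338390599286915072), (nat_lit 20, nat_lit 8703424971038261248), (nat_lit 22, nat_lit 9114251314593792), (nat_lit 25, nat_lit 1733659202523496448), (nat_lit 28, nat_lit 8248870212527456256), (nat_lit 29, nat_lit 53008781937217634304), (nat_lit 31, nat_lit 54737656306728960000), (nat_lit 32, nat_lit 5442184306648678400), (nat_lit 33, nat_lit 9173562768547119104), (nat_lit 35, nat_lit 26355482859560501248), (nat_lit 37, nat_lit 33418921486843904), (nat_lit 38, nat_lit 4172861109486747648), (nat_lit 40, nat_lit 14460853178138099712), (nat_lit 43, nat_lit 17687098996608204800), (nat_lit 44, nat_lit 262568912925753344), (nat_lit 47, nat_lit 37995459322576896), (nat_lit 49, nat_lit 124525850828734464), (nat_lit 59, nat_lit 41615876612893442048), (nat_lit 64, nat_lit 10411000725504)]), (FastCell.sprN 65 [(nat_lit 20, nat_lit 282994521107595264), (nat_lit 35, nat_lit 2541978396666101760), (nat_lit 40, nat_lit 5905802573582958592)], FastCell.sprN 65 [(nat_lit 28, nat_lit 2531058245821267968), (nat_lit 44, nat_lit 7948033246221041664)], FastCell.sprN 65 [(nat_lit 20, nat_lit 282994521107595264),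 (nat_lit 28, nat_lit 2531058245821267968), (nat_lit 35, nat_lit 2541978396666101760), (nat_lit 40, nat_lit 5905802573582958592), (nat_lit 44, nat_lit 7948033246221041664)]), z65, (FastCell.sprN 65 [(nat_lit 23, nat_lit 8345976498217287680), (nat_lit 29, nat_lit 6163549436531179520), (nat_lit 35, nat_lit 16053734844957458432)], FastCell.sprN 65 [(nat_lit 10, nat_lit 433414800630874112), (nat_lit 20, nat_lit 8758041604830265344), (nat_lit 41, nat_lit 9388937496345182208)], FastCell.sprN 65 [(nat_lit 10, nat_lit 433414800630874112), (nat_lit 20, nat_lit 8758041604830265344), (nat_lit 23, nat_lit 8345976498217287680), (nat_lit 29, nat_lit 6163549436531179520), (nat_lit 35, nat_lit 16053734844957458432), (nat_lit 41, nat_lit 9388937496345182208)]), z65⟩,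
  ⟨(FastCell.sprN 65 [(nat_lit 2, nat_lit 1472548041226452992), (nat_lit 45, nat_lit 24905146414325760), (nat_lit 54, nat_lit 8323167384980152320), (nat_lit 57, nat_lit 8323167384980152320), (nat_lit 61, nat_lit 2082198159360), (nat_lit 63, nat_lit 2082198159360)], FastCell.sprN 65 [(nat_lit 10, nat_lit 810115142233620480), (nat_lit 21, nat_lit 1905990642581065728), (nat_lit 36, nat_lit 2425413825381036032)], FastCell.sprN 65 [(nat_lit 2, nat_lit 1472548041226452992), (nat_lit 10, nat_lit 810115142233620480), (nat_lit 21, nat_lit 1905990642581065728), (nat_lit 36, nat_lit 2425413825381036032), (nat_lit 45, nat_lit 24905146414325760), (nat_lit 54, nat_lit 8323167384980152320), (nat_lit 57, nat_lit 8323167384980152320), (nat_lit 61, nat_lit 2082198159360), (nat_lit 63, nat_lit 2082198159360)]), (FastCell.sprN 65 [(nat_lit 10, nat_lit 15145366267776466944), (nat_lit 32, nat_lit 2721092153324339200), (nat_lit 40, nat_lit 8443435405017088), (nat_lit 44, nat_lit 525137825851506688), (nat_lit 49, nat_lit 249051701657468928), (nat_lit 59, nat_lit 83231753225786884096), (nat_lit 64, nat_lit 20822001451008)],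 FastCell.sprN 65 [(nat_lit 13, nat_lit 10947531261345792000), (nat_lit 20, nat_lit 12713701897421193216), (nat_lit 22, nat_lit 6076167543062528), (nat_lit 28, nat_lit 4124435106263728128)], FastCell.sprN 65 [(nat_lit 10, nat_lit 15145366267776466944), (nat_lit 13, nat_lit 10947531261345792000), (nat_lit 20, nat_lit 12713701897421193216), (nat_lit 22, nat_lit 6076167543062528), (nat_lit 28, nat_lit 4124435106263728128), (nat_lit 32, nat_lit 2721092153324339200), (nat_lit 40, nat_lit 8443435405017088), (nat_lit 44, nat_lit 525137825851506688), (nat_lit 49, nat_lit 249051701657468928), (nat_lit 59, nat_lit 83231753225786884096), (nat_lit 64, nat_lit 20822001451008)]), (FastCell.sprN 65 [(nat_lit 28, nat_lit 2531058245821267968), (nat_lit 44, nat_lit 262568912925753344), (nat_lit 49, nat_lit 124525850828734464), (nat_lit 59, nat_lit 41615876612893442048), (nat_lit 64, nat_lit 10411000725504)], FastCell.sprN 65 [(nat_lit 20, nat_lit 3016273750434775040), (nat_lit 35, nat_lit 2649344415407013888)], FastCell.sprN 65 [(nat_lit 20, nat_lit 3016273750434775040), (nat_lit 28, nat_lit 2531058245821267968),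 (nat_lit 35, nat_lit 2649344415407013888), (nat_lit 44, nat_lit 262568912925753344), (nat_lit 49, nat_lit 124525850828734464), (nat_lit 59, nat_lit 41615876612893442048), (nat_lit 64, nat_lit 10411000725504)]), z65, (FastCell.sprN 65 [(nat_lit 4, nat_lit 834597649821728768), (nat_lit 10, nat_lit 433414800630874112), (nat_lit 20, nat_lit 2293390692136779776)], FastCell.sprN 65 [(nat_lit 0, nat_lit 1884156342634020864), (nat_lit 29, nat_lit 1043215277371686912)], FastCell.sprN 65 [(nat_lit 0, nat_lit 1884156342634020864), (nat_lit 4, nat_lit 834597649821728768), (nat_lit 10, nat_lit 433414800630874112), (nat_lit 20, nat_lit 2293390692136779776), (nat_lit 29, nat_lit 1043215277371686912)]), z65, z65⟩⟩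

theorem eHqn : rfam Bh (headR false hn) 3 q sn = some Hqn := by decide +kernel

theorem hhqn : headTest false 72 3 15235533062 Bh Hqn z n0 hn = true := by decide +kernel

/-- Data. -/
noncomputable def Tqn : VFam := ⟨⟨(FastCell.sprN 52 [(nat_lit 0, nat_lit 39411199818875273216), (nat_lit 4, nat_lit 809746018950140645376), (nat_lit 8, nat_lit 1165220306577175588864), (nat_lit 12, nat_lit 116528469112456454144), (nat_lit 14, nat_lit 16643821427277832192), (nat_lit 20, nat_lit 109215744), (nat_lit 22, nat_lit 12493179027456)], FastCell.sprN 52 [(nat_lit 2, nat_lit 274401222651283378176), (nat_lit 6, nat_lit 1282224469901150638080), (nat_lit 10, nat_lit 582601768006985220096), (nat_lit 16, nat_lit 8322136695253032960), (nat_lit 18, nat_lit 229042343608320), (nat_lit 24, nat_lit 2082198159360)], FastCell.sprN 52 [(nat_lit 0, nat_lit 39411199818875273216), (nat_lit 2, nat_lit 274401222651283378176), (nat_lit 4, nat_lit 809746018950140645376), (nat_lit 6, nat_lit 1282224469901150638080), (nat_lit 8, nat_lit 1165220306577175588864), (nat_lit 10, nat_lit 582601768006985220096), (nat_lit 12, nat_lit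 116528469112456454144), (nat_lit 14, nat_lit 16643821427277832192), (nat_lit 16, nat_lit 8322136695253032960), (nat_lit 18, nat_lit 229042343608320), (nat_lit 20, nat_lit 109215744), (nat_lit 22, nat_lit 12493179027456), (nat_lit 24, nat_lit 2082198159360)]), (FastCell.sprN 52 [(nat_lit 29, nat_lit 78822399637750546432), (nat_lit 33, nat_lit 1750937686639103705088), (nat_lit 37, nat_lit 2913367285864677244928), (nat_lit 41, nat_lit 582631892345178554368), (nat_lit 45, nat_lit 3435630239416320), (nat_lit 49, nat_lit 229042015961088)], FastCell.sprN 52 [(nat_lit 31, nat_lit 580010557969161781248), (nat_lit 35, nat_lit 2914636143165261742080), (nat_lit 39, nat_lit 1747876437506194931712), (nat_lit 43, nat_lit 83238624486265716736), (nat_lit 47, nat_lit 1145210079805440), (nat_lit 51, nat_lit 20822001451008)], FastCell.sprN 52 [(nat_lit 29, nat_lit 78822399637750546432), (nat_lit 31, nat_lit 580010557969161781248), (nat_lit 33, nat_lit 1750937686639103705088), (nat_lit 35, nat_lit 2914636143165261742080), (nat_lit 37, nat_lit 2913367285864677244928), (nat_lit 39, nat_lit 1747876437506194931712),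 (nat_lit 41, nat_lit 582631892345178554368), (nat_lit 43, nat_lit 83238624486265716736), (nat_lit 45, nat_lit 3435630239416320), (nat_lit 47, nat_lit 1145210079805440), (nat_lit 49, nat_lit 229042015961088), (nat_lit 51, nat_lit 20822001451008)]), (FastCell.sprN 52 [(nat_lit 4, nat_lit 39411199818875273216), (nat_lit 8, nat_lit 875468843319551852544), (nat_lit 12, nat_lit 1456683642932338622464), (nat_lit 16, nat_lit 291315946172589277184), (nat_lit 20, nat_lit 1717815119708160), (nat_lit 24, nat_lit 114521007980544)], FastCell.sprN 52 [(nat_lit 6, nat_lit 290005278984580890624), (nat_lit 10, nat_lit 1457318071582630871040), (nat_lit 14, nat_lit 873938218753097465856), (nat_lit 18, nat_lit 41619312243132858368), (nat_lit 22, nat_lit 572605039902720), (nat_lit 26, nat_lit 10411000725504)], FastCell.sprN 52 [(nat_lit 4, nat_lit 39411199818875273216), (nat_lit 6, nat_lit 290005278984580890624), (nat_lit 8, nat_lit 875468843319551852544), (nat_lit 10, nat_lit 1457318071582630871040), (nat_lit 12, nat_lit 1456683642932338622464), (nat_lit 14, nat_lit 873938218753097465856), (nat_lit 16, nat_lit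 291315946172589277184), (nat_lit 18, nat_lit 41619312243132858368), (nat_lit 20, nat_lit 1717815119708160), (nat_lit 22, nat_lit 572605039902720), (nat_lit 24, nat_lit 114521007980544), (nat_lit 26, nat_lit 10411000725504)]), z52, z52, z52, z52⟩,
  ⟨(FastCell.sprN 52 [(nat_lit 0, nat_lit 39411199818875273216), (nat_lit 4, nat_lit 908431184546622488576), (nat_lit 8, nat_lit 1620669312937835651072), (nat_lit 12, nat_lit 341255475196406349824), (nat_lit 16, nat_lit 1967678898831360), (nat_lit 20, nat_lit 135342989574144), (nat_lit 28, nat_lit 810115142233620480)], FastCell.sprN 52 [(nat_lit 2, nat_lit 288213610305318678528), (nat_lit 6, nat_lit 1572825902740013838336), (nat_lit 10, nat_lit 998786166789413216256), (nat_lit 14, nat_lit 49942916889726476288), (nat_lit 18, nat_lit 666303957073920), (nat_lit 22, nat_lit 12493198884864), (nat_lit 30, nat_lit 810115142233620480)], FastCell.sprN 52 [(nat_lit 0, nat_lit 39411199818875273216), (nat_lit 2, nat_lit 288213610305318678528), (nat_lit 4, nat_lit 908431184546622488576), (nat_lit 6, nat_lit 1572825902740013838336), (nat_lit 8, nat_lit 1620669312937835651072),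 (nat_lit 10, nat_lit 998786166789413216256), (nat_lit 12, nat_lit 341255475196406349824), (nat_lit 14, nat_lit 49942916889726476288), (nat_lit 16, nat_lit 1967678898831360), (nat_lit 18, nat_lit 666303957073920), (nat_lit 20, nat_lit 135342989574144), (nat_lit 22, nat_lit 12493198884864), (nat_lit 28, nat_lit 810115142233620480), (nat_lit 30, nat_lit 810115142233620480)]), (FastCell.sprN 52 [(nat_lit 1, nat_lit 4115991670858711040), (nat_lit 5, nat_lit 19244471067825143808), (nat_lit 6, nat_lit 10947531261345792000), (nat_lit 9, nat_lit 5442184306648678400), (nat_lit 29, nat_lit 7530137959874428928), (nat_lit 33, nat_lit 6076167543062528)], FastCell.sprN 52 [(nat_lit 3, nat_lit 23368906174088871936), (nat_lit 7, nat_lit 2712648717919322112), (nat_lit 8, nat_lit 10947531261345792000), (nat_lit 11, nat_lit 2721092153324339200), (nat_lit 31, nat_lit 7530137959874428928), (nat_lit 35, nat_lit 6076167543062528)], FastCell.sprN 52 [(nat_lit 1, nat_lit 4115991670858711040), (nat_lit 3, nat_lit 23368906174088871936), (nat_lit 5, nat_lit 19244471067825143808), (nat_lit 6, nat_lit 10947531261345792000),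 (nat_lit 7, nat_lit 2712648717919322112), (nat_lit 8, nat_lit 10947531261345792000), (nat_lit 9, nat_lit 5442184306648678400), (nat_lit 11, nat_lit 2721092153324339200), (nat_lit 29, nat_lit 7530137959874428928), (nat_lit 31, nat_lit 7530137959874428928), (nat_lit 33, nat_lit 6076167543062528), (nat_lit 35, nat_lit 6076167543062528)]), (FastCell.sprN 52 [(nat_lit 4, nat_lit 3073836197068406784), (nat_lit 8, nat_lit 2649344415407013888), (nat_lit 32, nat_lit 2531058245821267968)], FastCell.sprN 52 [(nat_lit 6, nat_lit 5723180612475420672), (nat_lit 30, nat_lit 2531058245821267968)], FastCell.sprN 52 [(nat_lit 4, nat_lit 3073836197068406784), (nat_lit 6, nat_lit 5723180612475420672), (nat_lit 8, nat_lit 2649344415407013888), (nat_lit 30, nat_lit 2531058245821267968), (nat_lit 32, nat_lit 2531058245821267968)]), z52, (FastCell.sprN 52 [(nat_lit 4, nat_lit 2293390692136779776), (nat_lit 30, nat_lit 609800476740812800)], FastCell.sprN 52 [(nat_lit 2, nat_lit 409234349502758912), (nat_lit 7, nat_lit 834597649821728768), (nat_lit 32, nat_lit 1043215277371686912)], FastCell.sprN 52 [(nat_lit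 2, nat_lit 409234349502758912), (nat_lit 4, nat_lit 2293390692136779776), (nat_lit 7, nat_lit 834597649821728768), (nat_lit 30, nat_lit 609800476740812800), (nat_lit 32, nat_lit 1043215277371686912)]), z52, z52⟩,
  ⟨(FastCell.sprN 52 [(nat_lit 5, nat_lit 46623976879200288768), (nat_lit 9, nat_lit 176507352988232474624), (nat_lit 13, nat_lit 53280822256491905024), (nat_lit 17, nat_lit 249863779123200), (nat_lit 21, nat_lit 20821981593600), (nat_lit 27, nat_lit 725473496955617280), (nat_lit 30, nat_lit 13897493041381376), (nat_lit 31, nat_lit 725473496955617280), (nat_lit 35, nat_lit 1799619261556064256)], FastCell.sprN 52 [(nat_lit 1, nat_lit 907273698749186048), (nat_lit 3, nat_lit 4873088915132772352), (nat_lit 7, nat_lit 127438567327487750144), (nat_lit 11, nat_lit 134869792440606728192), (nat_lit 15, nat_lit 8323604646593617920), (nat_lit 19, nat_lit 93698917171200), (nat_lit 23, nat_lit 2082198159360), (nat_lit 28, nat_lit 13897493041381376), (nat_lit 29, nat_lit 1450946993911234560), (nat_lit 33, nat_lit 1799619261556064256)], FastCell.sprN 52 [(nat_lit 1, nat_lit 907273698749186048),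 (nat_lit 3, nat_lit 4873088915132772352), (nat_lit 5, nat_lit 46623976879200288768), (nat_lit 7, nat_lit 127438567327487750144), (nat_lit 9, nat_lit 176507352988232474624), (nat_lit 11, nat_lit 134869792440606728192), (nat_lit 13, nat_lit 53280822256491905024), (nat_lit 15, nat_lit 8323604646593617920), (nat_lit 17, nat_lit 249863779123200), (nat_lit 19, nat_lit 93698917171200), (nat_lit 21, nat_lit 20821981593600), (nat_lit 23, nat_lit 2082198159360), (nat_lit 27, nat_lit 725473496955617280), (nat_lit 28, nat_lit 13897493041381376), (nat_lit 29, nat_lit 1450946993911234560), (nat_lit 30, nat_lit 13897493041381376), (nat_lit 31, nat_lit 725473496955617280), (nat_lit 33, nat_lit 1799619261556064256), (nat_lit 35, nat_lit 1799619261556064256)]), (FastCell.sprN 52 [(nat_lit 4, nat_lit 8911266564569825280), (nat_lit 29, nat_lit 52723438286968717312), (nat_lit 32, nat_lit 621283145994712645632), (nat_lit 36, nat_lit 1692417774604863406080), (nat_lit 40, nat_lit 499395766499086958592), (nat_lit 44, nat_lit 2498640174120960), (nat_lit 48, nat_lit 208220014510080)], FastCell.sprN 52 [(nat_lit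 2, nat_lit 3240460568934481920), (nat_lit 6, nat_lit 5670805995635343360), (nat_lit 30, nat_lit 199150894618417037312), (nat_lit 34, nat_lit 1334952550699544608768), (nat_lit 38, nat_lit 1248480671007107973120), (nat_lit 42, nat_lit 83236125846091595776), (nat_lit 46, nat_lit 936990065295360), (nat_lit 50, nat_lit 20822001451008)], FastCell.sprN 52 [(nat_lit 2, nat_lit 3240460568934481920), (nat_lit 4, nat_lit 8911266564569825280), (nat_lit 6, nat_lit 5670805995635343360), (nat_lit 29, nat_lit 52723438286968717312), (nat_lit 30, nat_lit 199150894618417037312), (nat_lit 32, nat_lit 621283145994712645632), (nat_lit 34, nat_lit 1334952550699544608768), (nat_lit 36, nat_lit 1692417774604863406080), (nat_lit 38, nat_lit 1248480671007107973120), (nat_lit 40, nat_lit 499395766499086958592), (nat_lit 42, nat_lit 83236125846091595776), (nat_lit 44, nat_lit 2498640174120960), (nat_lit 46, nat_lit 936990065295360), (nat_lit 48, nat_lit 208220014510080), (nat_lit 50, nat_lit 20822001451008)]), (FastCell.sprN 52 [(nat_lit 3, nat_lit 24350923899126415360), (nat_lit 7, nat_lit 849089055789819101184),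 (nat_lit 10, nat_lit 2439201906963251200), (nat_lit 11, nat_lit 1456650224010851778560), (nat_lit 14, nat_lit 4172861109486747648), (nat_lit 15, nat_lit 291315946172589277184), (nat_lit 19, nat_lit 1717815119708160), (nat_lit 23, nat_lit 114521007980544), (nat_lit 31, nat_lit 58422265435222179840), (nat_lit 35, nat_lit 12206919230636949504), (nat_lit 36, nat_lit 53100718908717924352), (nat_lit 38, nat_lit 9173562768547119104), (nat_lit 39, nat_lit 17687098996608204800)], FastCell.sprN 52 [(nat_lit 5, nat_lit 248589520205271531520), (nat_lit 9, nat_lit 1457260347990971777024), (nat_lit 12, nat_lit 6612063016449998848), (nat_lit 13, nat_lit 873938218753097465856), (nat_lit 17, nat_lit 41619312243132858368), (nat_lit 21, nat_lit 572605039902720), (nat_lit 25, nat_lit 10411000725504), (nat_lit 29, nat_lit 6173987506288066560), (nat_lit 33, nat_lit 67355648737388003328), (nat_lit 34, nat_lit 43790125045383168000), (nat_lit 37, nat_lit 29932013686567731200), (nat_lit 41, nat_lit 3338390599286915072)], FastCell.sprN 52 [(nat_lit 3, nat_lit 24350923899126415360), (nat_lit 5, nat_lit 248589520205271531520),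 (nat_lit 7, nat_lit 849089055789819101184), (nat_lit 9, nat_lit 1457260347990971777024), (nat_lit 10, nat_lit 2439201906963251200), (nat_lit 11, nat_lit 1456650224010851778560), (nat_lit 12, nat_lit 6612063016449998848), (nat_lit 13, nat_lit 873938218753097465856), (nat_lit 14, nat_lit 4172861109486747648), (nat_lit 15, nat_lit 291315946172589277184), (nat_lit 17, nat_lit 41619312243132858368), (nat_lit 19, nat_lit 1717815119708160), (nat_lit 21, nat_lit 572605039902720), (nat_lit 23, nat_lit 114521007980544), (nat_lit 25, nat_lit 10411000725504), (nat_lit 29, nat_lit 6173987506288066560), (nat_lit 31, nat_lit 58422265435222179840), (nat_lit 33, nat_lit 67355648737388003328), (nat_lit 34, nat_lit 43790125045383168000), (nat_lit 35, nat_lit 12206919230636949504), (nat_lit 36, nat_lit 53100718908717924352), (nat_lit 37, nat_lit 29932013686567731200), (nat_lit 38, nat_lit 9173562768547119104), (nat_lit 39, nat_lit 17687098996608204800), (nat_lit 41, nat_lit 3338390599286915072)]), (FastCell.sprN 52 [(nat_lit 4, nat_lit 3374744327761690624), (nat_lit 8, nat_lit 5905802573582958592), (nat_lit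 34, nat_lit 13354088095775981568)], FastCell.sprN 52 [(nat_lit 6, nat_lit 9280546901344649216), (nat_lit 32, nat_lit 5123060328447344640), (nat_lit 36, nat_lit 7948033246221041664)], FastCell.sprN 52 [(nat_lit 4, nat_lit 3374744327761690624), (nat_lit 6, nat_lit 9280546901344649216), (nat_lit 8, nat_lit 5905802573582958592), (nat_lit 32, nat_lit 5123060328447344640), (nat_lit 34, nat_lit 13354088095775981568), (nat_lit 36, nat_lit 7948033246221041664)]), z52, (FastCell.sprN 52 [(nat_lit 6, nat_lit 12614325556159184896), (nat_lit 30, nat_lit 7295693240127193088), (nat_lit 35, nat_lit 8345976498217287680)], FastCell.sprN 52 [(nat_lit 4, nat_lit 3658802860444876800), (nat_lit 8, nat_lit 9388937496345182208), (nat_lit 32, nat_lit 16053734844957458432)], FastCell.sprN 52 [(nat_lit 4, nat_lit 3658802860444876800), (nat_lit 6, nat_lit 12614325556159184896), (nat_lit 8, nat_lit 9388937496345182208), (nat_lit 30, nat_lit 7295693240127193088), (nat_lit 32, nat_lit 16053734844957458432), (nat_lit 35, nat_lit 8345976498217287680)]), z52⟩,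
  ⟨(FastCell.sprN 52 [(nat_lit 1, nat_lit 13812387654035300352), (nat_lit 5, nat_lit 290601432838863200256), (nat_lit 9, nat_lit 416184398782427996160), (nat_lit 13, nat_lit 66586738317004308480), (nat_lit 17, nat_lit 437261613465600), (nat_lit 21, nat_lit 24986377912320), (nat_lit 29, nat_lit 810115142233620480)], FastCell.sprN 52 [(nat_lit 3, nat_lit 98685165596481843200), (nat_lit 7, nat_lit 455449006360660062208), (nat_lit 11, nat_lit 224727006083949895680), (nat_lit 15, nat_lit 8324104374151864320), (nat_lit 19, nat_lit 135342880358400), (nat_lit 23, nat_lit 2082198159360), (nat_lit 27, nat_lit 810115142233620480)], FastCell.sprN 52 [(nat_lit 1, nat_lit 13812387654035300352), (nat_lit 3, nat_lit 98685165596481843200), (nat_lit 5, nat_lit 290601432838863200256), (nat_lit 7, nat_lit 455449006360660062208), (nat_lit 9, nat_lit 416184398782427996160), (nat_lit 11, nat_lit 224727006083949895680), (nat_lit 13, nat_lit 66586738317004308480), (nat_lit 15, nat_lit 8324104374151864320), (nat_lit 17, nat_lit 437261613465600), (nat_lit 19, nat_lit 135342880358400), (nat_lit 21, nat_lit 24986377912320),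 (nat_lit 23, nat_lit 2082198159360), (nat_lit 27, nat_lit 810115142233620480), (nat_lit 29, nat_lit 810115142233620480)]), (FastCell.sprN 52 [(nat_lit 2, nat_lit 23368906174088871936), (nat_lit 6, nat_lit 2712648717919322112), (nat_lit 7, nat_lit 10947531261345792000), (nat_lit 10, nat_lit 2721092153324339200), (nat_lit 28, nat_lit 71292261677876117504), (nat_lit 32, nat_lit 1750931610471560642560), (nat_lit 36, nat_lit 2913367285864677244928), (nat_lit 40, nat_lit 582631892345178554368), (nat_lit 44, nat_lit 3435630239416320), (nat_lit 48, nat_lit 229042015961088)], FastCell.sprN 52 [(nat_lit 0, nat_lit 4115991670858711040), (nat_lit 4, nat_lit 19244471067825143808), (nat_lit 5, nat_lit 10947531261345792000), (nat_lit 8, nat_lit 5442184306648678400), (nat_lit 30, nat_lit 572480420009287352320), (nat_lit 34, nat_lit 2914630066997718679552), (nat_lit 38, nat_lit 1747876437506194931712), (nat_lit 42, nat_lit 83238624486265716736), (nat_lit 46, nat_lit 1145210079805440), (nat_lit 50, nat_lit 20822001451008)], FastCell.sprN 52 [(nat_lit 0, nat_lit 4115991670858711040), (nat_lit 2, nat_lit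 23368906174088871936), (nat_lit 4, nat_lit 19244471067825143808), (nat_lit 5, nat_lit 10947531261345792000), (nat_lit 6, nat_lit 2712648717919322112), (nat_lit 7, nat_lit 10947531261345792000), (nat_lit 8, nat_lit 5442184306648678400), (nat_lit 10, nat_lit 2721092153324339200), (nat_lit 28, nat_lit 71292261677876117504), (nat_lit 30, nat_lit 572480420009287352320), (nat_lit 32, nat_lit 1750931610471560642560), (nat_lit 34, nat_lit 2914630066997718679552), (nat_lit 36, nat_lit 2913367285864677244928), (nat_lit 38, nat_lit 1747876437506194931712), (nat_lit 40, nat_lit 582631892345178554368), (nat_lit 42, nat_lit 83238624486265716736), (nat_lit 44, nat_lit 3435630239416320), (nat_lit 46, nat_lit 1145210079805440), (nat_lit 48, nat_lit 229042015961088), (nat_lit 50, nat_lit 20822001451008)]), (FastCell.sprN 52 [(nat_lit 3, nat_lit 36337363621806866432), (nat_lit 7, nat_lit 872819498904144838656), (nat_lit 11, nat_lit 1456683642932338622464), (nat_lit 15, nat_lit 291315946172589277184), (nat_lit 19, nat_lit 1717815119708160), (nat_lit 23, nat_lit 114521007980544), (nat_lit 29, nat_lit 2531058245821267968)],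 FastCell.sprN 52 [(nat_lit 5, nat_lit 284282098372105469952), (nat_lit 9, nat_lit 1457318071582630871040), (nat_lit 13, nat_lit 873938218753097465856), (nat_lit 17, nat_lit 41619312243132858368), (nat_lit 21, nat_lit 572605039902720), (nat_lit 25, nat_lit 10411000725504), (nat_lit 31, nat_lit 2531058245821267968)], FastCell.sprN 52 [(nat_lit 3, nat_lit 36337363621806866432), (nat_lit 5, nat_lit 284282098372105469952), (nat_lit 7, nat_lit 872819498904144838656), (nat_lit 9, nat_lit 1457318071582630871040), (nat_lit 11, nat_lit 1456683642932338622464), (nat_lit 13, nat_lit 873938218753097465856), (nat_lit 15, nat_lit 291315946172589277184), (nat_lit 17, nat_lit 41619312243132858368), (nat_lit 19, nat_lit 1717815119708160), (nat_lit 21, nat_lit 572605039902720), (nat_lit 23, nat_lit 114521007980544), (nat_lit 25, nat_lit 10411000725504), (nat_lit 29, nat_lit 2531058245821267968), (nat_lit 31, nat_lit 2531058245821267968)]), z52, (FastCell.sprN 52 [(nat_lit 1, nat_lit 409234349502758912), (nat_lit 6, nat_lit 834597649821728768), (nat_lit 31, nat_lit 1043215277371686912)], FastCell.sprN 52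 [(nat_lit 3, nat_lit 2293390692136779776), (nat_lit 29, nat_lit 609800476740812800)], FastCell.sprN 52 [(nat_lit 1, nat_lit 409234349502758912), (nat_lit 3, nat_lit 2293390692136779776), (nat_lit 6, nat_lit 834597649821728768), (nat_lit 29, nat_lit 609800476740812800), (nat_lit 31, nat_lit 1043215277371686912)]), z52, z52⟩⟩

theorem eTqn : rfam2 Bt 3 q sn = some Tqn := by decide +kernel

theorem ttqn : tailTest2 1107727027 false 72 3 989560045568 (2412577500) Bt Tqn lastRow tn = true := by decide +kernel

/-- Data. -/
noncomputable def Hqp : VFam := ⟨⟨(FastCell.sprN 65 [(nat_lit 2, nat_lit 4611686018427387904), (nat_lit 50, nat_lit 5174436134353494016), (nat_lit 53, nat_lit 4312030797340082176), (nat_lit 57, nat_lit 14193871325778268160), (nat_lit 59, nat_lit 11828227984861429760)], FastCell.sprN 65 [(nat_lit 20, nat_lit 2591781968773382144)], FastCell.sprN 65 [(nat_lit 2, nat_lit 4611686018427387904), (nat_lit 20, nat_lit 2591781968773382144), (nat_lit 50, nat_lit 5174436134353494016), (nat_lit 53, nat_lit 4312030797340082176), (nat_lit 57, nat_lit 14193871325778268160), (nat_lit 59,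 nat_lit 11828227984861429760)]), (FastCell.sprN 65 [(nat_lit 52, nat_lit 8624061594680164352), (nat_lit 58, nat_lit 23656455969722859520)], FastCell.sprN 65 [(nat_lit 10, nat_lit 5183563937546764288)], FastCell.sprN 65 [(nat_lit 10, nat_lit 5183563937546764288), (nat_lit 52, nat_lit 8624061594680164352), (nat_lit 58, nat_lit 23656455969722859520)]), (FastCell.sprN 65 [(nat_lit 50, nat_lit 4312030797340082176), (nat_lit 51, nat_lit 71409456973013319680), (nat_lit 57, nat_lit 11828227984861429760)], FastCell.sprN 65 [(nat_lit 2, nat_lit 2591781968773382144)], FastCell.sprN 65 [(nat_lit 2, nat_lit 2591781968773382144), (nat_lit 50, nat_lit 4312030797340082176), (nat_lit 51, nat_lit 71409456973013319680), (nat_lit 57, nat_lit 11828227984861429760)]), z65, z65, z65, z65⟩,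
  ⟨(FastCell.sprN 65 [(nat_lit 2, nat_lit 3139137977200934912), (nat_lit 10, nat_lit 810115142233620480), (nat_lit 21, nat_lit 1958504375085170688), (nat_lit 36, nat_lit 2502832704299466752), (nat_lit 44, nat_lit 4312030797340082176), (nat_lit 53, nat_lit 11828227984861429760)], FastCell.sprN 65 [(nat_lit 20, nat_lit 2591781968773382144), (nat_lit 45, nat_lit 5174436134353494016), (nat_lit 54, nat_lit 14193871325778268160)], FastCell.sprN 65 [(nat_lit 2, nat_lit 3139137977200934912), (nat_lit 10, nat_lit 810115142233620480), (nat_lit 20, nat_lit 2591781968773382144), (nat_lit 21, nat_lit 1958504375085170688), (nat_lit 36, nat_lit 2502832704299466752), (nat_lit 44, nat_lit 4312030797340082176), (nat_lit 45, nat_lit 5174436134353494016), (nat_lit 53, nat_lit 11828227984861429760), (nat_lit 54, nat_lit 14193871325778268160)]), (FastCell.sprN 65 [(nat_lit 4, nat_lit 10947531261345792000), (nat_lit 10, nat_lit 7530137959874428928), (nat_lit 14, nat_lit 6076167543062528), (nat_lit 20, nat_lit 4124435106263728128)], FastCell.sprN 65 [(nat_lit 2, nat_lit 15145366267776466944), (nat_lit 24, nat_lit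 2721092153324339200), (nat_lit 35, nat_lit 8443435405017088)], FastCell.sprN 65 [(nat_lit 2, nat_lit 15145366267776466944), (nat_lit 4, nat_lit 10947531261345792000), (nat_lit 10, nat_lit 7530137959874428928), (nat_lit 14, nat_lit 6076167543062528), (nat_lit 20, nat_lit 4124435106263728128), (nat_lit 24, nat_lit 2721092153324339200), (nat_lit 35, nat_lit 8443435405017088)]), (FastCell.sprN 65 [(nat_lit 2, nat_lit 424491781661392896), (nat_lit 21, nat_lit 2649344415407013888)], FastCell.sprN 65 [(nat_lit 10, nat_lit 2531058245821267968)], FastCell.sprN 65 [(nat_lit 2, nat_lit 424491781661392896), (nat_lit 10, nat_lit 2531058245821267968), (nat_lit 21, nat_lit 2649344415407013888)]), z65, (FastCell.sprN 65 [(nat_lit 0, nat_lit 1884156342634020864), (nat_lit 29, nat_lit 1043215277371686912)], FastCell.sprN 65 [(nat_lit 4, nat_lit 834597649821728768), (nat_lit 10, nat_lit 433414800630874112), (nat_lit 20, nat_lit 2293390692136779776)], FastCell.sprN 65 [(nat_lit 0, nat_lit 1884156342634020864), (nat_lit 4, nat_lit 834597649821728768), (nat_lit 10, nat_lit 433414800630874112), (nat_lit 20,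 nat_lit 2293390692136779776), (nat_lit 29, nat_lit 1043215277371686912)]), z65, z65⟩,
  ⟨(FastCell.sprN 65 [(nat_lit 2, nat_lit 839345440888455168), (nat_lit 24, nat_lit 3111755345559552), (nat_lit 29, nat_lit 725473496955617280)], FastCell.sprN 65 [(nat_lit 11, nat_lit 13897493041381376), (nat_lit 16, nat_lit 1799619261556064256), (nat_lit 21, nat_lit 875047840794017792), (nat_lit 36, nat_lit 871571298843623424), (nat_lit 39, nat_lit 3341293232674832384), (nat_lit 46, nat_lit 860370043279892480), (nat_lit 55, nat_lit 2365643340916838400)], FastCell.sprN 65 [(nat_lit 2, nat_lit 839345440888455168), (nat_lit 11, nat_lit 13897493041381376), (nat_lit 16, nat_lit 1799619261556064256), (nat_lit 21, nat_lit 875047840794017792), (nat_lit 24, nat_lit 3111755345559552), (nat_lit 29, nat_lit 725473496955617280), (nat_lit 36, nat_lit 871571298843623424), (nat_lit 39, nat_lit 3341293232674832384), (nat_lit 46, nat_lit 860370043279892480), (nat_lit 55, nat_lit 2365643340916838400)]), (FastCell.sprN 65 [(nat_lit 2, nat_lit 2430345426700861440), (nat_lit 12, nat_lit 18141853788925853696)], FastCell.sprN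 65 [(nat_lit 21, nat_lit 5670805995635343360), (nat_lit 30, nat_lit 2609543149969735680), (nat_lit 42, nat_lit 27531159747294134272), (nat_lit 48, nat_lit 8624061594680164352), (nat_lit 56, nat_lit 23656455969722859520)], FastCell.sprN 65 [(nat_lit 2, nat_lit 2430345426700861440), (nat_lit 12, nat_lit 18141853788925853696), (nat_lit 21, nat_lit 5670805995635343360), (nat_lit 30, nat_lit 2609543149969735680), (nat_lit 42, nat_lit 27531159747294134272), (nat_lit 48, nat_lit 8624061594680164352), (nat_lit 56, nat_lit 23656455969722859520)]), (FastCell.sprN 65 [(nat_lit 2, nat_lit 8703424971038261248), (nat_lit 5, nat_lit 9114251314593792), (nat_lit 10, nat_lit 8248870212527456256), (nat_lit 12, nat_lit 53008781937217634304), (nat_lit 26, nat_lit 4172861109486747648), (nat_lit 34, nat_lit 17687098996608204800), (nat_lit 41, nat_lit 37995459322576896), (nat_lit 50, nat_lit 4312030797340082176), (nat_lit 51, nat_lit 71409456973013319680), (nat_lit 57, nat_lit 11828227984861429760)], FastCell.sprN 65 [(nat_lit 7, nat_lit 1733659202523496448), (nat_lit 15, nat_lit 54737656306728960000), (nat_lit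 16, nat_lit 5442184306648678400), (nat_lit 17, nat_lit 9173562768547119104), (nat_lit 21, nat_lit 26355482859560501248), (nat_lit 24, nat_lit 33418921486843904), (nat_lit 29, nat_lit 14460853178138099712), (nat_lit 48, nat_lit 71409456973013319680)], FastCell.sprN 65 [(nat_lit 2, nat_lit 8703424971038261248), (nat_lit 5, nat_lit 9114251314593792), (nat_lit 7, nat_lit 1733659202523496448), (nat_lit 10, nat_lit 8248870212527456256), (nat_lit 12, nat_lit 53008781937217634304), (nat_lit 15, nat_lit 54737656306728960000), (nat_lit 16, nat_lit 5442184306648678400), (nat_lit 17, nat_lit 9173562768547119104), (nat_lit 21, nat_lit 26355482859560501248), (nat_lit 24, nat_lit 33418921486843904), (nat_lit 26, nat_lit 4172861109486747648), (nat_lit 29, nat_lit 14460853178138099712), (nat_lit 34, nat_lit 17687098996608204800), (nat_lit 41, nat_lit 37995459322576896), (nat_lit 48, nat_lit 71409456973013319680), (nat_lit 50, nat_lit 4312030797340082176), (nat_lit 51, nat_lit 71409456973013319680), (nat_lit 57, nat_lit 11828227984861429760)]), (FastCell.sprN 65 [(nat_lit 12, nat_lit 2541978396666101760),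 (nat_lit 21, nat_lit 5905802573582958592)], FastCell.sprN 65 [(nat_lit 2, nat_lit 2531058245821267968), (nat_lit 30, nat_lit 7948033246221041664)], FastCell.sprN 65 [(nat_lit 2, nat_lit 2531058245821267968), (nat_lit 12, nat_lit 2541978396666101760), (nat_lit 21, nat_lit 5905802573582958592), (nat_lit 30, nat_lit 7948033246221041664)]), z65, (FastCell.sprN 65 [(nat_lit 15, nat_lit 8345976498217287680), (nat_lit 21, nat_lit 6163549436531179520), (nat_lit 29, nat_lit 16053734844957458432)], FastCell.sprN 65 [(nat_lit 2, nat_lit 433414800630874112), (nat_lit 10, nat_lit 8758041604830265344), (nat_lit 36, nat_lit 9388937496345182208)], FastCell.sprN 65 [(nat_lit 2, nat_lit 433414800630874112), (nat_lit 10, nat_lit 8758041604830265344), (nat_lit 15, nat_lit 8345976498217287680), (nat_lit 21, nat_lit 6163549436531179520), (nat_lit 29, nat_lit 16053734844957458432), (nat_lit 36, nat_lit 9388937496345182208)]), z65⟩,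
  ⟨(FastCell.sprN 65 [(nat_lit 2, nat_lit 1472548041226452992), (nat_lit 45, nat_lit 862405337013411840), (nat_lit 50, nat_lit 862405337013411840), (nat_lit 54, nat_lit 2365643340916838400), (nat_lit 57, nat_lit 2365643340916838400)], FastCell.sprN 65 [(nat_lit 10, nat_lit 810115142233620480), (nat_lit 21, nat_lit 1958504375085170688), (nat_lit 36, nat_lit 2502832704299466752)], FastCell.sprN 65 [(nat_lit 2, nat_lit 1472548041226452992), (nat_lit 10, nat_lit 810115142233620480), (nat_lit 21, nat_lit 1958504375085170688), (nat_lit 36, nat_lit 2502832704299466752), (nat_lit 45, nat_lit 862405337013411840), (nat_lit 50, nat_lit 862405337013411840), (nat_lit 54, nat_lit 2365643340916838400), (nat_lit 57, nat_lit 2365643340916838400)]), (FastCell.sprN 65 [(nat_lit 2, nat_lit 15145366267776466944), (nat_lit 24, nat_lit 2721092153324339200), (nat_lit 35, nat_lit 8443435405017088), (nat_lit 52, nat_lit 8624061594680164352), (nat_lit 58, nat_lit 23656455969722859520)], FastCell.sprN 65 [(nat_lit 4, nat_lit 10947531261345792000), (nat_lit 10, nat_lit 12713701897421193216), (nat_lit 14, nat_lit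 6076167543062528), (nat_lit 20, nat_lit 4124435106263728128)], FastCell.sprN 65 [(nat_lit 2, nat_lit 15145366267776466944), (nat_lit 4, nat_lit 10947531261345792000), (nat_lit 10, nat_lit 12713701897421193216), (nat_lit 14, nat_lit 6076167543062528), (nat_lit 20, nat_lit 4124435106263728128), (nat_lit 24, nat_lit 2721092153324339200), (nat_lit 35, nat_lit 8443435405017088), (nat_lit 52, nat_lit 8624061594680164352), (nat_lit 58, nat_lit 23656455969722859520)]), (FastCell.sprN 65 [(nat_lit 10, nat_lit 2531058245821267968), (nat_lit 50, nat_lit 4312030797340082176), (nat_lit 51, nat_lit 71409456973013319680), (nat_lit 57, nat_lit 11828227984861429760)], FastCell.sprN 65 [(nat_lit 2, nat_lit 3016273750434775040), (nat_lit 21, nat_lit 2649344415407013888)], FastCell.sprN 65 [(nat_lit 2, nat_lit 3016273750434775040), (nat_lit 10, nat_lit 2531058245821267968), (nat_lit 21, nat_lit 2649344415407013888), (nat_lit 50, nat_lit 4312030797340082176), (nat_lit 51, nat_lit 71409456973013319680), (nat_lit 57, nat_lit 11828227984861429760)]), z65, (FastCell.sprN 65 [(nat_lit 4, nat_lit 834597649821728768),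 (nat_lit 10, nat_lit 433414800630874112), (nat_lit 20, nat_lit 2293390692136779776)], FastCell.sprN 65 [(nat_lit 0, nat_lit 1884156342634020864), (nat_lit 29, nat_lit 1043215277371686912)], FastCell.sprN 65 [(nat_lit 0, nat_lit 1884156342634020864), (nat_lit 4, nat_lit 834597649821728768), (nat_lit 10, nat_lit 433414800630874112), (nat_lit 20, nat_lit 2293390692136779776), (nat_lit 29, nat_lit 1043215277371686912)]), z65, z65⟩⟩

/-- Data. -/
noncomputable def Gqp : VFam := ⟨⟨(FastCell.sprN 65 [(nat_lit 1, nat_lit 52723438286968717312), (nat_lit 3, nat_lit 50424275910405390336)], FastCell.sprN 65 [(nat_lit 2, nat_lit 103146081934781710336)], FastCell.sprN 65 [(nat_lit 1, nat_lit 52723438286968717312), (nat_lit 2, nat_lit 103146081934781710336), (nat_lit 3, nat_lit 50424275910405390336)]), (FastCell.sprN 65 [(nat_lit 4, nat_lit 10947531261345792000), (nat_lit 6, nat_lit 7536625370536083456)], FastCell.sprN 65 [(nat_lit 2, nat_lit 15145366267776466944), (nat_lit 8, nat_lit 3338390599286915072)], FastCell.sprN 65 [(nat_lit 2, nat_lit 15145366267776466944), (nat_lit 4, nat_lit 10947531261345792000),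 (nat_lit 6, nat_lit 7536625370536083456), (nat_lit 8, nat_lit 3338390599286915072)]), (FastCell.sprN 65 [(nat_lit 2, nat_lit 282994521107595264)], FastCell.sprN 65 [], FastCell.sprN 65 [(nat_lit 2, nat_lit 282994521107595264)]), z65, z65, z65, z65⟩,
  ⟨(FastCell.sprN 65 [(nat_lit 1, nat_lit 52723438286968717312), (nat_lit 3, nat_lit 50424275910405390336)], FastCell.sprN 65 [(nat_lit 2, nat_lit 103146081934781710336)], FastCell.sprN 65 [(nat_lit 1, nat_lit 52723438286968717312), (nat_lit 2, nat_lit 103146081934781710336), (nat_lit 3, nat_lit 50424275910405390336)]), (FastCell.sprN 65 [(nat_lit 4, nat_lit 10947531261345792000), (nat_lit 6, nat_lit 7536625370536083456)], FastCell.sprN 65 [(nat_lit 2, nat_lit 15145366267776466944), (nat_lit 8, nat_lit 3338390599286915072)], FastCell.sprN 65 [(nat_lit 2, nat_lit 15145366267776466944), (nat_lit 4, nat_lit 10947531261345792000), (nat_lit 6, nat_lit 7536625370536083456), (nat_lit 8, nat_lit 3338390599286915072)]), (FastCell.sprN 65 [(nat_lit 2, nat_lit 282994521107595264)], FastCell.sprN 65 [], FastCell.sprN 65 [(nat_lit 2, nat_lit 282994521107595264)]),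 z65, z65, z65, z65⟩,
  ⟨(FastCell.sprN 65 [(nat_lit 1, nat_lit 52723438286968717312), (nat_lit 3, nat_lit 50424275910405390336)], FastCell.sprN 65 [(nat_lit 2, nat_lit 103146081934781710336)], FastCell.sprN 65 [(nat_lit 1, nat_lit 52723438286968717312), (nat_lit 2, nat_lit 103146081934781710336), (nat_lit 3, nat_lit 50424275910405390336)]), (FastCell.sprN 65 [(nat_lit 4, nat_lit 10947531261345792000), (nat_lit 6, nat_lit 7536625370536083456)], FastCell.sprN 65 [(nat_lit 2, nat_lit 15145366267776466944), (nat_lit 8, nat_lit 3338390599286915072)], FastCell.sprN 65 [(nat_lit 2, nat_lit 15145366267776466944), (nat_lit 4, nat_lit 10947531261345792000), (nat_lit 6, nat_lit 7536625370536083456), (nat_lit 8, nat_lit 3338390599286915072)]), (FastCell.sprN 65 [(nat_lit 2, nat_lit 282994521107595264)], FastCell.sprN 65 [], FastCell.sprN 65 [(nat_lit 2, nat_lit 282994521107595264)]), z65, z65, z65, z65⟩,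
  ⟨z65, z65, z65, z65, z65, z65, z65⟩⟩

theorem eHqp : rfamH Bh 3 q sp = some (Hqp, Gqp) := by decide +kernel

theorem hhqp : headTestS 72 3 15235533062 Bh Hqp Gqp z n0 hp = true := by decide +kernel

/-- Data. -/
noncomputable def Tqp : VFam := ⟨⟨(FastCell.sprN 52 [(nat_lit 0, nat_lit 13548476813428129792), (nat_lit 4, nat_lit 263438097596805148672), (nat_lit 8, nat_lit 344126563154626990080), (nat_lit 12, nat_lit 32256680397762990080), (nat_lit 14, nat_lit 4731275401556439040)], FastCell.sprN 52 [(nat_lit 2, nat_lit 91334451246826016768), (nat_lit 6, nat_lit 398805723914163138560), (nat_lit 10, nat_lit 165595274862273703936), (nat_lit 16, nat_lit 2365643340916838400)], FastCell.sprN 52 [(nat_lit 0, nat_lit 13548476813428129792), (nat_lit 2, nat_lit 91334451246826016768), (nat_lit 4, nat_lit 263438097596805148672), (nat_lit 6, nat_lit 398805723914163138560), (nat_lit 8, nat_lit 344126563154626990080), (nat_lit 10, nat_lit 165595274862273703936), (nat_lit 12, nat_lit 32256680397762990080), (nat_lit 14, nat_lit 4731275401556439040), (nat_lit 16, nat_lit 2365643340916838400)]), (FastCell.sprN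 52 [(nat_lit 29, nat_lit 27096953626856259584), (nat_lit 33, nat_lit 583026191310981693440), (nat_lit 37, nat_lit 871096266913700904960), (nat_lit 41, nat_lit 165595191788060016640)], FastCell.sprN 52 [(nat_lit 31, nat_lit 203531935823914074112), (nat_lit 35, nat_lit 914216574887101726720), (nat_lit 39, nat_lit 505409636958860214272), (nat_lit 43, nat_lit 23656455969722859520)], FastCell.sprN 52 [(nat_lit 29, nat_lit 27096953626856259584), (nat_lit 31, nat_lit 203531935823914074112), (nat_lit 33, nat_lit 583026191310981693440), (nat_lit 35, nat_lit 914216574887101726720), (nat_lit 37, nat_lit 871096266913700904960), (nat_lit 39, nat_lit 505409636958860214272), (nat_lit 41, nat_lit 165595191788060016640), (nat_lit 43, nat_lit 23656455969722859520)]), (FastCell.sprN 52 [(nat_lit 4, nat_lit 13548476813428129792), (nat_lit 5, nat_lit 71409456973013319680), (nat_lit 8, nat_lit 291513095655490846720), (nat_lit 9, nat_lit 714094569730133196800), (nat_lit 12, nat_lit 435548133456850452480), (nat_lit 13, nat_lit 357047284865066598400), (nat_lit 16, nat_lit 82797595894030008320)], FastCell.sprN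 52 [(nat_lit 6, nat_lit 101765967911957037056), (nat_lit 7, nat_lit 357047284865066598400), (nat_lit 10, nat_lit 457108287443550863360), (nat_lit 11, nat_lit 714094569730133196800), (nat_lit 14, nat_lit 252704818479430107136), (nat_lit 15, nat_lit 71409456973013319680), (nat_lit 18, nat_lit 11828227984861429760)], FastCell.sprN 52 [(nat_lit 4, nat_lit 13548476813428129792), (nat_lit 5, nat_lit 71409456973013319680), (nat_lit 6, nat_lit 101765967911957037056), (nat_lit 7, nat_lit 357047284865066598400), (nat_lit 8, nat_lit 291513095655490846720), (nat_lit 9, nat_lit 714094569730133196800), (nat_lit 10, nat_lit 457108287443550863360), (nat_lit 11, nat_lit 714094569730133196800), (nat_lit 12, nat_lit 435548133456850452480), (nat_lit 13, nat_lit 357047284865066598400), (nat_lit 14, nat_lit 252704818479430107136), (nat_lit 15, nat_lit 71409456973013319680), (nat_lit 16, nat_lit 82797595894030008320), (nat_lit 18, nat_lit 11828227984861429760)]), z52, z52, z52, z52⟩,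
  ⟨(FastCell.sprN 52 [(nat_lit 0, nat_lit 13548476813428129792), (nat_lit 4, nat_lit 292000150240002465792), (nat_lit 8, nat_lit 483807788918941401088), (nat_lit 12, nat_lit 96991455939531038720), (nat_lit 28, nat_lit 810115142233620480)], FastCell.sprN 52 [(nat_lit 2, nat_lit 94801759564528332800), (nat_lit 6, nat_lit 488300367091400339456), (nat_lit 10, nat_lit 289051873930196094976), (nat_lit 14, nat_lit 14193871325778268160), (nat_lit 30, nat_lit 810115142233620480)], FastCell.sprN 52 [(nat_lit 0, nat_lit 13548476813428129792), (nat_lit 2, nat_lit 94801759564528332800), (nat_lit 4, nat_lit 292000150240002465792), (nat_lit 6, nat_lit 488300367091400339456), (nat_lit 8, nat_lit 483807788918941401088), (nat_lit 10, nat_lit 289051873930196094976), (nat_lit 12, nat_lit 96991455939531038720), (nat_lit 14, nat_lit 14193871325778268160), (nat_lit 28, nat_lit 810115142233620480), (nat_lit 30, nat_lit 810115142233620480)]), (FastCell.sprN 52 [(nat_lit 1, nat_lit 4115991670858711040), (nat_lit 5, nat_lit 19244471067825143808), (nat_lit 6, nat_lit 10947531261345792000), (nat_lit 9, nat_lit 5442184306648678400),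 (nat_lit 29, nat_lit 7530137959874428928), (nat_lit 33, nat_lit 6076167543062528)], FastCell.sprN 52 [(nat_lit 3, nat_lit 23368906174088871936), (nat_lit 7, nat_lit 2712648717919322112), (nat_lit 8, nat_lit 10947531261345792000), (nat_lit 11, nat_lit 2721092153324339200), (nat_lit 31, nat_lit 7530137959874428928), (nat_lit 35, nat_lit 6076167543062528)], FastCell.sprN 52 [(nat_lit 1, nat_lit 4115991670858711040), (nat_lit 3, nat_lit 23368906174088871936), (nat_lit 5, nat_lit 19244471067825143808), (nat_lit 6, nat_lit 10947531261345792000), (nat_lit 7, nat_lit 2712648717919322112), (nat_lit 8, nat_lit 10947531261345792000), (nat_lit 9, nat_lit 5442184306648678400), (nat_lit 11, nat_lit 2721092153324339200), (nat_lit 29, nat_lit 7530137959874428928), (nat_lit 31, nat_lit 7530137959874428928), (nat_lit 33, nat_lit 6076167543062528), (nat_lit 35, nat_lit 6076167543062528)]), (FastCell.sprN 52 [(nat_lit 4, nat_lit 3073836197068406784), (nat_lit 8, nat_lit 2649344415407013888), (nat_lit 32, nat_lit 2531058245821267968)], FastCell.sprN 52 [(nat_lit 6, nat_lit 5723180612475420672), (nat_lit 30,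 nat_lit 2531058245821267968)], FastCell.sprN 52 [(nat_lit 4, nat_lit 3073836197068406784), (nat_lit 6, nat_lit 5723180612475420672), (nat_lit 8, nat_lit 2649344415407013888), (nat_lit 30, nat_lit 2531058245821267968), (nat_lit 32, nat_lit 2531058245821267968)]), z52, (FastCell.sprN 52 [(nat_lit 4, nat_lit 2293390692136779776), (nat_lit 30, nat_lit 609800476740812800)], FastCell.sprN 52 [(nat_lit 2, nat_lit 409234349502758912), (nat_lit 7, nat_lit 834597649821728768), (nat_lit 32, nat_lit 1043215277371686912)], FastCell.sprN 52 [(nat_lit 2, nat_lit 409234349502758912), (nat_lit 4, nat_lit 2293390692136779776), (nat_lit 7, nat_lit 834597649821728768), (nat_lit 30, nat_lit 609800476740812800), (nat_lit 32, nat_lit 1043215277371686912)]), z52, z52⟩,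
  ⟨(FastCell.sprN 52 [(nat_lit 3, nat_lit 299450753033719808), (nat_lit 5, nat_lit 14148690236641271808), (nat_lit 9, nat_lit 60781338444826394624), (nat_lit 13, nat_lit 17535153278175862784), (nat_lit 27, nat_lit 725473496955617280), (nat_lit 30, nat_lit 13897493041381376), (nat_lit 31, nat_lit 725473496955617280), (nat_lit 35, nat_lit 1799619261556064256)], FastCell.sprN 52 [(nat_lit 1, nat_lit 907273698749186048), (nat_lit 7, nat_lit 43122815817954258944), (nat_lit 11, nat_lit 46368899855056965632), (nat_lit 15, nat_lit 2365643340916838400), (nat_lit 28, nat_lit 13897493041381376), (nat_lit 29, nat_lit 1450946993911234560), (nat_lit 33, nat_lit 1799619261556064256)], FastCell.sprN 52 [(nat_lit 1, nat_lit 907273698749186048), (nat_lit 3, nat_lit 299450753033719808), (nat_lit 5, nat_lit 14148690236641271808), (nat_lit 7, nat_lit 43122815817954258944), (nat_lit 9, nat_lit 60781338444826394624), (nat_lit 11, nat_lit 46368899855056965632), (nat_lit 13, nat_lit 17535153278175862784), (nat_lit 15, nat_lit 2365643340916838400), (nat_lit 27, nat_lit 725473496955617280), (nat_lit 28, nat_lit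 13897493041381376), (nat_lit 29, nat_lit 1450946993911234560), (nat_lit 30, nat_lit 13897493041381376), (nat_lit 31, nat_lit 725473496955617280), (nat_lit 33, nat_lit 1799619261556064256), (nat_lit 35, nat_lit 1799619261556064256)]), (FastCell.sprN 52 [(nat_lit 4, nat_lit 8911266564569825280), (nat_lit 29, nat_lit 52723438286968717312), (nat_lit 32, nat_lit 296529969860359225344), (nat_lit 36, nat_lit 535156525520471982080), (nat_lit 40, nat_lit 141938735818337157120)], FastCell.sprN 52 [(nat_lit 2, nat_lit 3240460568934481920), (nat_lit 6, nat_lit 5670805995635343360), (nat_lit 30, nat_lit 147425448607522750464), (nat_lit 34, nat_lit 491794231505776017408), (nat_lit 38, nat_lit 363470901140523057152), (nat_lit 42, nat_lit 23656455969722859520)], FastCell.sprN 52 [(nat_lit 2, nat_lit 3240460568934481920), (nat_lit 4, nat_lit 8911266564569825280), (nat_lit 6, nat_lit 5670805995635343360), (nat_lit 29, nat_lit 52723438286968717312), (nat_lit 30, nat_lit 147425448607522750464), (nat_lit 32, nat_lit 296529969860359225344), (nat_lit 34, nat_lit 491794231505776017408), (nat_lit 36, nat_lit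 535156525520471982080), (nat_lit 38, nat_lit 363470901140523057152), (nat_lit 40, nat_lit 141938735818337157120), (nat_lit 42, nat_lit 23656455969722859520)]), (FastCell.sprN 52 [(nat_lit 4, nat_lit 71409456973013319680), (nat_lit 7, nat_lit 265133308125758095360), (nat_lit 8, nat_lit 714094569730133196800), (nat_lit 11, nat_lit 435514714535363608576), (nat_lit 12, nat_lit 350435221848616599552), (nat_lit 15, nat_lit 82797595894030008320), (nat_lit 33, nat_lit 218282179154665275392), (nat_lit 36, nat_lit 53100718908717924352), (nat_lit 37, nat_lit 255705814205485547520), (nat_lit 38, nat_lit 9173562768547119104)], FastCell.sprN 52 [(nat_lit 3, nat_lit 1511799106320728064), (nat_lit 5, nat_lit 60350209132647677952), (nat_lit 6, nat_lit 357047284865066598400), (nat_lit 9, nat_lit 457050563851891769344), (nat_lit 10, nat_lit 711655367823169945600), (nat_lit 13, nat_lit 252704818479430107136), (nat_lit 14, nat_lit 67236595863526572032), (nat_lit 17, nat_lit 11828227984861429760), (nat_lit 29, nat_lit 6173987506288066560), (nat_lit 31, nat_lit 12987191537791139840), (nat_lit 34, nat_lit 43790125045383168000),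 (nat_lit 35, nat_lit 416249822607442968576), (nat_lit 39, nat_lit 53722357976405114880), (nat_lit 41, nat_lit 3338390599286915072)], FastCell.sprN 52 [(nat_lit 3, nat_lit 1511799106320728064), (nat_lit 4, nat_lit 71409456973013319680), (nat_lit 5, nat_lit 60350209132647677952), (nat_lit 6, nat_lit 357047284865066598400), (nat_lit 7, nat_lit 265133308125758095360), (nat_lit 8, nat_lit 714094569730133196800), (nat_lit 9, nat_lit 457050563851891769344), (nat_lit 10, nat_lit 711655367823169945600), (nat_lit 11, nat_lit 435514714535363608576), (nat_lit 12, nat_lit 350435221848616599552), (nat_lit 13, nat_lit 252704818479430107136), (nat_lit 14, nat_lit 67236595863526572032), (nat_lit 15, nat_lit 82797595894030008320), (nat_lit 17, nat_lit 11828227984861429760), (nat_lit 29, nat_lit 6173987506288066560), (nat_lit 31, nat_lit 12987191537791139840), (nat_lit 33, nat_lit 218282179154665275392), (nat_lit 34, nat_lit 43790125045383168000), (nat_lit 35, nat_lit 416249822607442968576), (nat_lit 36, nat_lit 53100718908717924352), (nat_lit 37, nat_lit 255705814205485547520), (nat_lit 38, nat_lit 9173562768547119104),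 (nat_lit 39, nat_lit 53722357976405114880), (nat_lit 41, nat_lit 3338390599286915072)]), (FastCell.sprN 52 [(nat_lit 4, nat_lit 3374744327761690624), (nat_lit 8, nat_lit 5905802573582958592), (nat_lit 34, nat_lit 13354088095775981568)], FastCell.sprN 52 [(nat_lit 6, nat_lit 9280546901344649216), (nat_lit 32, nat_lit 5123060328447344640), (nat_lit 36, nat_lit 7948033246221041664)], FastCell.sprN 52 [(nat_lit 4, nat_lit 3374744327761690624), (nat_lit 6, nat_lit 9280546901344649216), (nat_lit 8, nat_lit 5905802573582958592), (nat_lit 32, nat_lit 5123060328447344640), (nat_lit 34, nat_lit 13354088095775981568), (nat_lit 36, nat_lit 7948033246221041664)]), z52, (FastCell.sprN 52 [(nat_lit 6, nat_lit 12614325556159184896), (nat_lit 30, nat_lit 7295693240127193088), (nat_lit 35, nat_lit 8345976498217287680)], FastCell.sprN 52 [(nat_lit 4, nat_lit 3658802860444876800), (nat_lit 8, nat_lit 9388937496345182208), (nat_lit 32, nat_lit 16053734844957458432)], FastCell.sprN 52 [(nat_lit 4, nat_lit 3658802860444876800), (nat_lit 6, nat_lit 12614325556159184896), (nat_lit 8, nat_lit 9388937496345182208),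 (nat_lit 30, nat_lit 7295693240127193088), (nat_lit 32, nat_lit 16053734844957458432), (nat_lit 35, nat_lit 8345976498217287680)]), z52⟩,
  ⟨(FastCell.sprN 52 [(nat_lit 1, nat_lit 3467308317702316032), (nat_lit 5, nat_lit 89494643177237200896), (nat_lit 9, nat_lit 123456599067922391040), (nat_lit 13, nat_lit 18925146727334707200), (nat_lit 29, nat_lit 810115142233620480)], FastCell.sprN 52 [(nat_lit 3, nat_lit 28562052643197317120), (nat_lit 7, nat_lit 139681225764314411008), (nat_lit 11, nat_lit 64734775541768048640), (nat_lit 15, nat_lit 2365643340916838400), (nat_lit 27, nat_lit 810115142233620480)], FastCell.sprN 52 [(nat_lit 1, nat_lit 3467308317702316032), (nat_lit 3, nat_lit 28562052643197317120), (nat_lit 5, nat_lit 89494643177237200896), (nat_lit 7, nat_lit 139681225764314411008), (nat_lit 9, nat_lit 123456599067922391040), (nat_lit 11, nat_lit 64734775541768048640), (nat_lit 13, nat_lit 18925146727334707200), (nat_lit 15, nat_lit 2365643340916838400), (nat_lit 27, nat_lit 810115142233620480), (nat_lit 29, nat_lit 810115142233620480)]), (FastCell.sprN 52 [(nat_lit 2, nat_lit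 23368906174088871936), (nat_lit 6, nat_lit 2712648717919322112), (nat_lit 7, nat_lit 10947531261345792000), (nat_lit 10, nat_lit 2721092153324339200), (nat_lit 28, nat_lit 19566815666981830656), (nat_lit 32, nat_lit 583020115143438630912), (nat_lit 36, nat_lit 871096266913700904960), (nat_lit 40, nat_lit 165595191788060016640)], FastCell.sprN 52 [(nat_lit 0, nat_lit 4115991670858711040), (nat_lit 4, nat_lit 19244471067825143808), (nat_lit 5, nat_lit 10947531261345792000), (nat_lit 8, nat_lit 5442184306648678400), (nat_lit 30, nat_lit 196001797864039645184), (nat_lit 34, nat_lit 914210498719558664192), (nat_lit 38, nat_lit 505409636958860214272), (nat_lit 42, nat_lit 23656455969722859520)], FastCell.sprN 52 [(nat_lit 0, nat_lit 4115991670858711040), (nat_lit 2, nat_lit 23368906174088871936), (nat_lit 4, nat_lit 19244471067825143808), (nat_lit 5, nat_lit 10947531261345792000), (nat_lit 6, nat_lit 2712648717919322112), (nat_lit 7, nat_lit 10947531261345792000), (nat_lit 8, nat_lit 5442184306648678400), (nat_lit 10, nat_lit 2721092153324339200), (nat_lit 28, nat_lit 19566815666981830656),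 (nat_lit 30, nat_lit 196001797864039645184), (nat_lit 32, nat_lit 583020115143438630912), (nat_lit 34, nat_lit 914210498719558664192), (nat_lit 36, nat_lit 871096266913700904960), (nat_lit 38, nat_lit 505409636958860214272), (nat_lit 40, nat_lit 165595191788060016640), (nat_lit 42, nat_lit 23656455969722859520)]), (FastCell.sprN 52 [(nat_lit 3, nat_lit 10474640616359723008), (nat_lit 4, nat_lit 71409456973013319680), (nat_lit 7, nat_lit 288863751240083832832), (nat_lit 8, nat_lit 714094569730133196800), (nat_lit 11, nat_lit 435548133456850452480), (nat_lit 12, nat_lit 357047284865066598400), (nat_lit 15, nat_lit 82797595894030008320), (nat_lit 29, nat_lit 2531058245821267968)], FastCell.sprN 52 [(nat_lit 5, nat_lit 96042787299481616384), (nat_lit 6, nat_lit 357047284865066598400), (nat_lit 9, nat_lit 457108287443550863360), (nat_lit 10, nat_lit 714094569730133196800), (nat_lit 13, nat_lit 252704818479430107136), (nat_lit 14, nat_lit 71409456973013319680), (nat_lit 17, nat_lit 11828227984861429760), (nat_lit 31, nat_lit 2531058245821267968)], FastCell.sprN 52 [(nat_lit 3, nat_lit 10474640616359723008),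 (nat_lit 4, nat_lit 71409456973013319680), (nat_lit 5, nat_lit 96042787299481616384), (nat_lit 6, nat_lit 357047284865066598400), (nat_lit 7, nat_lit 288863751240083832832), (nat_lit 8, nat_lit 714094569730133196800), (nat_lit 9, nat_lit 457108287443550863360), (nat_lit 10, nat_lit 714094569730133196800), (nat_lit 11, nat_lit 435548133456850452480), (nat_lit 12, nat_lit 357047284865066598400), (nat_lit 13, nat_lit 252704818479430107136), (nat_lit 14, nat_lit 71409456973013319680), (nat_lit 15, nat_lit 82797595894030008320), (nat_lit 17, nat_lit 11828227984861429760), (nat_lit 29, nat_lit 2531058245821267968), (nat_lit 31, nat_lit 2531058245821267968)]), z52, (FastCell.sprN 52 [(nat_lit 1, nat_lit 409234349502758912), (nat_lit 6, nat_lit 834597649821728768), (nat_lit 31, nat_lit 1043215277371686912)], FastCell.sprN 52 [(nat_lit 3, nat_lit 2293390692136779776), (nat_lit 29, nat_lit 609800476740812800)], FastCell.sprN 52 [(nat_lit 1, nat_lit 409234349502758912), (nat_lit 3, nat_lit 2293390692136779776), (nat_lit 6, nat_lit 834597649821728768), (nat_lit 29, nat_lit 609800476740812800), (nat_lit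 31, nat_lit 1043215277371686912)]), z52, z52⟩⟩

theorem eTqp : rfam2 Bt 3 q sp = some Tqp := by decide +kernel

theorem ttqp : tailTest2 1107727027 true 72 3 989560045568 (2412577500) Bt Tqp lastRow tp = true := by decide +kernel

/-- Data. -/
noncomputable def Hrn : VFam := ⟨⟨(FastCell.sprN 65 [(nat_lit 2, nat_lit 4611686018427387904), (nat_lit 36, nat_lit 498880834396839936), (nat_lit 44, nat_lit 262568912925753344), (nat_lit 45, nat_lit 236599069071753216), (nat_lit 49, nat_lit 124525850828734464), (nat_lit 57, nat_lit 79070149689300467712), (nat_lit 59, nat_lit 41615876612893442048), (nat_lit 63, nat_lit 19780897406976), (nat_lit 64, nat_lit 10411000725504)], FastCell.sprN 65 [(nat_lit 20, nat_lit 1367266327164616704)], FastCell.sprN 65 [(nat_lit 2, nat_lit 4611686018427387904), (nat_lit 20, nat_lit 1367266327164616704), (nat_lit 36, nat_lit 498880834396839936), (nat_lit 44, nat_lit 262568912925753344), (nat_lit 45, nat_lit 236599069071753216), (nat_lit 49, nat_lit 124525850828734464), (nat_lit 57, nat_lit 79070149689300467712), (nat_lit 59, nat_lit 41615876612893442048), (nat_lit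 63, nat_lit 19780897406976), (nat_lit 64, nat_lit 10411000725504)]), (FastCell.sprN 65 [(nat_lit 44, nat_lit 525137825851506688), (nat_lit 49, nat_lit 249051701657468928), (nat_lit 59, nat_lit 83231753225786884096), (nat_lit 64, nat_lit 20822001451008)], FastCell.sprN 65 [(nat_lit 20, nat_lit 2734532654329233408)], FastCell.sprN 65 [(nat_lit 20, nat_lit 2734532654329233408), (nat_lit 44, nat_lit 525137825851506688), (nat_lit 49, nat_lit 249051701657468928), (nat_lit 59, nat_lit 83231753225786884096), (nat_lit 64, nat_lit 20822001451008)]), (FastCell.sprN 65 [(nat_lit 44, nat_lit 262568912925753344), (nat_lit 49, nat_lit 124525850828734464), (nat_lit 59, nat_lit 41615876612893442048), (nat_lit 64, nat_lit 10411000725504)], FastCell.sprN 65 [(nat_lit 20, nat_lit 1367266327164616704)], FastCell.sprN 65 [(nat_lit 20, nat_lit 1367266327164616704), (nat_lit 44, nat_lit 262568912925753344), (nat_lit 49, nat_lit 124525850828734464), (nat_lit 59, nat_lit 41615876612893442048), (nat_lit 64, nat_lit 10411000725504)]), z65, z65, z65, z65⟩,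
  ⟨(FastCell.sprN 65 [(nat_lit 2, nat_lit 3526495874274295808), (nat_lit 10, nat_lit 3523379936704331776), (nat_lit 35, nat_lit 124525850828734464), (nat_lit 36, nat_lit 10216222019281371136), (nat_lit 53, nat_lit 41615876612893442048), (nat_lit 60, nat_lit 10411000725504)], FastCell.sprN 65 [(nat_lit 20, nat_lit 1104697414238863360), (nat_lit 21, nat_lit 6162772602700521472), (nat_lit 54, nat_lit 79070149689300467712), (nat_lit 61, nat_lit 19780897406976)], FastCell.sprN 65 [(nat_lit 2, nat_lit 3526495874274295808), (nat_lit 10, nat_lit 3523379936704331776), (nat_lit 20, nat_lit 1104697414238863360), (nat_lit 21, nat_lit 6162772602700521472), (nat_lit 35, nat_lit 124525850828734464), (nat_lit 36, nat_lit 10216222019281371136), (nat_lit 53, nat_lit 41615876612893442048), (nat_lit 54, nat_lit 79070149689300467712), (nat_lit 60, nat_lit 10411000725504), (nat_lit 61, nat_lit 19780897406976)]), (FastCell.sprN 65 [(nat_lit 10, nat_lit 358265979165984423936), (nat_lit 20, nat_lit 203999598990115995648), (nat_lit 32, nat_lit 71604896485552947200), (nat_lit 40, nat_lit 757435741092446208000)],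 FastCell.sprN 65 [(nat_lit 13, nat_lit 359378127841675706368), (nat_lit 22, nat_lit 175463036318505762816), (nat_lit 28, nat_lit 775504266212163977216)], FastCell.sprN 65 [(nat_lit 10, nat_lit 358265979165984423936), (nat_lit 13, nat_lit 359378127841675706368), (nat_lit 20, nat_lit 203999598990115995648), (nat_lit 22, nat_lit 175463036318505762816), (nat_lit 28, nat_lit 775504266212163977216), (nat_lit 32, nat_lit 71604896485552947200), (nat_lit 40, nat_lit 757435741092446208000)]), (FastCell.sprN 65 [(nat_lit 20, nat_lit 90860955491106816), (nat_lit 35, nat_lit 19481401816648777728)], FastCell.sprN 65 [(nat_lit 28, nat_lit 11463935045715099648)], FastCell.sprN 65 [(nat_lit 20, nat_lit 90860955491106816), (nat_lit 28, nat_lit 11463935045715099648), (nat_lit 35, nat_lit 19481401816648777728)]), z65, (FastCell.sprN 65 [(nat_lit 0, nat_lit 2060685986047721472), (nat_lit 29, nat_lit 2883051399359234048)], FastCell.sprN 65 [(nat_lit 4, nat_lit 1399471224605638656), (nat_lit 10, nat_lit 459340110140276736), (nat_lit 20, nat_lit 4079063537752735744)], FastCell.sprN 65 [(nat_lit 0, nat_lit 2060685986047721472),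 (nat_lit 4, nat_lit 1399471224605638656), (nat_lit 10, nat_lit 459340110140276736), (nat_lit 20, nat_lit 4079063537752735744), (nat_lit 29, nat_lit 2883051399359234048)]), z65, z65⟩,
  ⟨(FastCell.sprN 65 [(nat_lit 2, nat_lit 1787861323653054464), (nat_lit 11, nat_lit 3560527888384), (nat_lit 24, nat_lit 108382160566305685504), (nat_lit 29, nat_lit 174252333641760768), (nat_lit 36, nat_lit 123748079475668025344), (nat_lit 39, nat_lit 199595099387286519808), (nat_lit 46, nat_lit 178961378583370530816)], FastCell.sprN 65 [(nat_lit 16, nat_lit 2507268035421667328), (nat_lit 21, nat_lit 125422181691695300608), (nat_lit 22, nat_lit 236311921471086592), (nat_lit 37, nat_lit 112073218243018752), (nat_lit 55, nat_lit 37454273076407025664), (nat_lit 62, nat_lit 9369896681472)], FastCell.sprN 65 [(nat_lit 2, nat_lit 1787861323653054464), (nat_lit 11, nat_lit 3560527888384), (nat_lit 16, nat_lit 2507268035421667328), (nat_lit 21, nat_lit 125422181691695300608), (nat_lit 22, nat_lit 236311921471086592), (nat_lit 24, nat_lit 108382160566305685504), (nat_lit 29, nat_lit 174252333641760768), (nat_lit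 36, nat_lit 123748079475668025344), (nat_lit 37, nat_lit 112073218243018752), (nat_lit 39, nat_lit 199595099387286519808), (nat_lit 46, nat_lit 178961378583370530816), (nat_lit 55, nat_lit 37454273076407025664), (nat_lit 62, nat_lit 9369896681472)]), (FastCell.sprN 65 [(nat_lit 1, nat_lit 40648277625644515328), (nat_lit 3, nat_lit 41852666419144032256), (nat_lit 10, nat_lit 10570139810112995328), (nat_lit 36, nat_lit 113166814619000373248)], FastCell.sprN 65 [(nat_lit 2, nat_lit 82499610849358905344), (nat_lit 21, nat_lit 15059236064143081472), (nat_lit 29, nat_lit 24663659556930322432), (nat_lit 45, nat_lit 115230083673541836800), (nat_lit 57, nat_lit 83231753225786884096), (nat_lit 63, nat_lit 20822001451008)], FastCell.sprN 65 [(nat_lit 1, nat_lit 40648277625644515328), (nat_lit 2, nat_lit 82499610849358905344), (nat_lit 3, nat_lit 41852666419144032256), (nat_lit 10, nat_lit 10570139810112995328), (nat_lit 21, nat_lit 15059236064143081472), (nat_lit 29, nat_lit 24663659556930322432), (nat_lit 36, nat_lit 113166814619000373248), (nat_lit 45, nat_lit 115230083673541836800), (nat_lit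 57, nat_lit 83231753225786884096), (nat_lit 63, nat_lit 20822001451008)]), (FastCell.sprN 65 [(nat_lit 10, nat_lit 358265979165984423936), (nat_lit 15, nat_lit 8242743944190885888), (nat_lit 20, nat_lit 304632132158009376768), (nat_lit 31, nat_lit 1796890639208378531840), (nat_lit 32, nat_lit 143209792971105894400), (nat_lit 37, nat_lit 965046699751781695488), (nat_lit 38, nat_lit 11532205597436936192), (nat_lit 40, nat_lit 4986572155019912544256), (nat_lit 44, nat_lit 262568912925753344), (nat_lit 49, nat_lit 124525850828734464), (nat_lit 59, nat_lit 41615876612893442048), (nat_lit 64, nat_lit 10411000725504)], FastCell.sprN 65 [(nat_lit 13, nat_lit 359378127841675706368), (nat_lit 18, nat_lit 5597884898422554624), (nat_lit 22, nat_lit 263194554477758644224), (nat_lit 25, nat_lit 1837360440561106944), (nat_lit 28, nat_lit 1551008532424327954432), (nat_lit 29, nat_lit 1253930927080945483776), (nat_lit 33, nat_lit 16316254151010942976), (nat_lit 35, nat_lit 713998596465405984768), (nat_lit 43, nat_lit 465431827156094156800), (nat_lit 47, nat_lit 3408460834916007936000)], FastCell.sprN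 65 [(nat_lit 10, nat_lit 358265979165984423936), (nat_lit 13, nat_lit 359378127841675706368), (nat_lit 15, nat_lit 8242743944190885888), (nat_lit 18, nat_lit 5597884898422554624), (nat_lit 20, nat_lit 304632132158009376768), (nat_lit 22, nat_lit 263194554477758644224), (nat_lit 25, nat_lit 1837360440561106944), (nat_lit 28, nat_lit 1551008532424327954432), (nat_lit 29, nat_lit 1253930927080945483776), (nat_lit 31, nat_lit 1796890639208378531840), (nat_lit 32, nat_lit 143209792971105894400), (nat_lit 33, nat_lit 16316254151010942976), (nat_lit 35, nat_lit 713998596465405984768), (nat_lit 37, nat_lit 965046699751781695488), (nat_lit 38, nat_lit 11532205597436936192), (nat_lit 40, nat_lit 4986572155019912544256), (nat_lit 43, nat_lit 465431827156094156800), (nat_lit 44, nat_lit 262568912925753344), (nat_lit 47, nat_lit 3408460834916007936000), (nat_lit 49, nat_lit 124525850828734464), (nat_lit 59, nat_lit 41615876612893442048), (nat_lit 64, nat_lit 10411000725504)]), (FastCell.sprN 65 [(nat_lit 20, nat_lit 60573970327404544), (nat_lit 35, nat_lit 25763193526052454400), (nat_lit 40, nat_lit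 26749181773335232512)], FastCell.sprN 65 [(nat_lit 28, nat_lit 11463935045715099648), (nat_lit 44, nat_lit 58444205449946333184)], FastCell.sprN 65 [(nat_lit 20, nat_lit 60573970327404544), (nat_lit 28, nat_lit 11463935045715099648), (nat_lit 35, nat_lit 25763193526052454400), (nat_lit 40, nat_lit 26749181773335232512), (nat_lit 44, nat_lit 58444205449946333184)]), z65, (FastCell.sprN 65 [(nat_lit 23, nat_lit 13994712246056386560), (nat_lit 29, nat_lit 11864534969059639296), (nat_lit 35, nat_lit 28553444764269150208)], FastCell.sprN 65 [(nat_lit 10, nat_lit 459340110140276736), (nat_lit 20, nat_lit 15358408834775252992), (nat_lit 41, nat_lit 25947462594233106432)], FastCell.sprN 65 [(nat_lit 10, nat_lit 459340110140276736), (nat_lit 20, nat_lit 15358408834775252992), (nat_lit 23, nat_lit 13994712246056386560), (nat_lit 29, nat_lit 11864534969059639296), (nat_lit 35, nat_lit 28553444764269150208), (nat_lit 41, nat_lit 25947462594233106432)]), z65⟩,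
  ⟨(FastCell.sprN 65 [(nat_lit 2, nat_lit 1085190144153092096), (nat_lit 21, nat_lit 5900203689774768128), (nat_lit 45, nat_lit 112073218243018752), (nat_lit 54, nat_lit 37454273076407025664), (nat_lit 57, nat_lit 37454273076407025664), (nat_lit 61, nat_lit 9369896681472), (nat_lit 63, nat_lit 9369896681472)], FastCell.sprN 65 [(nat_lit 10, nat_lit 3523379936704331776), (nat_lit 36, nat_lit 10104435948639019008)], FastCell.sprN 65 [(nat_lit 2, nat_lit 1085190144153092096), (nat_lit 10, nat_lit 3523379936704331776), (nat_lit 21, nat_lit 5900203689774768128), (nat_lit 36, nat_lit 10104435948639019008), (nat_lit 45, nat_lit 112073218243018752), (nat_lit 54, nat_lit 37454273076407025664), (nat_lit 57, nat_lit 37454273076407025664), (nat_lit 61, nat_lit 9369896681472), (nat_lit 63, nat_lit 9369896681472)]), (FastCell.sprN 65 [(nat_lit 13, nat_lit 359378127841675706368), (nat_lit 22, nat_lit 175463036318505762816), (nat_lit 28, nat_lit 775504266212163977216), (nat_lit 44, nat_lit 525137825851506688), (nat_lit 49, nat_lit 249051701657468928), (nat_lit 59, nat_lit 83231753225786884096), (nat_lit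 64, nat_lit 20822001451008)], FastCell.sprN 65 [(nat_lit 10, nat_lit 358265979165984423936), (nat_lit 20, nat_lit 206734131644445229056), (nat_lit 32, nat_lit 71604896485552947200), (nat_lit 40, nat_lit 757435741092446208000)], FastCell.sprN 65 [(nat_lit 10, nat_lit 358265979165984423936), (nat_lit 13, nat_lit 359378127841675706368), (nat_lit 20, nat_lit 206734131644445229056), (nat_lit 22, nat_lit 175463036318505762816), (nat_lit 28, nat_lit 775504266212163977216), (nat_lit 32, nat_lit 71604896485552947200), (nat_lit 40, nat_lit 757435741092446208000), (nat_lit 44, nat_lit 525137825851506688), (nat_lit 49, nat_lit 249051701657468928), (nat_lit 59, nat_lit 83231753225786884096), (nat_lit 64, nat_lit 20822001451008)]), (FastCell.sprN 65 [(nat_lit 28, nat_lit 11463935045715099648), (nat_lit 44, nat_lit 262568912925753344), (nat_lit 49, nat_lit 124525850828734464), (nat_lit 59, nat_lit 41615876612893442048), (nat_lit 64, nat_lit 10411000725504)], FastCell.sprN 65 [(nat_lit 20, nat_lit 1458127282655723520), (nat_lit 35, nat_lit 19481401816648777728)], FastCell.sprN 65 [(nat_lit 20, nat_lit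 1458127282655723520), (nat_lit 28, nat_lit 11463935045715099648), (nat_lit 35, nat_lit 19481401816648777728), (nat_lit 44, nat_lit 262568912925753344), (nat_lit 49, nat_lit 124525850828734464), (nat_lit 59, nat_lit 41615876612893442048), (nat_lit 64, nat_lit 10411000725504)]), z65, (FastCell.sprN 65 [(nat_lit 4, nat_lit 1399471224605638656), (nat_lit 10, nat_lit 459340110140276736), (nat_lit 20, nat_lit 4079063537752735744)], FastCell.sprN 65 [(nat_lit 0, nat_lit 2060685986047721472), (nat_lit 29, nat_lit 2883051399359234048)], FastCell.sprN 65 [(nat_lit 0, nat_lit 2060685986047721472), (nat_lit 4, nat_lit 1399471224605638656), (nat_lit 10, nat_lit 459340110140276736), (nat_lit 20, nat_lit 4079063537752735744), (nat_lit 29, nat_lit 2883051399359234048)]), z65, z65⟩⟩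

theorem eHrn : rfam Bh (headR false hn) 3 r sn = some Hrn := by decide +kernel

theorem hhrn : headTest false 72 3 15235533062 Bh Hrn z n0 hn = true := by decide +kernel

/-- Data. -/
noncomputable def Trn : VFam := ⟨⟨(FastCell.sprN 52 [(nat_lit 0, nat_lit 40635715460484038656), (nat_lit 4, nat_lit 606152647732861837312), (nat_lit 8, nat_lit 145097934430697119744), (nat_lit 10, nat_lit 437076504205296336896), (nat_lit 14, nat_lit 220564928183983161344), (nat_lit 18, nat_lit 973427912540160), (nat_lit 22, nat_lit 92657862770688)], FastCell.sprN 52 [(nat_lit 2, nat_lit 247448174694579838976), (nat_lit 6, nat_lit 669396446559894478848), (nat_lit 12, nat_lit 495228117324225101824), (nat_lit 16, nat_lit 37455647327192203264), (nat_lit 20, nat_lit 400823309500416), (nat_lit 24, nat_lit 9369896681472)], FastCell.sprN 52 [(nat_lit 0, nat_lit 40635715460484038656), (nat_lit 2, nat_lit 247448174694579838976), (nat_lit 4, nat_lit 606152647732861837312), (nat_lit 6, nat_lit 669396446559894478848), (nat_lit 8, nat_lit 145097934430697119744), (nat_lit 10, nat_lit 437076504205296336896), (nat_lit 12,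 nat_lit 495228117324225101824), (nat_lit 14, nat_lit 220564928183983161344), (nat_lit 16, nat_lit 37455647327192203264), (nat_lit 18, nat_lit 973427912540160), (nat_lit 20, nat_lit 400823309500416), (nat_lit 22, nat_lit 92657862770688), (nat_lit 24, nat_lit 9369896681472)]), (FastCell.sprN 52 [(nat_lit 29, nat_lit 81271430920968077312), (nat_lit 33, nat_lit 1750937686639103705088), (nat_lit 37, nat_lit 2913367285864677244928), (nat_lit 41, nat_lit 582631892345178554368), (nat_lit 45, nat_lit 3435630239416320), (nat_lit 49, nat_lit 229042015961088)], FastCell.sprN 52 [(nat_lit 31, nat_lit 582459589252379312128), (nat_lit 35, nat_lit 2914636143165261742080), (nat_lit 39, nat_lit 1747876437506194931712), (nat_lit 43, nat_lit 83238624486265716736), (nat_lit 47, nat_lit 1145210079805440), (nat_lit 51, nat_lit 20822001451008)], FastCell.sprN 52 [(nat_lit 29, nat_lit 81271430920968077312), (nat_lit 31, nat_lit 582459589252379312128), (nat_lit 33, nat_lit 1750937686639103705088), (nat_lit 35, nat_lit 2914636143165261742080), (nat_lit 37, nat_lit 2913367285864677244928), (nat_lit 39, nat_lit 1747876437506194931712),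 (nat_lit 41, nat_lit 582631892345178554368), (nat_lit 43, nat_lit 83238624486265716736), (nat_lit 45, nat_lit 3435630239416320), (nat_lit 47, nat_lit 1145210079805440), (nat_lit 49, nat_lit 229042015961088), (nat_lit 51, nat_lit 20822001451008)]), (FastCell.sprN 52 [(nat_lit 4, nat_lit 40635715460484038656), (nat_lit 8, nat_lit 875468843319551852544), (nat_lit 12, nat_lit 1456683642932338622464), (nat_lit 16, nat_lit 291315946172589277184), (nat_lit 20, nat_lit 1717815119708160), (nat_lit 24, nat_lit 114521007980544)], FastCell.sprN 52 [(nat_lit 6, nat_lit 291229794626189656064), (nat_lit 10, nat_lit 1457318071582630871040), (nat_lit 14, nat_lit 873938218753097465856), (nat_lit 18, nat_lit 41619312243132858368), (nat_lit 22, nat_lit 572605039902720), (nat_lit 26, nat_lit 10411000725504)], FastCell.sprN 52 [(nat_lit 4, nat_lit 40635715460484038656), (nat_lit 6, nat_lit 291229794626189656064), (nat_lit 8, nat_lit 875468843319551852544), (nat_lit 10, nat_lit 1457318071582630871040), (nat_lit 12, nat_lit 1456683642932338622464), (nat_lit 14, nat_lit 873938218753097465856), (nat_lit 16, nat_lit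 291315946172589277184), (nat_lit 18, nat_lit 41619312243132858368), (nat_lit 20, nat_lit 1717815119708160), (nat_lit 22, nat_lit 572605039902720), (nat_lit 24, nat_lit 114521007980544), (nat_lit 26, nat_lit 10411000725504)]), z52, z52, z52, z52⟩,
  ⟨(FastCell.sprN 52 [(nat_lit 0, nat_lit 40635715460484038656), (nat_lit 4, nat_lit 1076078977044741128192), (nat_lit 8, nat_lit 2195429480977970806784), (nat_lit 12, nat_lit 516043945844995162112), (nat_lit 16, nat_lit 2842202721484800), (nat_lit 20, nat_lit 208219974795264), (nat_lit 28, nat_lit 3523379936704331776)], FastCell.sprN 52 [(nat_lit 2, nat_lit 319349770690719113216), (nat_lit 6, nat_lit 1994010549453531373568), (nat_lit 10, nat_lit 1435754282577505959936), (nat_lit 14, nat_lit 79075552997842993152), (nat_lit 18, nat_lit 994250390568960), (nat_lit 22, nat_lit 19780897406976), (nat_lit 30, nat_lit 3523379936704331776)], FastCell.sprN 52 [(nat_lit 0, nat_lit 40635715460484038656), (nat_lit 2, nat_lit 319349770690719113216), (nat_lit 4, nat_lit 1076078977044741128192), (nat_lit 6, nat_lit 1994010549453531373568), (nat_lit 8, nat_lit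 2195429480977970806784), (nat_lit 10, nat_lit 1435754282577505959936), (nat_lit 12, nat_lit 516043945844995162112), (nat_lit 14, nat_lit 79075552997842993152), (nat_lit 16, nat_lit 2842202721484800), (nat_lit 18, nat_lit 994250390568960), (nat_lit 20, nat_lit 208219974795264), (nat_lit 22, nat_lit 19780897406976), (nat_lit 28, nat_lit 3523379936704331776), (nat_lit 30, nat_lit 3523379936704331776)]), (FastCell.sprN 52 [(nat_lit 5, nat_lit 1138536977899190222848), (nat_lit 8, nat_lit 359378127841675706368), (nat_lit 11, nat_lit 71604896485552947200), (nat_lit 29, nat_lit 203999598990115995648), (nat_lit 35, nat_lit 175463036318505762816)], FastCell.sprN 52 [(nat_lit 1, nat_lit 18068525119717769216), (nat_lit 3, nat_lit 363032711687026245632), (nat_lit 6, nat_lit 359378127841675706368), (nat_lit 7, nat_lit 685830844606893260800), (nat_lit 9, nat_lit 143209792971105894400), (nat_lit 31, nat_lit 203999598990115995648), (nat_lit 33, nat_lit 175463036318505762816)], FastCell.sprN 52 [(nat_lit 1, nat_lit 18068525119717769216), (nat_lit 3, nat_lit 363032711687026245632), (nat_lit 5, nat_lit 1138536977899190222848),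 (nat_lit 6, nat_lit 359378127841675706368), (nat_lit 7, nat_lit 685830844606893260800), (nat_lit 8, nat_lit 359378127841675706368), (nat_lit 9, nat_lit 143209792971105894400), (nat_lit 11, nat_lit 71604896485552947200), (nat_lit 29, nat_lit 203999598990115995648), (nat_lit 31, nat_lit 203999598990115995648), (nat_lit 33, nat_lit 175463036318505762816), (nat_lit 35, nat_lit 175463036318505762816)]), (FastCell.sprN 52 [(nat_lit 4, nat_lit 19572262772139884544), (nat_lit 8, nat_lit 19481401816648777728), (nat_lit 32, nat_lit 11463935045715099648)], FastCell.sprN 52 [(nat_lit 6, nat_lit 39053664588788662272), (nat_lit 30, nat_lit 11463935045715099648)], FastCell.sprN 52 [(nat_lit 4, nat_lit 19572262772139884544), (nat_lit 6, nat_lit 39053664588788662272), (nat_lit 8, nat_lit 19481401816648777728), (nat_lit 30, nat_lit 11463935045715099648), (nat_lit 32, nat_lit 11463935045715099648)]), z52, (FastCell.sprN 52 [(nat_lit 4, nat_lit 4079063537752735744), (nat_lit 30, nat_lit 2423711289218957312)], FastCell.sprN 52 [(nat_lit 2, nat_lit 2018377551705014272), (nat_lit 7, nat_lit 1399471224605638656),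 (nat_lit 32, nat_lit 2883051399359234048)], FastCell.sprN 52 [(nat_lit 2, nat_lit 2018377551705014272), (nat_lit 4, nat_lit 4079063537752735744), (nat_lit 7, nat_lit 1399471224605638656), (nat_lit 30, nat_lit 2423711289218957312), (nat_lit 32, nat_lit 2883051399359234048)]), z52, z52⟩,
  ⟨(FastCell.sprN 52 [(nat_lit 1, nat_lit 113759107625779200), (nat_lit 3, nat_lit 18970974630086189056), (nat_lit 7, nat_lit 370463920911574114304), (nat_lit 11, nat_lit 215930612920821596160), (nat_lit 13, nat_lit 25132900285119365120), (nat_lit 17, nat_lit 1124387601776640), (nat_lit 21, nat_lit 93698966814720), (nat_lit 27, nat_lit 174252333641760768), (nat_lit 28, nat_lit 3560527888384), (nat_lit 31, nat_lit 174252333641760768), (nat_lit 35, nat_lit 2507268035421667328)], FastCell.sprN 52 [(nat_lit 5, nat_lit 136106721376787464192), (nat_lit 9, nat_lit 457049992795050688512), (nat_lit 15, nat_lit 37456240754710134784), (nat_lit 19, nat_lit 421645350666240), (nat_lit 23, nat_lit 9369896681472), (nat_lit 29, nat_lit 348504667283521536), (nat_lit 30, nat_lit 3560527888384), (nat_lit 33, nat_lit 2507268035421667328)],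 FastCell.sprN 52 [(nat_lit 1, nat_lit 113759107625779200), (nat_lit 3, nat_lit 18970974630086189056), (nat_lit 5, nat_lit 136106721376787464192), (nat_lit 7, nat_lit 370463920911574114304), (nat_lit 9, nat_lit 457049992795050688512), (nat_lit 11, nat_lit 215930612920821596160), (nat_lit 13, nat_lit 25132900285119365120), (nat_lit 15, nat_lit 37456240754710134784), (nat_lit 17, nat_lit 1124387601776640), (nat_lit 19, nat_lit 421645350666240), (nat_lit 21, nat_lit 93698966814720), (nat_lit 23, nat_lit 9369896681472), (nat_lit 27, nat_lit 174252333641760768), (nat_lit 28, nat_lit 3560527888384), (nat_lit 29, nat_lit 348504667283521536), (nat_lit 30, nat_lit 3560527888384), (nat_lit 31, nat_lit 174252333641760768), (nat_lit 33, nat_lit 2507268035421667328), (nat_lit 35, nat_lit 2507268035421667328)]), (FastCell.sprN 52 [(nat_lit 4, nat_lit 38757179303747649536), (nat_lit 29, nat_lit 40648277625644515328), (nat_lit 32, nat_lit 675659251840647692288), (nat_lit 36, nat_lit 1779867646829453639680), (nat_lit 40, nat_lit 499395766499086958592), (nat_lit 44, nat_lit 2498640174120960), (nat_lit 48,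 nat_lit 208220014510080)], FastCell.sprN 52 [(nat_lit 2, nat_lit 14093519746817327104), (nat_lit 6, nat_lit 24663659556930322432), (nat_lit 30, nat_lit 182853890015831785472), (nat_lit 34, nat_lit 1481000671778493693952), (nat_lit 38, nat_lit 1248480671007107973120), (nat_lit 42, nat_lit 83236125846091595776), (nat_lit 46, nat_lit 936990065295360), (nat_lit 50, nat_lit 20822001451008)], FastCell.sprN 52 [(nat_lit 2, nat_lit 14093519746817327104), (nat_lit 4, nat_lit 38757179303747649536), (nat_lit 6, nat_lit 24663659556930322432), (nat_lit 29, nat_lit 40648277625644515328), (nat_lit 30, nat_lit 182853890015831785472), (nat_lit 32, nat_lit 675659251840647692288), (nat_lit 34, nat_lit 1481000671778493693952), (nat_lit 36, nat_lit 1779867646829453639680), (nat_lit 38, nat_lit 1248480671007107973120), (nat_lit 40, nat_lit 499395766499086958592), (nat_lit 42, nat_lit 83236125846091595776), (nat_lit 44, nat_lit 2498640174120960), (nat_lit 46, nat_lit 936990065295360), (nat_lit 48, nat_lit 208220014510080), (nat_lit 50, nat_lit 20822001451008)]), (FastCell.sprN 52 [(nat_lit 5, nat_lit 830767999819448320000),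 (nat_lit 7, nat_lit 863322392128168919040), (nat_lit 10, nat_lit 9694845156875829248), (nat_lit 11, nat_lit 2421730342684120317952), (nat_lit 14, nat_lit 11532205597436936192), (nat_lit 15, nat_lit 291315946172589277184), (nat_lit 19, nat_lit 1717815119708160), (nat_lit 23, nat_lit 114521007980544), (nat_lit 29, nat_lit 27102787679576653824), (nat_lit 31, nat_lit 907581779217565614080), (nat_lit 34, nat_lit 1437512511366702825472), (nat_lit 35, nat_lit 3086238800731019673600), (nat_lit 37, nat_lit 787653861341082419200), (nat_lit 38, nat_lit 16316254151010942976)], FastCell.sprN 52 [(nat_lit 3, nat_lit 367363482519747952640), (nat_lit 9, nat_lit 3124216916608435617792), (nat_lit 12, nat_lit 21227050754312765440), (nat_lit 13, nat_lit 873938218753097465856), (nat_lit 17, nat_lit 41619312243132858368), (nat_lit 21, nat_lit 572605039902720), (nat_lit 25, nat_lit 10411000725504), (nat_lit 33, nat_lit 3984879422647165779968), (nat_lit 36, nat_lit 1804964149415198588928), (nat_lit 39, nat_lit 465431827156094156800), (nat_lit 41, nat_lit 5597884898422554624)], FastCell.sprN 52 [(nat_lit 3, nat_lit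 367363482519747952640), (nat_lit 5, nat_lit 830767999819448320000), (nat_lit 7, nat_lit 863322392128168919040), (nat_lit 9, nat_lit 3124216916608435617792), (nat_lit 10, nat_lit 9694845156875829248), (nat_lit 11, nat_lit 2421730342684120317952), (nat_lit 12, nat_lit 21227050754312765440), (nat_lit 13, nat_lit 873938218753097465856), (nat_lit 14, nat_lit 11532205597436936192), (nat_lit 15, nat_lit 291315946172589277184), (nat_lit 17, nat_lit 41619312243132858368), (nat_lit 19, nat_lit 1717815119708160), (nat_lit 21, nat_lit 572605039902720), (nat_lit 23, nat_lit 114521007980544), (nat_lit 25, nat_lit 10411000725504), (nat_lit 29, nat_lit 27102787679576653824), (nat_lit 31, nat_lit 907581779217565614080), (nat_lit 33, nat_lit 3984879422647165779968), (nat_lit 34, nat_lit 1437512511366702825472), (nat_lit 35, nat_lit 3086238800731019673600), (nat_lit 36, nat_lit 1804964149415198588928), (nat_lit 37, nat_lit 787653861341082419200), (nat_lit 38, nat_lit 16316254151010942976), (nat_lit 39, nat_lit 465431827156094156800), (nat_lit 41, nat_lit 5597884898422554624)]), (FastCell.sprN 52 [(nat_lit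 4, nat_lit 15285246727620132864), (nat_lit 8, nat_lit 26749181773335232512), (nat_lit 34, nat_lit 91125217373840211968)], FastCell.sprN 52 [(nat_lit 6, nat_lit 42034428500955365376), (nat_lit 32, nat_lit 32620437953566474240), (nat_lit 36, nat_lit 58444205449946333184)], FastCell.sprN 52 [(nat_lit 4, nat_lit 15285246727620132864), (nat_lit 6, nat_lit 42034428500955365376), (nat_lit 8, nat_lit 26749181773335232512), (nat_lit 32, nat_lit 32620437953566474240), (nat_lit 34, nat_lit 91125217373840211968), (nat_lit 36, nat_lit 58444205449946333184)]), z52, (FastCell.sprN 52 [(nat_lit 6, nat_lit 40030390219406573568), (nat_lit 30, nat_lit 13195035929493897216), (nat_lit 35, nat_lit 13994712246056386560)], FastCell.sprN 52 [(nat_lit 4, nat_lit 14542267735313743872), (nat_lit 8, nat_lit 25947462594233106432), (nat_lit 32, nat_lit 28553444764269150208)], FastCell.sprN 52 [(nat_lit 4, nat_lit 14542267735313743872), (nat_lit 6, nat_lit 40030390219406573568), (nat_lit 8, nat_lit 25947462594233106432), (nat_lit 30, nat_lit 13195035929493897216), (nat_lit 32, nat_lit 28553444764269150208), (nat_lit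 35, nat_lit 13994712246056386560)]), z52⟩,
  ⟨(FastCell.sprN 52 [(nat_lit 1, nat_lit 71901595996139274240), (nat_lit 5, nat_lit 1324614102893636894720), (nat_lit 9, nat_lit 1872830786782802296832), (nat_lit 13, nat_lit 299640481181826154496), (nat_lit 17, nat_lit 1967678303109120), (nat_lit 21, nat_lit 112438760177664), (nat_lit 29, nat_lit 3523379936704331776)], FastCell.sprN 52 [(nat_lit 3, nat_lit 469926329311879290880), (nat_lit 7, nat_lit 2050331546547273687040), (nat_lit 11, nat_lit 1011272063169220263936), (nat_lit 15, nat_lit 37458489529913688064), (nat_lit 19, nat_lit 609043284295680), (nat_lit 23, nat_lit 9369896681472), (nat_lit 27, nat_lit 3523379936704331776)], FastCell.sprN 52 [(nat_lit 1, nat_lit 71901595996139274240), (nat_lit 3, nat_lit 469926329311879290880), (nat_lit 5, nat_lit 1324614102893636894720), (nat_lit 7, nat_lit 2050331546547273687040), (nat_lit 9, nat_lit 1872830786782802296832), (nat_lit 11, nat_lit 1011272063169220263936), (nat_lit 13, nat_lit 299640481181826154496), (nat_lit 15, nat_lit 37458489529913688064), (nat_lit 17, nat_lit 1967678303109120), (nat_lit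 19, nat_lit 609043284295680), (nat_lit 21, nat_lit 112438760177664), (nat_lit 23, nat_lit 9369896681472), (nat_lit 27, nat_lit 3523379936704331776), (nat_lit 29, nat_lit 3523379936704331776)]), (FastCell.sprN 52 [(nat_lit 0, nat_lit 18068525119717769216), (nat_lit 2, nat_lit 363032711687026245632), (nat_lit 5, nat_lit 359378127841675706368), (nat_lit 6, nat_lit 685830844606893260800), (nat_lit 8, nat_lit 143209792971105894400), (nat_lit 32, nat_lit 1926400722957609467904), (nat_lit 36, nat_lit 2913367285864677244928), (nat_lit 40, nat_lit 582631892345178554368), (nat_lit 44, nat_lit 3435630239416320), (nat_lit 48, nat_lit 229042015961088)], FastCell.sprN 52 [(nat_lit 4, nat_lit 1138536977899190222848), (nat_lit 7, nat_lit 359378127841675706368), (nat_lit 10, nat_lit 71604896485552947200), (nat_lit 28, nat_lit 122728168069147918336), (nat_lit 30, nat_lit 378459990262263316480), (nat_lit 34, nat_lit 3090099179483767504896), (nat_lit 38, nat_lit 1747876437506194931712), (nat_lit 42, nat_lit 83238624486265716736), (nat_lit 46, nat_lit 1145210079805440), (nat_lit 50, nat_lit 20822001451008)],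 FastCell.sprN 52 [(nat_lit 0, nat_lit 18068525119717769216), (nat_lit 2, nat_lit 363032711687026245632), (nat_lit 4, nat_lit 1138536977899190222848), (nat_lit 5, nat_lit 359378127841675706368), (nat_lit 6, nat_lit 685830844606893260800), (nat_lit 7, nat_lit 359378127841675706368), (nat_lit 8, nat_lit 143209792971105894400), (nat_lit 10, nat_lit 71604896485552947200), (nat_lit 28, nat_lit 122728168069147918336), (nat_lit 30, nat_lit 378459990262263316480), (nat_lit 32, nat_lit 1926400722957609467904), (nat_lit 34, nat_lit 3090099179483767504896), (nat_lit 36, nat_lit 2913367285864677244928), (nat_lit 38, nat_lit 1747876437506194931712), (nat_lit 40, nat_lit 582631892345178554368), (nat_lit 42, nat_lit 83238624486265716736), (nat_lit 44, nat_lit 3435630239416320), (nat_lit 46, nat_lit 1145210079805440), (nat_lit 48, nat_lit 229042015961088), (nat_lit 50, nat_lit 20822001451008)]), (FastCell.sprN 52 [(nat_lit 3, nat_lit 21063452688344154112), (nat_lit 7, nat_lit 855987441502903074816), (nat_lit 11, nat_lit 1456683642932338622464), (nat_lit 15, nat_lit 291315946172589277184), (nat_lit 19,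 nat_lit 1717815119708160), (nat_lit 23, nat_lit 114521007980544), (nat_lit 29, nat_lit 11463935045715099648)], FastCell.sprN 52 [(nat_lit 5, nat_lit 252176130037400993792), (nat_lit 9, nat_lit 1457318071582630871040), (nat_lit 13, nat_lit 873938218753097465856), (nat_lit 17, nat_lit 41619312243132858368), (nat_lit 21, nat_lit 572605039902720), (nat_lit 25, nat_lit 10411000725504), (nat_lit 31, nat_lit 11463935045715099648)], FastCell.sprN 52 [(nat_lit 3, nat_lit 21063452688344154112), (nat_lit 5, nat_lit 252176130037400993792), (nat_lit 7, nat_lit 855987441502903074816), (nat_lit 9, nat_lit 1457318071582630871040), (nat_lit 11, nat_lit 1456683642932338622464), (nat_lit 13, nat_lit 873938218753097465856), (nat_lit 15, nat_lit 291315946172589277184), (nat_lit 17, nat_lit 41619312243132858368), (nat_lit 19, nat_lit 1717815119708160), (nat_lit 21, nat_lit 572605039902720), (nat_lit 23, nat_lit 114521007980544), (nat_lit 25, nat_lit 10411000725504), (nat_lit 29, nat_lit 11463935045715099648), (nat_lit 31, nat_lit 11463935045715099648)]), z52, (FastCell.sprN 52 [(nat_lit 1, nat_lit 2018377551705014272),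 (nat_lit 6, nat_lit 1399471224605638656), (nat_lit 31, nat_lit 2883051399359234048)], FastCell.sprN 52 [(nat_lit 3, nat_lit 4079063537752735744), (nat_lit 29, nat_lit 2423711289218957312)], FastCell.sprN 52 [(nat_lit 1, nat_lit 2018377551705014272), (nat_lit 3, nat_lit 4079063537752735744), (nat_lit 6, nat_lit 1399471224605638656), (nat_lit 29, nat_lit 2423711289218957312), (nat_lit 31, nat_lit 2883051399359234048)]), z52, z52⟩⟩

theorem eTrn : rfam2 Bt 3 r sn = some Trn := by decide +kernel

theorem ttrn : tailTest2 1107727027 false 72 3 989560045568 (2412577500) Bt Trn lastRow tn = true := by decide +kernel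

/-- Data. -/
noncomputable def Hrp : VFam := ⟨⟨(FastCell.sprN 65 [(nat_lit 2, nat_lit 4611686018427387904), (nat_lit 50, nat_lit 8192856870036946944), (nat_lit 53, nat_lit 4312030797340082176), (nat_lit 57, nat_lit 22473628659125821440), (nat_lit 59, nat_lit 11828227984861429760)], FastCell.sprN 65 [(nat_lit 20, nat_lit 1367266327164616704)], FastCell.sprN 65 [(nat_lit 2, nat_lit 4611686018427387904), (nat_lit 20, nat_lit 1367266327164616704), (nat_lit 50, nat_lit 8192856870036946944), (nat_lit 53, nat_lit 4312030797340082176), (nat_lit 57, nat_lit 22473628659125821440), (nat_lit 59, nat_lit 11828227984861429760)]), (FastCell.sprN 65 [(nat_lit 52, nat_lit 8624061594680164352), (nat_lit 58, nat_lit 23656455969722859520)], FastCell.sprN 65 [(nat_lit 10, nat_lit 2734532654329233408)], FastCell.sprN 65 [(nat_lit 10, nat_lit 2734532654329233408), (nat_lit 52, nat_lit 8624061594680164352), (nat_lit 58, nat_lit 23656455969722859520)]), (FastCell.sprN 65 [(nat_lit 50, nat_lit 4312030797340082176), (nat_lit 51, nat_lit 71409456973013319680), (nat_lit 57, nat_lit 11828227984861429760)], FastCell.sprN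 65 [(nat_lit 2, nat_lit 1367266327164616704)], FastCell.sprN 65 [(nat_lit 2, nat_lit 1367266327164616704), (nat_lit 50, nat_lit 4312030797340082176), (nat_lit 51, nat_lit 71409456973013319680), (nat_lit 57, nat_lit 11828227984861429760)]), z65, z65, z65, z65⟩,
  ⟨(FastCell.sprN 65 [(nat_lit 2, nat_lit 3526495874274295808), (nat_lit 10, nat_lit 3523379936704331776), (nat_lit 36, nat_lit 10452821088353124352), (nat_lit 44, nat_lit 4312030797340082176), (nat_lit 53, nat_lit 11828227984861429760)], FastCell.sprN 65 [(nat_lit 20, nat_lit 1367266327164616704), (nat_lit 21, nat_lit 5663891768303681536), (nat_lit 45, nat_lit 8192856870036946944), (nat_lit 54, nat_lit 22473628659125821440)], FastCell.sprN 65 [(nat_lit 2, nat_lit 3526495874274295808), (nat_lit 10, nat_lit 3523379936704331776), (nat_lit 20, nat_lit 1367266327164616704), (nat_lit 21, nat_lit 5663891768303681536), (nat_lit 36, nat_lit 10452821088353124352), (nat_lit 44, nat_lit 4312030797340082176), (nat_lit 45, nat_lit 8192856870036946944), (nat_lit 53, nat_lit 11828227984861429760), (nat_lit 54, nat_lit 22473628659125821440)]),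 (FastCell.sprN 65 [(nat_lit 2, nat_lit 358265979165984423936), (nat_lit 10, nat_lit 203999598990115995648), (nat_lit 24, nat_lit 71604896485552947200), (nat_lit 35, nat_lit 757435741092446208000)], FastCell.sprN 65 [(nat_lit 4, nat_lit 359378127841675706368), (nat_lit 14, nat_lit 175463036318505762816), (nat_lit 20, nat_lit 775504266212163977216)], FastCell.sprN 65 [(nat_lit 2, nat_lit 358265979165984423936), (nat_lit 4, nat_lit 359378127841675706368), (nat_lit 10, nat_lit 203999598990115995648), (nat_lit 14, nat_lit 175463036318505762816), (nat_lit 20, nat_lit 775504266212163977216), (nat_lit 24, nat_lit 71604896485552947200), (nat_lit 35, nat_lit 757435741092446208000)]), (FastCell.sprN 65 [(nat_lit 2, nat_lit 90860955491106816), (nat_lit 21, nat_lit 19481401816648777728)], FastCell.sprN 65 [(nat_lit 10, nat_lit 11463935045715099648)], FastCell.sprN 65 [(nat_lit 2, nat_lit 90860955491106816), (nat_lit 10, nat_lit 11463935045715099648), (nat_lit 21, nat_lit 19481401816648777728)]), z65, (FastCell.sprN 65 [(nat_lit 0, nat_lit 2060685986047721472), (nat_lit 29, nat_lit 2883051399359234048)],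 FastCell.sprN 65 [(nat_lit 4, nat_lit 1399471224605638656), (nat_lit 10, nat_lit 459340110140276736), (nat_lit 20, nat_lit 4079063537752735744)], FastCell.sprN 65 [(nat_lit 0, nat_lit 2060685986047721472), (nat_lit 4, nat_lit 1399471224605638656), (nat_lit 10, nat_lit 459340110140276736), (nat_lit 20, nat_lit 4079063537752735744), (nat_lit 29, nat_lit 2883051399359234048)]), z65, z65⟩,
  ⟨(FastCell.sprN 65 [(nat_lit 2, nat_lit 1787861323653054464), (nat_lit 11, nat_lit 3560527888384), (nat_lit 24, nat_lit 108382160566305685504), (nat_lit 29, nat_lit 174252333641760768), (nat_lit 36, nat_lit 123748079475668025344), (nat_lit 39, nat_lit 199595099387286519808), (nat_lit 46, nat_lit 175080552510673666048)], FastCell.sprN 65 [(nat_lit 16, nat_lit 2507268035421667328), (nat_lit 21, nat_lit 125422181691695300608), (nat_lit 55, nat_lit 10645400674264391680)], FastCell.sprN 65 [(nat_lit 2, nat_lit 1787861323653054464), (nat_lit 11, nat_lit 3560527888384), (nat_lit 16, nat_lit 2507268035421667328), (nat_lit 21, nat_lit 125422181691695300608), (nat_lit 24, nat_lit 108382160566305685504), (nat_lit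 29, nat_lit 174252333641760768), (nat_lit 36, nat_lit 123748079475668025344), (nat_lit 39, nat_lit 199595099387286519808), (nat_lit 46, nat_lit 175080552510673666048), (nat_lit 55, nat_lit 10645400674264391680)]), (FastCell.sprN 65 [(nat_lit 2, nat_lit 10570139810112995328), (nat_lit 30, nat_lit 113691952444851879936)], FastCell.sprN 65 [(nat_lit 12, nat_lit 15059236064143081472), (nat_lit 21, nat_lit 24663659556930322432), (nat_lit 42, nat_lit 114981031971884367872), (nat_lit 48, nat_lit 8624061594680164352), (nat_lit 56, nat_lit 23656455969722859520)], FastCell.sprN 65 [(nat_lit 2, nat_lit 10570139810112995328), (nat_lit 12, nat_lit 15059236064143081472), (nat_lit 21, nat_lit 24663659556930322432), (nat_lit 30, nat_lit 113691952444851879936), (nat_lit 42, nat_lit 114981031971884367872), (nat_lit 48, nat_lit 8624061594680164352), (nat_lit 56, nat_lit 23656455969722859520)]), (FastCell.sprN 65 [(nat_lit 2, nat_lit 304632132158009376768), (nat_lit 15, nat_lit 1796890639208378531840), (nat_lit 16, nat_lit 143209792971105894400), (nat_lit 24, nat_lit 965046699751781695488), (nat_lit 26,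 nat_lit 11532205597436936192), (nat_lit 29, nat_lit 4986572155019912544256), (nat_lit 50, nat_lit 4312030797340082176), (nat_lit 51, nat_lit 71409456973013319680), (nat_lit 57, nat_lit 11828227984861429760)], FastCell.sprN 65 [(nat_lit 5, nat_lit 263194554477758644224), (nat_lit 7, nat_lit 1837360440561106944), (nat_lit 10, nat_lit 1551008532424327954432), (nat_lit 12, nat_lit 1253930927080945483776), (nat_lit 17, nat_lit 16316254151010942976), (nat_lit 21, nat_lit 713998596465405984768), (nat_lit 34, nat_lit 465431827156094156800), (nat_lit 41, nat_lit 3408460834916007936000), (nat_lit 48, nat_lit 71409456973013319680)], FastCell.sprN 65 [(nat_lit 2, nat_lit 304632132158009376768), (nat_lit 5, nat_lit 263194554477758644224), (nat_lit 7, nat_lit 1837360440561106944), (nat_lit 10, nat_lit 1551008532424327954432), (nat_lit 12, nat_lit 1253930927080945483776), (nat_lit 15, nat_lit 1796890639208378531840), (nat_lit 16, nat_lit 143209792971105894400), (nat_lit 17, nat_lit 16316254151010942976), (nat_lit 21, nat_lit 713998596465405984768), (nat_lit 24, nat_lit 965046699751781695488), (nat_lit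 26, nat_lit 11532205597436936192), (nat_lit 29, nat_lit 4986572155019912544256), (nat_lit 34, nat_lit 465431827156094156800), (nat_lit 41, nat_lit 3408460834916007936000), (nat_lit 48, nat_lit 71409456973013319680), (nat_lit 50, nat_lit 4312030797340082176), (nat_lit 51, nat_lit 71409456973013319680), (nat_lit 57, nat_lit 11828227984861429760)]), (FastCell.sprN 65 [(nat_lit 12, nat_lit 25763193526052454400), (nat_lit 21, nat_lit 26749181773335232512)], FastCell.sprN 65 [(nat_lit 2, nat_lit 11463935045715099648), (nat_lit 30, nat_lit 58444205449946333184)], FastCell.sprN 65 [(nat_lit 2, nat_lit 11463935045715099648), (nat_lit 12, nat_lit 25763193526052454400), (nat_lit 21, nat_lit 26749181773335232512), (nat_lit 30, nat_lit 58444205449946333184)]), z65, (FastCell.sprN 65 [(nat_lit 15, nat_lit 13994712246056386560), (nat_lit 21, nat_lit 11864534969059639296), (nat_lit 29, nat_lit 28553444764269150208)], FastCell.sprN 65 [(nat_lit 2, nat_lit 459340110140276736), (nat_lit 10, nat_lit 15358408834775252992), (nat_lit 36, nat_lit 25947462594233106432)], FastCell.sprN 65 [(nat_lit 2, nat_lit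 459340110140276736), (nat_lit 10, nat_lit 15358408834775252992), (nat_lit 15, nat_lit 13994712246056386560), (nat_lit 21, nat_lit 11864534969059639296), (nat_lit 29, nat_lit 28553444764269150208), (nat_lit 36, nat_lit 25947462594233106432)]), z65⟩,
  ⟨(FastCell.sprN 65 [(nat_lit 2, nat_lit 1085190144153092096), (nat_lit 21, nat_lit 5663891768303681536), (nat_lit 45, nat_lit 3880826072696864768), (nat_lit 50, nat_lit 3880826072696864768), (nat_lit 54, nat_lit 10645400674264391680), (nat_lit 57, nat_lit 10645400674264391680)], FastCell.sprN 65 [(nat_lit 10, nat_lit 3523379936704331776), (nat_lit 36, nat_lit 10452821088353124352)], FastCell.sprN 65 [(nat_lit 2, nat_lit 1085190144153092096), (nat_lit 10, nat_lit 3523379936704331776), (nat_lit 21, nat_lit 5663891768303681536), (nat_lit 36, nat_lit 10452821088353124352), (nat_lit 45, nat_lit 3880826072696864768), (nat_lit 50, nat_lit 3880826072696864768), (nat_lit 54, nat_lit 10645400674264391680), (nat_lit 57, nat_lit 10645400674264391680)]), (FastCell.sprN 65 [(nat_lit 4, nat_lit 359378127841675706368), (nat_lit 14, nat_lit 175463036318505762816),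 (nat_lit 20, nat_lit 775504266212163977216), (nat_lit 52, nat_lit 8624061594680164352), (nat_lit 58, nat_lit 23656455969722859520)], FastCell.sprN 65 [(nat_lit 2, nat_lit 358265979165984423936), (nat_lit 10, nat_lit 206734131644445229056), (nat_lit 24, nat_lit 71604896485552947200), (nat_lit 35, nat_lit 757435741092446208000)], FastCell.sprN 65 [(nat_lit 2, nat_lit 358265979165984423936), (nat_lit 4, nat_lit 359378127841675706368), (nat_lit 10, nat_lit 206734131644445229056), (nat_lit 14, nat_lit 175463036318505762816), (nat_lit 20, nat_lit 775504266212163977216), (nat_lit 24, nat_lit 71604896485552947200), (nat_lit 35, nat_lit 757435741092446208000), (nat_lit 52, nat_lit 8624061594680164352), (nat_lit 58, nat_lit 23656455969722859520)]), (FastCell.sprN 65 [(nat_lit 10, nat_lit 11463935045715099648), (nat_lit 50, nat_lit 4312030797340082176), (nat_lit 51, nat_lit 71409456973013319680), (nat_lit 57, nat_lit 11828227984861429760)], FastCell.sprN 65 [(nat_lit 2, nat_lit 1458127282655723520), (nat_lit 21, nat_lit 19481401816648777728)], FastCell.sprN 65 [(nat_lit 2, nat_lit 1458127282655723520),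 (nat_lit 10, nat_lit 11463935045715099648), (nat_lit 21, nat_lit 19481401816648777728), (nat_lit 50, nat_lit 4312030797340082176), (nat_lit 51, nat_lit 71409456973013319680), (nat_lit 57, nat_lit 11828227984861429760)]), z65, (FastCell.sprN 65 [(nat_lit 4, nat_lit 1399471224605638656), (nat_lit 10, nat_lit 459340110140276736), (nat_lit 20, nat_lit 4079063537752735744)], FastCell.sprN 65 [(nat_lit 0, nat_lit 2060685986047721472), (nat_lit 29, nat_lit 2883051399359234048)], FastCell.sprN 65 [(nat_lit 0, nat_lit 2060685986047721472), (nat_lit 4, nat_lit 1399471224605638656), (nat_lit 10, nat_lit 459340110140276736), (nat_lit 20, nat_lit 4079063537752735744), (nat_lit 29, nat_lit 2883051399359234048)]), z65, z65⟩⟩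

/-- Data. -/
noncomputable def Grp : VFam := ⟨⟨(FastCell.sprN 65 [(nat_lit 1, nat_lit 40648277625644515328), (nat_lit 3, nat_lit 41852666419144032256)], FastCell.sprN 65 [(nat_lit 2, nat_lit 82499610849358905344)], FastCell.sprN 65 [(nat_lit 1, nat_lit 40648277625644515328), (nat_lit 2, nat_lit 82499610849358905344), (nat_lit 3, nat_lit 41852666419144032256)]), (FastCell.sprN 65 [(nat_lit 2, nat_lit 358265979165984423936), (nat_lit 6, nat_lit 8242743944190885888)], FastCell.sprN 65 [(nat_lit 4, nat_lit 359378127841675706368), (nat_lit 8, nat_lit 5597884898422554624)], FastCell.sprN 65 [(nat_lit 2, nat_lit 358265979165984423936), (nat_lit 4, nat_lit 359378127841675706368), (nat_lit 6, nat_lit 8242743944190885888), (nat_lit 8, nat_lit 5597884898422554624)]), (FastCell.sprN 65 [(nat_lit 2, nat_lit 60573970327404544)], FastCell.sprN 65 [], FastCell.sprN 65 [(nat_lit 2, nat_lit 60573970327404544)]), z65, z65, z65, z65⟩,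
  ⟨(FastCell.sprN 65 [(nat_lit 1, nat_lit 40648277625644515328), (nat_lit 3, nat_lit 41852666419144032256)], FastCell.sprN 65 [(nat_lit 2, nat_lit 82499610849358905344)], FastCell.sprN 65 [(nat_lit 1, nat_lit 40648277625644515328), (nat_lit 2, nat_lit 82499610849358905344), (nat_lit 3, nat_lit 41852666419144032256)]), (FastCell.sprN 65 [(nat_lit 2, nat_lit 358265979165984423936), (nat_lit 6, nat_lit 8242743944190885888)], FastCell.sprN 65 [(nat_lit 4, nat_lit 359378127841675706368), (nat_lit 8, nat_lit 5597884898422554624)], FastCell.sprN 65 [(nat_lit 2, nat_lit 358265979165984423936), (nat_lit 4, nat_lit 359378127841675706368), (nat_lit 6, nat_lit 8242743944190885888), (nat_lit 8, nat_lit 5597884898422554624)]), (FastCell.sprN 65 [(nat_lit 2, nat_lit 60573970327404544)], FastCell.sprN 65 [], FastCell.sprN 65 [(nat_lit 2, nat_lit 60573970327404544)]), z65, z65, z65, z65⟩,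
  ⟨(FastCell.sprN 65 [(nat_lit 1, nat_lit 40648277625644515328), (nat_lit 3, nat_lit 41852666419144032256)], FastCell.sprN 65 [(nat_lit 2, nat_lit 82499610849358905344)], FastCell.sprN 65 [(nat_lit 1, nat_lit 40648277625644515328), (nat_lit 2, nat_lit 82499610849358905344), (nat_lit 3, nat_lit 41852666419144032256)]), (FastCell.sprN 65 [(nat_lit 2, nat_lit 358265979165984423936), (nat_lit 6, nat_lit 8242743944190885888)], FastCell.sprN 65 [(nat_lit 4, nat_lit 359378127841675706368), (nat_lit 8, nat_lit 5597884898422554624)], FastCell.sprN 65 [(nat_lit 2, nat_lit 358265979165984423936), (nat_lit 4, nat_lit 359378127841675706368), (nat_lit 6, nat_lit 8242743944190885888), (nat_lit 8, nat_lit 5597884898422554624)]), (FastCell.sprN 65 [(nat_lit 2, nat_lit 60573970327404544)], FastCell.sprN 65 [], FastCell.sprN 65 [(nat_lit 2, nat_lit 60573970327404544)]), z65, z65, z65, z65⟩,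
  ⟨z65, z65, z65, z65, z65, z65, z65⟩⟩

theorem eHrp : rfamH Bh 3 r sp = some (Hrp, Grp) := by decide +kernel

theorem hhrp : headTestS 72 3 15235533062 Bh Hrp Grp z n0 hp = true := by decide +kernel

/-- Data. -/
noncomputable def Trp : VFam := ⟨⟨(FastCell.sprN 52 [(nat_lit 0, nat_lit 14772992455036895232), (nat_lit 4, nat_lit 191612208226563776512), (nat_lit 8, nat_lit 24150849130628096000), (nat_lit 10, nat_lit 139288335483307925504), (nat_lit 14, nat_lit 62689576734989312000)], FastCell.sprN 52 [(nat_lit 2, nat_lit 82485304461012541440), (nat_lit 6, nat_lit 194746612557029990400), (nat_lit 12, nat_lit 144636644338219081728), (nat_lit 16, nat_lit 10645400674264391680)], FastCell.sprN 52 [(nat_lit 0, nat_lit 14772992455036895232), (nat_lit 2, nat_lit 82485304461012541440), (nat_lit 4, nat_lit 191612208226563776512), (nat_lit 6, nat_lit 194746612557029990400), (nat_lit 8, nat_lit 24150849130628096000), (nat_lit 10, nat_lit 139288335483307925504), (nat_lit 12, nat_lit 144636644338219081728), (nat_lit 14, nat_lit 62689576734989312000), (nat_lit 16, nat_lit 10645400674264391680)]), (FastCell.sprN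 52 [(nat_lit 29, nat_lit 29545984910073790464), (nat_lit 33, nat_lit 583026191310981693440), (nat_lit 37, nat_lit 871096266913700904960), (nat_lit 41, nat_lit 165595191788060016640)], FastCell.sprN 52 [(nat_lit 31, nat_lit 205980967107131604992), (nat_lit 35, nat_lit 914216574887101726720), (nat_lit 39, nat_lit 505409636958860214272), (nat_lit 43, nat_lit 23656455969722859520)], FastCell.sprN 52 [(nat_lit 29, nat_lit 29545984910073790464), (nat_lit 31, nat_lit 205980967107131604992), (nat_lit 33, nat_lit 583026191310981693440), (nat_lit 35, nat_lit 914216574887101726720), (nat_lit 37, nat_lit 871096266913700904960), (nat_lit 39, nat_lit 505409636958860214272), (nat_lit 41, nat_lit 165595191788060016640), (nat_lit 43, nat_lit 23656455969722859520)]), (FastCell.sprN 52 [(nat_lit 4, nat_lit 14772992455036895232), (nat_lit 5, nat_lit 71409456973013319680), (nat_lit 8, nat_lit 291513095655490846720), (nat_lit 9, nat_lit 714094569730133196800), (nat_lit 12, nat_lit 435548133456850452480), (nat_lit 13, nat_lit 357047284865066598400), (nat_lit 16, nat_lit 82797595894030008320)], FastCell.sprN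 52 [(nat_lit 6, nat_lit 102990483553565802496), (nat_lit 7, nat_lit 357047284865066598400), (nat_lit 10, nat_lit 457108287443550863360), (nat_lit 11, nat_lit 714094569730133196800), (nat_lit 14, nat_lit 252704818479430107136), (nat_lit 15, nat_lit 71409456973013319680), (nat_lit 18, nat_lit 11828227984861429760)], FastCell.sprN 52 [(nat_lit 4, nat_lit 14772992455036895232), (nat_lit 5, nat_lit 71409456973013319680), (nat_lit 6, nat_lit 102990483553565802496), (nat_lit 7, nat_lit 357047284865066598400), (nat_lit 8, nat_lit 291513095655490846720), (nat_lit 9, nat_lit 714094569730133196800), (nat_lit 10, nat_lit 457108287443550863360), (nat_lit 11, nat_lit 714094569730133196800), (nat_lit 12, nat_lit 435548133456850452480), (nat_lit 13, nat_lit 357047284865066598400), (nat_lit 14, nat_lit 252704818479430107136), (nat_lit 15, nat_lit 71409456973013319680), (nat_lit 16, nat_lit 82797595894030008320), (nat_lit 18, nat_lit 11828227984861429760)]), z52, z52, z52, z52⟩,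
  ⟨(FastCell.sprN 52 [(nat_lit 0, nat_lit 14772992455036895232), (nat_lit 4, nat_lit 345984362061973733376), (nat_lit 8, nat_lit 653526630144572620800), (nat_lit 12, nat_lit 146669999939616358400), (nat_lit 28, nat_lit 3523379936704331776)], FastCell.sprN 52 [(nat_lit 2, nat_lit 107834018779038703616), (nat_lit 6, nat_lit 614379682496942235648), (nat_lit 10, nat_lit 416266654666092847104), (nat_lit 14, nat_lit 22473628659125821440), (nat_lit 30, nat_lit 3523379936704331776)], FastCell.sprN 52 [(nat_lit 0, nat_lit 14772992455036895232), (nat_lit 2, nat_lit 107834018779038703616), (nat_lit 4, nat_lit 345984362061973733376), (nat_lit 6, nat_lit 614379682496942235648), (nat_lit 8, nat_lit 653526630144572620800), (nat_lit 10, nat_lit 416266654666092847104), (nat_lit 12, nat_lit 146669999939616358400), (nat_lit 14, nat_lit 22473628659125821440), (nat_lit 28, nat_lit 3523379936704331776), (nat_lit 30, nat_lit 3523379936704331776)]), (FastCell.sprN 52 [(nat_lit 5, nat_lit 1138536977899190222848), (nat_lit 8, nat_lit 359378127841675706368), (nat_lit 11, nat_lit 71604896485552947200), (nat_lit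 29, nat_lit 203999598990115995648), (nat_lit 35, nat_lit 175463036318505762816)], FastCell.sprN 52 [(nat_lit 1, nat_lit 18068525119717769216), (nat_lit 3, nat_lit 363032711687026245632), (nat_lit 6, nat_lit 359378127841675706368), (nat_lit 7, nat_lit 685830844606893260800), (nat_lit 9, nat_lit 143209792971105894400), (nat_lit 31, nat_lit 203999598990115995648), (nat_lit 33, nat_lit 175463036318505762816)], FastCell.sprN 52 [(nat_lit 1, nat_lit 18068525119717769216), (nat_lit 3, nat_lit 363032711687026245632), (nat_lit 5, nat_lit 1138536977899190222848), (nat_lit 6, nat_lit 359378127841675706368), (nat_lit 7, nat_lit 685830844606893260800), (nat_lit 8, nat_lit 359378127841675706368), (nat_lit 9, nat_lit 143209792971105894400), (nat_lit 11, nat_lit 71604896485552947200), (nat_lit 29, nat_lit 203999598990115995648), (nat_lit 31, nat_lit 203999598990115995648), (nat_lit 33, nat_lit 175463036318505762816), (nat_lit 35, nat_lit 175463036318505762816)]), (FastCell.sprN 52 [(nat_lit 4, nat_lit 19572262772139884544), (nat_lit 8, nat_lit 19481401816648777728), (nat_lit 32, nat_lit 11463935045715099648)],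 FastCell.sprN 52 [(nat_lit 6, nat_lit 39053664588788662272), (nat_lit 30, nat_lit 11463935045715099648)], FastCell.sprN 52 [(nat_lit 4, nat_lit 19572262772139884544), (nat_lit 6, nat_lit 39053664588788662272), (nat_lit 8, nat_lit 19481401816648777728), (nat_lit 30, nat_lit 11463935045715099648), (nat_lit 32, nat_lit 11463935045715099648)]), z52, (FastCell.sprN 52 [(nat_lit 4, nat_lit 4079063537752735744), (nat_lit 30, nat_lit 2423711289218957312)], FastCell.sprN 52 [(nat_lit 2, nat_lit 2018377551705014272), (nat_lit 7, nat_lit 1399471224605638656), (nat_lit 32, nat_lit 2883051399359234048)], FastCell.sprN 52 [(nat_lit 2, nat_lit 2018377551705014272), (nat_lit 4, nat_lit 4079063537752735744), (nat_lit 7, nat_lit 1399471224605638656), (nat_lit 30, nat_lit 2423711289218957312), (nat_lit 32, nat_lit 2883051399359234048)]), z52, z52⟩,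
  ⟨(FastCell.sprN 52 [(nat_lit 1, nat_lit 113759107625779200), (nat_lit 3, nat_lit 42247415469142745088), (nat_lit 7, nat_lit 749885003729083244544), (nat_lit 11, nat_lit 614184840558567350272), (nat_lit 27, nat_lit 174252333641760768), (nat_lit 28, nat_lit 3560527888384), (nat_lit 31, nat_lit 174252333641760768), (nat_lit 35, nat_lit 2507268035421667328)], FastCell.sprN 52 [(nat_lit 5, nat_lit 282245588695493853184), (nat_lit 9, nat_lit 977817334152960704512), (nat_lit 13, nat_lit 135722695341700169728), (nat_lit 15, nat_lit 10645400674264391680), (nat_lit 29, nat_lit 348504667283521536), (nat_lit 30, nat_lit 3560527888384), (nat_lit 33, nat_lit 2507268035421667328)], FastCell.sprN 52 [(nat_lit 1, nat_lit 113759107625779200), (nat_lit 3, nat_lit 42247415469142745088), (nat_lit 5, nat_lit 282245588695493853184), (nat_lit 7, nat_lit 749885003729083244544), (nat_lit 9, nat_lit 977817334152960704512), (nat_lit 11, nat_lit 614184840558567350272), (nat_lit 13, nat_lit 135722695341700169728), (nat_lit 15, nat_lit 10645400674264391680), (nat_lit 27, nat_lit 174252333641760768), (nat_lit 28,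 nat_lit 3560527888384), (nat_lit 29, nat_lit 348504667283521536), (nat_lit 30, nat_lit 3560527888384), (nat_lit 31, nat_lit 174252333641760768), (nat_lit 33, nat_lit 2507268035421667328), (nat_lit 35, nat_lit 2507268035421667328)]), (FastCell.sprN 52 [(nat_lit 4, nat_lit 38757179303747649536), (nat_lit 29, nat_lit 40648277625644515328), (nat_lit 32, nat_lit 350906075706294272000), (nat_lit 36, nat_lit 622606397745062215680), (nat_lit 40, nat_lit 141938735818337157120)], FastCell.sprN 52 [(nat_lit 2, nat_lit 14093519746817327104), (nat_lit 6, nat_lit 24663659556930322432), (nat_lit 30, nat_lit 131128444004937498624), (nat_lit 34, nat_lit 637842352584725102592), (nat_lit 38, nat_lit 363470901140523057152), (nat_lit 42, nat_lit 23656455969722859520)], FastCell.sprN 52 [(nat_lit 2, nat_lit 14093519746817327104), (nat_lit 4, nat_lit 38757179303747649536), (nat_lit 6, nat_lit 24663659556930322432), (nat_lit 29, nat_lit 40648277625644515328), (nat_lit 30, nat_lit 131128444004937498624), (nat_lit 32, nat_lit 350906075706294272000), (nat_lit 34, nat_lit 637842352584725102592), (nat_lit 36, nat_lit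 622606397745062215680), (nat_lit 38, nat_lit 363470901140523057152), (nat_lit 40, nat_lit 141938735818337157120), (nat_lit 42, nat_lit 23656455969722859520)]), (FastCell.sprN 52 [(nat_lit 4, nat_lit 71409456973013319680), (nat_lit 5, nat_lit 1019007310892072173568), (nat_lit 7, nat_lit 279366644464107913216), (nat_lit 8, nat_lit 714094569730133196800), (nat_lit 11, nat_lit 1400594833208632147968), (nat_lit 12, nat_lit 335820234110753832960), (nat_lit 15, nat_lit 82797595894030008320), (nat_lit 29, nat_lit 27102787679576653824), (nat_lit 31, nat_lit 836172322244552294400), (nat_lit 34, nat_lit 1437512511366702825472), (nat_lit 35, nat_lit 2657782058892939755520), (nat_lit 37, nat_lit 1073291689233135697920), (nat_lit 38, nat_lit 16316254151010942976)], FastCell.sprN 52 [(nat_lit 3, nat_lit 393226205525195096064), (nat_lit 6, nat_lit 357047284865066598400), (nat_lit 9, nat_lit 2124007132469355610112), (nat_lit 10, nat_lit 704399724573257367552), (nat_lit 13, nat_lit 252704818479430107136), (nat_lit 14, nat_lit 59877251375576383488), (nat_lit 17, nat_lit 11828227984861429760), (nat_lit 33,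 nat_lit 3699241594755112501248), (nat_lit 36, nat_lit 1804964149415198588928), (nat_lit 39, nat_lit 536841284129107476480), (nat_lit 41, nat_lit 5597884898422554624)], FastCell.sprN 52 [(nat_lit 3, nat_lit 393226205525195096064), (nat_lit 4, nat_lit 71409456973013319680), (nat_lit 5, nat_lit 1019007310892072173568), (nat_lit 6, nat_lit 357047284865066598400), (nat_lit 7, nat_lit 279366644464107913216), (nat_lit 8, nat_lit 714094569730133196800), (nat_lit 9, nat_lit 2124007132469355610112), (nat_lit 10, nat_lit 704399724573257367552), (nat_lit 11, nat_lit 1400594833208632147968), (nat_lit 12, nat_lit 335820234110753832960), (nat_lit 13, nat_lit 252704818479430107136), (nat_lit 14, nat_lit 59877251375576383488), (nat_lit 15, nat_lit 82797595894030008320), (nat_lit 17, nat_lit 11828227984861429760), (nat_lit 29, nat_lit 27102787679576653824), (nat_lit 31, nat_lit 836172322244552294400), (nat_lit 33, nat_lit 3699241594755112501248), (nat_lit 34, nat_lit 1437512511366702825472), (nat_lit 35, nat_lit 2657782058892939755520), (nat_lit 36, nat_lit 1804964149415198588928), (nat_lit 37, nat_lit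 1073291689233135697920), (nat_lit 38, nat_lit 16316254151010942976), (nat_lit 39, nat_lit 536841284129107476480), (nat_lit 41, nat_lit 5597884898422554624)]), (FastCell.sprN 52 [(nat_lit 4, nat_lit 15285246727620132864), (nat_lit 8, nat_lit 26749181773335232512), (nat_lit 34, nat_lit 91125217373840211968)], FastCell.sprN 52 [(nat_lit 6, nat_lit 42034428500955365376), (nat_lit 32, nat_lit 32620437953566474240), (nat_lit 36, nat_lit 58444205449946333184)], FastCell.sprN 52 [(nat_lit 4, nat_lit 15285246727620132864), (nat_lit 6, nat_lit 42034428500955365376), (nat_lit 8, nat_lit 26749181773335232512), (nat_lit 32, nat_lit 32620437953566474240), (nat_lit 34, nat_lit 91125217373840211968), (nat_lit 36, nat_lit 58444205449946333184)]), z52, (FastCell.sprN 52 [(nat_lit 6, nat_lit 40030390219406573568), (nat_lit 30, nat_lit 13195035929493897216), (nat_lit 35, nat_lit 13994712246056386560)], FastCell.sprN 52 [(nat_lit 4, nat_lit 14542267735313743872), (nat_lit 8, nat_lit 25947462594233106432), (nat_lit 32, nat_lit 28553444764269150208)], FastCell.sprN 52 [(nat_lit 4, nat_lit 14542267735313743872),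 (nat_lit 6, nat_lit 40030390219406573568), (nat_lit 8, nat_lit 25947462594233106432), (nat_lit 30, nat_lit 13195035929493897216), (nat_lit 32, nat_lit 28553444764269150208), (nat_lit 35, nat_lit 13994712246056386560)]), z52⟩,
  ⟨(FastCell.sprN 52 [(nat_lit 1, nat_lit 25348714318026162176), (nat_lit 5, nat_lit 419633069939912245248), (nat_lit 9, nat_lit 555554990149400772608), (nat_lit 13, nat_lit 85163205394115133440), (nat_lit 29, nat_lit 3523379936704331776)], FastCell.sprN 52 [(nat_lit 3, nat_lit 154372153835409956864), (nat_lit 7, nat_lit 629375781013944524800), (nat_lit 11, nat_lit 291306644277835440128), (nat_lit 15, nat_lit 10645400674264391680), (nat_lit 27, nat_lit 3523379936704331776)], FastCell.sprN 52 [(nat_lit 1, nat_lit 25348714318026162176), (nat_lit 3, nat_lit 154372153835409956864), (nat_lit 5, nat_lit 419633069939912245248), (nat_lit 7, nat_lit 629375781013944524800), (nat_lit 9, nat_lit 555554990149400772608), (nat_lit 11, nat_lit 291306644277835440128), (nat_lit 13, nat_lit 85163205394115133440), (nat_lit 15, nat_lit 10645400674264391680), (nat_lit 27, nat_lit 3523379936704331776),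 (nat_lit 29, nat_lit 3523379936704331776)]), (FastCell.sprN 52 [(nat_lit 0, nat_lit 18068525119717769216), (nat_lit 2, nat_lit 363032711687026245632), (nat_lit 5, nat_lit 359378127841675706368), (nat_lit 6, nat_lit 685830844606893260800), (nat_lit 8, nat_lit 143209792971105894400), (nat_lit 32, nat_lit 758489227629487456256), (nat_lit 36, nat_lit 871096266913700904960), (nat_lit 40, nat_lit 165595191788060016640)], FastCell.sprN 52 [(nat_lit 4, nat_lit 1138536977899190222848), (nat_lit 7, nat_lit 359378127841675706368), (nat_lit 10, nat_lit 71604896485552947200), (nat_lit 28, nat_lit 174453614080042205184), (nat_lit 30, nat_lit 1981368117015609344), (nat_lit 34, nat_lit 1089679611205607489536), (nat_lit 38, nat_lit 505409636958860214272), (nat_lit 42, nat_lit 23656455969722859520)], FastCell.sprN 52 [(nat_lit 0, nat_lit 18068525119717769216), (nat_lit 2, nat_lit 363032711687026245632), (nat_lit 4, nat_lit 1138536977899190222848), (nat_lit 5, nat_lit 359378127841675706368), (nat_lit 6, nat_lit 685830844606893260800), (nat_lit 7, nat_lit 359378127841675706368), (nat_lit 8, nat_lit 143209792971105894400),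 (nat_lit 10, nat_lit 71604896485552947200), (nat_lit 28, nat_lit 174453614080042205184), (nat_lit 30, nat_lit 1981368117015609344), (nat_lit 32, nat_lit 758489227629487456256), (nat_lit 34, nat_lit 1089679611205607489536), (nat_lit 36, nat_lit 871096266913700904960), (nat_lit 38, nat_lit 505409636958860214272), (nat_lit 40, nat_lit 165595191788060016640), (nat_lit 42, nat_lit 23656455969722859520)]), (FastCell.sprN 52 [(nat_lit 4, nat_lit 71409456973013319680), (nat_lit 7, nat_lit 272031693838842068992), (nat_lit 8, nat_lit 714094569730133196800), (nat_lit 11, nat_lit 435548133456850452480), (nat_lit 12, nat_lit 357047284865066598400), (nat_lit 15, nat_lit 82797595894030008320), (nat_lit 29, nat_lit 11463935045715099648)], FastCell.sprN 52 [(nat_lit 3, nat_lit 4799270317102989312), (nat_lit 5, nat_lit 63936818964777140224), (nat_lit 6, nat_lit 357047284865066598400), (nat_lit 9, nat_lit 457108287443550863360), (nat_lit 10, nat_lit 714094569730133196800), (nat_lit 13, nat_lit 252704818479430107136), (nat_lit 14, nat_lit 71409456973013319680), (nat_lit 17, nat_lit 11828227984861429760),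 (nat_lit 31, nat_lit 11463935045715099648)], FastCell.sprN 52 [(nat_lit 3, nat_lit 4799270317102989312), (nat_lit 4, nat_lit 71409456973013319680), (nat_lit 5, nat_lit 63936818964777140224), (nat_lit 6, nat_lit 357047284865066598400), (nat_lit 7, nat_lit 272031693838842068992), (nat_lit 8, nat_lit 714094569730133196800), (nat_lit 9, nat_lit 457108287443550863360), (nat_lit 10, nat_lit 714094569730133196800), (nat_lit 11, nat_lit 435548133456850452480), (nat_lit 12, nat_lit 357047284865066598400), (nat_lit 13, nat_lit 252704818479430107136), (nat_lit 14, nat_lit 71409456973013319680), (nat_lit 15, nat_lit 82797595894030008320), (nat_lit 17, nat_lit 11828227984861429760), (nat_lit 29, nat_lit 11463935045715099648), (nat_lit 31, nat_lit 11463935045715099648)]), z52, (FastCell.sprN 52 [(nat_lit 1, nat_lit 2018377551705014272), (nat_lit 6, nat_lit 1399471224605638656), (nat_lit 31, nat_lit 2883051399359234048)], FastCell.sprN 52 [(nat_lit 3, nat_lit 4079063537752735744), (nat_lit 29, nat_lit 2423711289218957312)], FastCell.sprN 52 [(nat_lit 1, nat_lit 2018377551705014272), (nat_lit 3, nat_lit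 4079063537752735744), (nat_lit 6, nat_lit 1399471224605638656), (nat_lit 29, nat_lit 2423711289218957312), (nat_lit 31, nat_lit 2883051399359234048)]), z52, z52⟩⟩

theorem eTrp : rfam2 Bt 3 r sp = some Trp := by decide +kernel

theorem ttrp : tailTest2 1107727027 true 72 3 989560045568 (2412577500) Bt Trp lastRow tp = true := by decide +kernel

/-- Data. -/
noncomputable def Hsn : VFam := ⟨⟨(FastCell.sprN 65 [(nat_lit 2, nat_lit 4611686018427387904), (nat_lit 36, nat_lit 498880834396839936), (nat_lit 44, nat_lit 262568912925753344), (nat_lit 45, nat_lit 236599069071753216), (nat_lit 49, nat_lit 124525850828734464), (nat_lit 57, nat_lit 79070149689300467712), (nat_lit 59, nat_lit 41615876612893442048), (nat_lit 63, nat_lit 19780897406976), (nat_lit 64, nat_lit 10411000725504)], FastCell.sprN 65 [(nat_lit 20, nat_lit 2591781968773382144)], FastCell.sprN 65 [(nat_lit 2, nat_lit 4611686018427387904), (nat_lit 20, nat_lit 2591781968773382144), (nat_lit 36, nat_lit 498880834396839936), (nat_lit 44, nat_lit 262568912925753344), (nat_lit 45, nat_lit 236599069071753216), (nat_lit 49, nat_lit 124525850828734464),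 (nat_lit 57, nat_lit 79070149689300467712), (nat_lit 59, nat_lit 41615876612893442048), (nat_lit 63, nat_lit 19780897406976), (nat_lit 64, nat_lit 10411000725504)]), (FastCell.sprN 65 [(nat_lit 44, nat_lit 525137825851506688), (nat_lit 49, nat_lit 249051701657468928), (nat_lit 59, nat_lit 83231753225786884096), (nat_lit 64, nat_lit 20822001451008)], FastCell.sprN 65 [(nat_lit 20, nat_lit 5183563937546764288)], FastCell.sprN 65 [(nat_lit 20, nat_lit 5183563937546764288), (nat_lit 44, nat_lit 525137825851506688), (nat_lit 49, nat_lit 249051701657468928), (nat_lit 59, nat_lit 83231753225786884096), (nat_lit 64, nat_lit 20822001451008)]), (FastCell.sprN 65 [(nat_lit 44, nat_lit 262568912925753344), (nat_lit 49, nat_lit 124525850828734464), (nat_lit 59, nat_lit 41615876612893442048), (nat_lit 64, nat_lit 10411000725504)], FastCell.sprN 65 [(nat_lit 20, nat_lit 2591781968773382144)], FastCell.sprN 65 [(nat_lit 20, nat_lit 2591781968773382144), (nat_lit 44, nat_lit 262568912925753344), (nat_lit 49, nat_lit 124525850828734464), (nat_lit 59, nat_lit 41615876612893442048), (nat_lit 64, nat_lit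 10411000725504)]), z65, z65, z65, z65⟩,
  ⟨(FastCell.sprN 65 [(nat_lit 2, nat_lit 3094183446793158656), (nat_lit 10, nat_lit 3966720939332206592), (nat_lit 35, nat_lit 124525850828734464), (nat_lit 36, nat_lit 9739868105941336064), (nat_lit 53, nat_lit 41615876612893442048), (nat_lit 60, nat_lit 10411000725504)], FastCell.sprN 65 [(nat_lit 20, nat_lit 2329213055847628800), (nat_lit 21, nat_lit 6067267202719506432), (nat_lit 54, nat_lit 79070149689300467712), (nat_lit 61, nat_lit 19780897406976)], FastCell.sprN 65 [(nat_lit 2, nat_lit 3094183446793158656), (nat_lit 10, nat_lit 3966720939332206592), (nat_lit 20, nat_lit 2329213055847628800), (nat_lit 21, nat_lit 6067267202719506432), (nat_lit 35, nat_lit 124525850828734464), (nat_lit 36, nat_lit 9739868105941336064), (nat_lit 53, nat_lit 41615876612893442048), (nat_lit 54, nat_lit 79070149689300467712), (nat_lit 60, nat_lit 10411000725504), (nat_lit 61, nat_lit 19780897406976)]), (FastCell.sprN 65 [(nat_lit 10, nat_lit 376804774071851024384), (nat_lit 20, nat_lit 183497784782634352640), (nat_lit 32, nat_lit 32746030803120553984), (nat_lit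 40, nat_lit 758599235440736206848)], FastCell.sprN 65 [(nat_lit 13, nat_lit 382048957319547453440), (nat_lit 22, nat_lit 147719055289517867008), (nat_lit 28, nat_lit 770365283590620577792)], FastCell.sprN 65 [(nat_lit 10, nat_lit 376804774071851024384), (nat_lit 13, nat_lit 382048957319547453440), (nat_lit 20, nat_lit 183497784782634352640), (nat_lit 22, nat_lit 147719055289517867008), (nat_lit 28, nat_lit 770365283590620577792), (nat_lit 32, nat_lit 32746030803120553984), (nat_lit 40, nat_lit 758599235440736206848)]), (FastCell.sprN 65 [(nat_lit 20, nat_lit 2112350338777350144), (nat_lit 35, nat_lit 26845247607492575232)], FastCell.sprN 65 [(nat_lit 28, nat_lit 18231769042010505216)], FastCell.sprN 65 [(nat_lit 20, nat_lit 2112350338777350144), (nat_lit 28, nat_lit 18231769042010505216), (nat_lit 35, nat_lit 26845247607492575232)]), z65, (FastCell.sprN 65 [(nat_lit 0, nat_lit 3804908944103571456), (nat_lit 29, nat_lit 3154725617182703616)], FastCell.sprN 65 [(nat_lit 4, nat_lit 2299594647841800192), (nat_lit 10, nat_lit 1183869402559283200), (nat_lit 20, nat_lit 5720373519561261056)],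 FastCell.sprN 65 [(nat_lit 0, nat_lit 3804908944103571456), (nat_lit 4, nat_lit 2299594647841800192), (nat_lit 10, nat_lit 1183869402559283200), (nat_lit 20, nat_lit 5720373519561261056), (nat_lit 29, nat_lit 3154725617182703616)]), z65, z65⟩,
  ⟨(FastCell.sprN 65 [(nat_lit 2, nat_lit 2297877295504818176), (nat_lit 11, nat_lit 1706180224028246016), (nat_lit 24, nat_lit 105815413005196722176), (nat_lit 29, nat_lit 453827430495289344), (nat_lit 36, nat_lit 122873023974799835136), (nat_lit 39, nat_lit 200695791566280720384), (nat_lit 46, nat_lit 175274546394837286912)], FastCell.sprN 65 [(nat_lit 16, nat_lit 4309374352551313408), (nat_lit 21, nat_lit 127144390448056893440), (nat_lit 22, nat_lit 236311921471086592), (nat_lit 37, nat_lit 112073218243018752), (nat_lit 55, nat_lit 37454273076407025664), (nat_lit 62, nat_lit 9369896681472)], FastCell.sprN 65 [(nat_lit 2, nat_lit 2297877295504818176), (nat_lit 11, nat_lit 1706180224028246016), (nat_lit 16, nat_lit 4309374352551313408), (nat_lit 21, nat_lit 127144390448056893440), (nat_lit 22, nat_lit 236311921471086592), (nat_lit 24, nat_lit 105815413005196722176),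 (nat_lit 29, nat_lit 453827430495289344), (nat_lit 36, nat_lit 122873023974799835136), (nat_lit 37, nat_lit 112073218243018752), (nat_lit 39, nat_lit 200695791566280720384), (nat_lit 46, nat_lit 175274546394837286912), (nat_lit 55, nat_lit 37454273076407025664), (nat_lit 62, nat_lit 9369896681472)]), (FastCell.sprN 65 [(nat_lit 1, nat_lit 48389539891274317824), (nat_lit 3, nat_lit 50424275910405390336), (nat_lit 10, nat_lit 11900162817996619776), (nat_lit 36, nat_lit 109449142539131027456)], FastCell.sprN 65 [(nat_lit 2, nat_lit 98812235540403847168), (nat_lit 21, nat_lit 11651027471851061248), (nat_lit 29, nat_lit 27767046575325446144), (nat_lit 45, nat_lit 109990190626801451008), (nat_lit 57, nat_lit 83231753225786884096), (nat_lit 63, nat_lit 20822001451008)], FastCell.sprN 65 [(nat_lit 1, nat_lit 48389539891274317824), (nat_lit 2, nat_lit 98812235540403847168), (nat_lit 3, nat_lit 50424275910405390336), (nat_lit 10, nat_lit 11900162817996619776), (nat_lit 21, nat_lit 11651027471851061248), (nat_lit 29, nat_lit 27767046575325446144), (nat_lit 36, nat_lit 109449142539131027456), (nat_lit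 45, nat_lit 109990190626801451008), (nat_lit 57, nat_lit 83231753225786884096), (nat_lit 63, nat_lit 20822001451008)]), (FastCell.sprN 65 [(nat_lit 10, nat_lit 376804774071851024384), (nat_lit 15, nat_lit 15219635776414285824), (nat_lit 20, nat_lit 272654895205178146816), (nat_lit 31, nat_lit 1910244786597737267200), (nat_lit 32, nat_lit 65492061606241107968), (nat_lit 37, nat_lit 812454804092348268544), (nat_lit 38, nat_lit 12618902468730814464), (nat_lit 40, nat_lit 4972076198889380642816), (nat_lit 44, nat_lit 262568912925753344), (nat_lit 49, nat_lit 124525850828734464), (nat_lit 59, nat_lit 41615876612893442048), (nat_lit 64, nat_lit 10411000725504)], FastCell.sprN 65 [(nat_lit 13, nat_lit 382048957319547453440), (nat_lit 18, nat_lit 9198378591367200768), (nat_lit 22, nat_lit 221578582934276800512), (nat_lit 25, nat_lit 4735477610237132800), (nat_lit 28, nat_lit 1540730567181241155584), (nat_lit 29, nat_lit 1318816709251478585344), (nat_lit 33, nat_lit 22881494078245044224), (nat_lit 35, nat_lit 642242246739220234240), (nat_lit 43, nat_lit 212849200220283600896), (nat_lit 47, nat_lit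 3413696559483312930816)], FastCell.sprN 65 [(nat_lit 10, nat_lit 376804774071851024384), (nat_lit 13, nat_lit 382048957319547453440), (nat_lit 15, nat_lit 15219635776414285824), (nat_lit 18, nat_lit 9198378591367200768), (nat_lit 20, nat_lit 272654895205178146816), (nat_lit 22, nat_lit 221578582934276800512), (nat_lit 25, nat_lit 4735477610237132800), (nat_lit 28, nat_lit 1540730567181241155584), (nat_lit 29, nat_lit 1318816709251478585344), (nat_lit 31, nat_lit 1910244786597737267200), (nat_lit 32, nat_lit 65492061606241107968), (nat_lit 33, nat_lit 22881494078245044224), (nat_lit 35, nat_lit 642242246739220234240), (nat_lit 37, nat_lit 812454804092348268544), (nat_lit 38, nat_lit 12618902468730814464), (nat_lit 40, nat_lit 4972076198889380642816), (nat_lit 43, nat_lit 212849200220283600896), (nat_lit 44, nat_lit 262568912925753344), (nat_lit 47, nat_lit 3413696559483312930816), (nat_lit 49, nat_lit 124525850828734464), (nat_lit 59, nat_lit 41615876612893442048), (nat_lit 64, nat_lit 10411000725504)]), (FastCell.sprN 65 [(nat_lit 20, nat_lit 1408233559184900096), (nat_lit 35, nat_lit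 30864846019509616640), (nat_lit 40, nat_lit 42540794431357845504)], FastCell.sprN 65 [(nat_lit 28, nat_lit 18231769042010505216), (nat_lit 44, nat_lit 80535742822477725696)], FastCell.sprN 65 [(nat_lit 20, nat_lit 1408233559184900096), (nat_lit 28, nat_lit 18231769042010505216), (nat_lit 35, nat_lit 30864846019509616640), (nat_lit 40, nat_lit 42540794431357845504), (nat_lit 44, nat_lit 80535742822477725696)]), z65, (FastCell.sprN 65 [(nat_lit 23, nat_lit 22995946478418001920), (nat_lit 29, nat_lit 17751262669463093248), (nat_lit 35, nat_lit 40042614636928827392)], FastCell.sprN 65 [(nat_lit 10, nat_lit 1183869402559283200), (nat_lit 20, nat_lit 23476622809263767552), (nat_lit 41, nat_lit 28392530554644332544)], FastCell.sprN 65 [(nat_lit 10, nat_lit 1183869402559283200), (nat_lit 20, nat_lit 23476622809263767552), (nat_lit 23, nat_lit 22995946478418001920), (nat_lit 29, nat_lit 17751262669463093248), (nat_lit 35, nat_lit 40042614636928827392), (nat_lit 41, nat_lit 28392530554644332544)]), z65⟩,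
  ⟨(FastCell.sprN 65 [(nat_lit 2, nat_lit 1517502571634229248), (nat_lit 21, nat_lit 5804698289793753088), (nat_lit 45, nat_lit 112073218243018752), (nat_lit 54, nat_lit 37454273076407025664), (nat_lit 57, nat_lit 37454273076407025664), (nat_lit 61, nat_lit 9369896681472), (nat_lit 63, nat_lit 9369896681472)], FastCell.sprN 65 [(nat_lit 10, nat_lit 3966720939332206592), (nat_lit 36, nat_lit 9628082035298983936)], FastCell.sprN 65 [(nat_lit 2, nat_lit 1517502571634229248), (nat_lit 10, nat_lit 3966720939332206592), (nat_lit 21, nat_lit 5804698289793753088), (nat_lit 36, nat_lit 9628082035298983936), (nat_lit 45, nat_lit 112073218243018752), (nat_lit 54, nat_lit 37454273076407025664), (nat_lit 57, nat_lit 37454273076407025664), (nat_lit 61, nat_lit 9369896681472), (nat_lit 63, nat_lit 9369896681472)]), (FastCell.sprN 65 [(nat_lit 13, nat_lit 382048957319547453440), (nat_lit 22, nat_lit 147719055289517867008), (nat_lit 28, nat_lit 770365283590620577792), (nat_lit 44, nat_lit 525137825851506688), (nat_lit 49, nat_lit 249051701657468928), (nat_lit 59, nat_lit 83231753225786884096), (nat_lit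 64, nat_lit 20822001451008)], FastCell.sprN 65 [(nat_lit 10, nat_lit 376804774071851024384), (nat_lit 20, nat_lit 188681348720181116928), (nat_lit 32, nat_lit 32746030803120553984), (nat_lit 40, nat_lit 758599235440736206848)], FastCell.sprN 65 [(nat_lit 10, nat_lit 376804774071851024384), (nat_lit 13, nat_lit 382048957319547453440), (nat_lit 20, nat_lit 188681348720181116928), (nat_lit 22, nat_lit 147719055289517867008), (nat_lit 28, nat_lit 770365283590620577792), (nat_lit 32, nat_lit 32746030803120553984), (nat_lit 40, nat_lit 758599235440736206848), (nat_lit 44, nat_lit 525137825851506688), (nat_lit 49, nat_lit 249051701657468928), (nat_lit 59, nat_lit 83231753225786884096), (nat_lit 64, nat_lit 20822001451008)]), (FastCell.sprN 65 [(nat_lit 28, nat_lit 18231769042010505216), (nat_lit 44, nat_lit 262568912925753344), (nat_lit 49, nat_lit 124525850828734464), (nat_lit 59, nat_lit 41615876612893442048), (nat_lit 64, nat_lit 10411000725504)], FastCell.sprN 65 [(nat_lit 20, nat_lit 4704132307550732288), (nat_lit 35, nat_lit 26845247607492575232)], FastCell.sprN 65 [(nat_lit 20, nat_lit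 4704132307550732288), (nat_lit 28, nat_lit 18231769042010505216), (nat_lit 35, nat_lit 26845247607492575232), (nat_lit 44, nat_lit 262568912925753344), (nat_lit 49, nat_lit 124525850828734464), (nat_lit 59, nat_lit 41615876612893442048), (nat_lit 64, nat_lit 10411000725504)]), z65, (FastCell.sprN 65 [(nat_lit 4, nat_lit 2299594647841800192), (nat_lit 10, nat_lit 1183869402559283200), (nat_lit 20, nat_lit 5720373519561261056)], FastCell.sprN 65 [(nat_lit 0, nat_lit 3804908944103571456), (nat_lit 29, nat_lit 3154725617182703616)], FastCell.sprN 65 [(nat_lit 0, nat_lit 3804908944103571456), (nat_lit 4, nat_lit 2299594647841800192), (nat_lit 10, nat_lit 1183869402559283200), (nat_lit 20, nat_lit 5720373519561261056), (nat_lit 29, nat_lit 3154725617182703616)]), z65, z65⟩⟩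

theorem eHsn : rfam Bh (headR false hn) 3 s sn = some Hsn := by decide +kernel

theorem hhsn : headTest false 72 3 15235533062 Bh Hsn z n0 hn = true := by decide +kernel

/-- Data. -/
noncomputable def Tsn : VFam := ⟨⟨(FastCell.sprN 52 [(nat_lit 0, nat_lit 39411199818875273216), (nat_lit 4, nat_lit 604928132091253071872), (nat_lit 8, nat_lit 145097934430697119744), (nat_lit 10, nat_lit 437076504205296336896), (nat_lit 14, nat_lit 220564928183983161344), (nat_lit 18, nat_lit 973427912540160), (nat_lit 22, nat_lit 92657862770688)], FastCell.sprN 52 [(nat_lit 2, nat_lit 244999143411362308096), (nat_lit 6, nat_lit 669396446559894478848), (nat_lit 12, nat_lit 495228117324225101824), (nat_lit 16, nat_lit 37455647327192203264), (nat_lit 20, nat_lit 400823309500416), (nat_lit 24, nat_lit 9369896681472)], FastCell.sprN 52 [(nat_lit 0, nat_lit 39411199818875273216), (nat_lit 2, nat_lit 244999143411362308096), (nat_lit 4, nat_lit 604928132091253071872), (nat_lit 6, nat_lit 669396446559894478848), (nat_lit 8, nat_lit 145097934430697119744), (nat_lit 10, nat_lit 437076504205296336896), (nat_lit 12,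 nat_lit 495228117324225101824), (nat_lit 14, nat_lit 220564928183983161344), (nat_lit 16, nat_lit 37455647327192203264), (nat_lit 18, nat_lit 973427912540160), (nat_lit 20, nat_lit 400823309500416), (nat_lit 22, nat_lit 92657862770688), (nat_lit 24, nat_lit 9369896681472)]), (FastCell.sprN 52 [(nat_lit 29, nat_lit 78822399637750546432), (nat_lit 33, nat_lit 1750937686639103705088), (nat_lit 37, nat_lit 2913367285864677244928), (nat_lit 41, nat_lit 582631892345178554368), (nat_lit 45, nat_lit 3435630239416320), (nat_lit 49, nat_lit 229042015961088)], FastCell.sprN 52 [(nat_lit 31, nat_lit 580010557969161781248), (nat_lit 35, nat_lit 2914636143165261742080), (nat_lit 39, nat_lit 1747876437506194931712), (nat_lit 43, nat_lit 83238624486265716736), (nat_lit 47, nat_lit 1145210079805440), (nat_lit 51, nat_lit 20822001451008)], FastCell.sprN 52 [(nat_lit 29, nat_lit 78822399637750546432), (nat_lit 31, nat_lit 580010557969161781248), (nat_lit 33, nat_lit 1750937686639103705088), (nat_lit 35, nat_lit 2914636143165261742080), (nat_lit 37, nat_lit 2913367285864677244928), (nat_lit 39, nat_lit 1747876437506194931712),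 (nat_lit 41, nat_lit 582631892345178554368), (nat_lit 43, nat_lit 83238624486265716736), (nat_lit 45, nat_lit 3435630239416320), (nat_lit 47, nat_lit 1145210079805440), (nat_lit 49, nat_lit 229042015961088), (nat_lit 51, nat_lit 20822001451008)]), (FastCell.sprN 52 [(nat_lit 4, nat_lit 39411199818875273216), (nat_lit 8, nat_lit 875468843319551852544), (nat_lit 12, nat_lit 1456683642932338622464), (nat_lit 16, nat_lit 291315946172589277184), (nat_lit 20, nat_lit 1717815119708160), (nat_lit 24, nat_lit 114521007980544)], FastCell.sprN 52 [(nat_lit 6, nat_lit 290005278984580890624), (nat_lit 10, nat_lit 1457318071582630871040), (nat_lit 14, nat_lit 873938218753097465856), (nat_lit 18, nat_lit 41619312243132858368), (nat_lit 22, nat_lit 572605039902720), (nat_lit 26, nat_lit 10411000725504)], FastCell.sprN 52 [(nat_lit 4, nat_lit 39411199818875273216), (nat_lit 6, nat_lit 290005278984580890624), (nat_lit 8, nat_lit 875468843319551852544), (nat_lit 10, nat_lit 1457318071582630871040), (nat_lit 12, nat_lit 1456683642932338622464), (nat_lit 14, nat_lit 873938218753097465856), (nat_lit 16, nat_lit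 291315946172589277184), (nat_lit 18, nat_lit 41619312243132858368), (nat_lit 20, nat_lit 1717815119708160), (nat_lit 22, nat_lit 572605039902720), (nat_lit 24, nat_lit 114521007980544), (nat_lit 26, nat_lit 10411000725504)]), z52, z52, z52, z52⟩,
  ⟨(FastCell.sprN 52 [(nat_lit 0, nat_lit 39411199818875273216), (nat_lit 4, nat_lit 1076524824770671575040), (nat_lit 8, nat_lit 2195905834891310841856), (nat_lit 12, nat_lit 516043945844995162112), (nat_lit 16, nat_lit 2842202721484800), (nat_lit 20, nat_lit 208219974795264), (nat_lit 28, nat_lit 3966720939332206592)], FastCell.sprN 52 [(nat_lit 2, nat_lit 317713900348341739520), (nat_lit 6, nat_lit 1995344105793570463744), (nat_lit 10, nat_lit 1435754282577505959936), (nat_lit 14, nat_lit 79075552997842993152), (nat_lit 18, nat_lit 994250390568960), (nat_lit 22, nat_lit 19780897406976), (nat_lit 30, nat_lit 3966720939332206592)], FastCell.sprN 52 [(nat_lit 0, nat_lit 39411199818875273216), (nat_lit 2, nat_lit 317713900348341739520), (nat_lit 4, nat_lit 1076524824770671575040), (nat_lit 6, nat_lit 1995344105793570463744), (nat_lit 8, nat_lit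 2195905834891310841856), (nat_lit 10, nat_lit 1435754282577505959936), (nat_lit 12, nat_lit 516043945844995162112), (nat_lit 14, nat_lit 79075552997842993152), (nat_lit 16, nat_lit 2842202721484800), (nat_lit 18, nat_lit 994250390568960), (nat_lit 20, nat_lit 208219974795264), (nat_lit 22, nat_lit 19780897406976), (nat_lit 28, nat_lit 3966720939332206592), (nat_lit 30, nat_lit 3966720939332206592)]), (FastCell.sprN 52 [(nat_lit 5, nat_lit 1128627648659737018368), (nat_lit 8, nat_lit 382048957319547453440), (nat_lit 11, nat_lit 32746030803120553984), (nat_lit 29, nat_lit 183497784782634352640), (nat_lit 35, nat_lit 147719055289517867008)], FastCell.sprN 52 [(nat_lit 1, nat_lit 11766048149884370944), (nat_lit 3, nat_lit 358262365069116440576), (nat_lit 6, nat_lit 382048957319547453440), (nat_lit 7, nat_lit 725853204637615652864), (nat_lit 9, nat_lit 65492061606241107968), (nat_lit 31, nat_lit 183497784782634352640), (nat_lit 33, nat_lit 147719055289517867008)], FastCell.sprN 52 [(nat_lit 1, nat_lit 11766048149884370944), (nat_lit 3, nat_lit 358262365069116440576), (nat_lit 5, nat_lit 1128627648659737018368),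 (nat_lit 6, nat_lit 382048957319547453440), (nat_lit 7, nat_lit 725853204637615652864), (nat_lit 8, nat_lit 382048957319547453440), (nat_lit 9, nat_lit 65492061606241107968), (nat_lit 11, nat_lit 32746030803120553984), (nat_lit 29, nat_lit 183497784782634352640), (nat_lit 31, nat_lit 183497784782634352640), (nat_lit 33, nat_lit 147719055289517867008), (nat_lit 35, nat_lit 147719055289517867008)]), (FastCell.sprN 52 [(nat_lit 4, nat_lit 28957597946269925376), (nat_lit 8, nat_lit 26845247607492575232), (nat_lit 32, nat_lit 18231769042010505216)], FastCell.sprN 52 [(nat_lit 6, nat_lit 55802845553762500608), (nat_lit 30, nat_lit 18231769042010505216)], FastCell.sprN 52 [(nat_lit 4, nat_lit 28957597946269925376), (nat_lit 6, nat_lit 55802845553762500608), (nat_lit 8, nat_lit 26845247607492575232), (nat_lit 30, nat_lit 18231769042010505216), (nat_lit 32, nat_lit 18231769042010505216)]), z52, (FastCell.sprN 52 [(nat_lit 4, nat_lit 5720373519561261056), (nat_lit 30, nat_lit 1970856214623420416)], FastCell.sprN 52 [(nat_lit 2, nat_lit 1915464575457689600), (nat_lit 7, nat_lit 2299594647841800192),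 (nat_lit 32, nat_lit 3154725617182703616)], FastCell.sprN 52 [(nat_lit 2, nat_lit 1915464575457689600), (nat_lit 4, nat_lit 5720373519561261056), (nat_lit 7, nat_lit 2299594647841800192), (nat_lit 30, nat_lit 1970856214623420416), (nat_lit 32, nat_lit 3154725617182703616)]), z52, z52⟩,
  ⟨(FastCell.sprN 52 [(nat_lit 3, nat_lit 20843710485028937728), (nat_lit 7, nat_lit 355452170582454968320), (nat_lit 11, nat_lit 215545857269270953984), (nat_lit 13, nat_lit 24032208106125164544), (nat_lit 17, nat_lit 1124387601776640), (nat_lit 21, nat_lit 93698966814720), (nat_lit 27, nat_lit 453827430495289344), (nat_lit 28, nat_lit 1706180224028246016), (nat_lit 31, nat_lit 453827430495289344), (nat_lit 35, nat_lit 4309374352551313408)], FastCell.sprN 52 [(nat_lit 1, nat_lit 1973489177752240128), (nat_lit 5, nat_lit 128273515442729615360), (nat_lit 9, nat_lit 448171488139009277952), (nat_lit 15, nat_lit 37456240754710134784), (nat_lit 19, nat_lit 421645350666240), (nat_lit 23, nat_lit 9369896681472), (nat_lit 29, nat_lit 907654860990578688), (nat_lit 30, nat_lit 1706180224028246016), (nat_lit 33, nat_lit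 4309374352551313408)], FastCell.sprN 52 [(nat_lit 1, nat_lit 1973489177752240128), (nat_lit 3, nat_lit 20843710485028937728), (nat_lit 5, nat_lit 128273515442729615360), (nat_lit 7, nat_lit 355452170582454968320), (nat_lit 9, nat_lit 448171488139009277952), (nat_lit 11, nat_lit 215545857269270953984), (nat_lit 13, nat_lit 24032208106125164544), (nat_lit 15, nat_lit 37456240754710134784), (nat_lit 17, nat_lit 1124387601776640), (nat_lit 19, nat_lit 421645350666240), (nat_lit 21, nat_lit 93698966814720), (nat_lit 23, nat_lit 9369896681472), (nat_lit 27, nat_lit 453827430495289344), (nat_lit 28, nat_lit 1706180224028246016), (nat_lit 29, nat_lit 907654860990578688), (nat_lit 30, nat_lit 1706180224028246016), (nat_lit 31, nat_lit 453827430495289344), (nat_lit 33, nat_lit 4309374352551313408), (nat_lit 35, nat_lit 4309374352551313408)]), (FastCell.sprN 52 [(nat_lit 4, nat_lit 43633930332654272512), (nat_lit 29, nat_lit 48389539891274317824), (nat_lit 32, nat_lit 672538317759134564352), (nat_lit 36, nat_lit 1774627753782713253888), (nat_lit 40, nat_lit 499395766499086958592), (nat_lit 44, nat_lit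 2498640174120960), (nat_lit 48, nat_lit 208220014510080)], FastCell.sprN 52 [(nat_lit 2, nat_lit 15866883757328826368), (nat_lit 6, nat_lit 27767046575325446144), (nat_lit 30, nat_lit 194236085147713667072), (nat_lit 34, nat_lit 1468998664718141882368), (nat_lit 38, nat_lit 1248480671007107973120), (nat_lit 42, nat_lit 83236125846091595776), (nat_lit 46, nat_lit 936990065295360), (nat_lit 50, nat_lit 20822001451008)], FastCell.sprN 52 [(nat_lit 2, nat_lit 15866883757328826368), (nat_lit 4, nat_lit 43633930332654272512), (nat_lit 6, nat_lit 27767046575325446144), (nat_lit 29, nat_lit 48389539891274317824), (nat_lit 30, nat_lit 194236085147713667072), (nat_lit 32, nat_lit 672538317759134564352), (nat_lit 34, nat_lit 1468998664718141882368), (nat_lit 36, nat_lit 1774627753782713253888), (nat_lit 38, nat_lit 1248480671007107973120), (nat_lit 40, nat_lit 499395766499086958592), (nat_lit 42, nat_lit 83236125846091595776), (nat_lit 44, nat_lit 2498640174120960), (nat_lit 46, nat_lit 936990065295360), (nat_lit 48, nat_lit 208220014510080), (nat_lit 50, nat_lit 20822001451008)]), (FastCell.sprN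 52 [(nat_lit 5, nat_lit 719232537319908048896), (nat_lit 7, nat_lit 824102817738403086336), (nat_lit 10, nat_lit 7883424858493681664), (nat_lit 11, nat_lit 2269138447024686891008), (nat_lit 14, nat_lit 12618902468730814464), (nat_lit 15, nat_lit 291315946172589277184), (nat_lit 19, nat_lit 1717815119708160), (nat_lit 23, nat_lit 114521007980544), (nat_lit 29, nat_lit 17649072224826556416), (nat_lit 31, nat_lit 895655912672791101440), (nat_lit 34, nat_lit 1528195829278189813760), (nat_lit 35, nat_lit 3266339420869270437888), (nat_lit 37, nat_lit 360206338834326093824), (nat_lit 38, nat_lit 22881494078245044224)], FastCell.sprN 52 [(nat_lit 3, nat_lit 327584369746393432064), (nat_lit 9, nat_lit 2860649096833050607616), (nat_lit 12, nat_lit 20502327327224496128), (nat_lit 13, nat_lit 873938218753097465856), (nat_lit 17, nat_lit 41619312243132858368), (nat_lit 21, nat_lit 572605039902720), (nat_lit 25, nat_lit 10411000725504), (nat_lit 33, nat_lit 3950196770309079564288), (nat_lit 36, nat_lit 1917906644899568025600), (nat_lit 39, nat_lit 212849200220283600896), (nat_lit 41, nat_lit 9198378591367200768)],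 FastCell.sprN 52 [(nat_lit 3, nat_lit 327584369746393432064), (nat_lit 5, nat_lit 719232537319908048896), (nat_lit 7, nat_lit 824102817738403086336), (nat_lit 9, nat_lit 2860649096833050607616), (nat_lit 10, nat_lit 7883424858493681664), (nat_lit 11, nat_lit 2269138447024686891008), (nat_lit 12, nat_lit 20502327327224496128), (nat_lit 13, nat_lit 873938218753097465856), (nat_lit 14, nat_lit 12618902468730814464), (nat_lit 15, nat_lit 291315946172589277184), (nat_lit 17, nat_lit 41619312243132858368), (nat_lit 19, nat_lit 1717815119708160), (nat_lit 21, nat_lit 572605039902720), (nat_lit 23, nat_lit 114521007980544), (nat_lit 25, nat_lit 10411000725504), (nat_lit 29, nat_lit 17649072224826556416), (nat_lit 31, nat_lit 895655912672791101440), (nat_lit 33, nat_lit 3950196770309079564288), (nat_lit 34, nat_lit 1528195829278189813760), (nat_lit 35, nat_lit 3266339420869270437888), (nat_lit 36, nat_lit 1917906644899568025600), (nat_lit 37, nat_lit 360206338834326093824), (nat_lit 38, nat_lit 22881494078245044224), (nat_lit 39, nat_lit 212849200220283600896), (nat_lit 41, nat_lit 9198378591367200768)]),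 (FastCell.sprN 52 [(nat_lit 4, nat_lit 24309025389347340288), (nat_lit 8, nat_lit 42540794431357845504), (nat_lit 34, nat_lit 130206639625445834752)], FastCell.sprN 52 [(nat_lit 6, nat_lit 66849819820705185792), (nat_lit 32, nat_lit 48262663243783208960), (nat_lit 36, nat_lit 80535742822477725696)], FastCell.sprN 52 [(nat_lit 4, nat_lit 24309025389347340288), (nat_lit 6, nat_lit 66849819820705185792), (nat_lit 8, nat_lit 42540794431357845504), (nat_lit 32, nat_lit 48262663243783208960), (nat_lit 34, nat_lit 130206639625445834752), (nat_lit 36, nat_lit 80535742822477725696)]), z52, (FastCell.sprN 52 [(nat_lit 6, nat_lit 39033798439825571840), (nat_lit 30, nat_lit 16565991827665059840), (nat_lit 35, nat_lit 22995946478418001920)], FastCell.sprN 52 [(nat_lit 4, nat_lit 11825137287740522496), (nat_lit 8, nat_lit 28392530554644332544), (nat_lit 32, nat_lit 40042614636928827392)], FastCell.sprN 52 [(nat_lit 4, nat_lit 11825137287740522496), (nat_lit 6, nat_lit 39033798439825571840), (nat_lit 8, nat_lit 28392530554644332544), (nat_lit 30, nat_lit 16565991827665059840), (nat_lit 32, nat_lit 40042614636928827392),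 (nat_lit 35, nat_lit 22995946478418001920)]), z52⟩,
  ⟨(FastCell.sprN 52 [(nat_lit 1, nat_lit 72714756936979431424), (nat_lit 5, nat_lit 1325947659233675984896), (nat_lit 9, nat_lit 1872830786782802296832), (nat_lit 13, nat_lit 299640481181826154496), (nat_lit 17, nat_lit 1967678303109120), (nat_lit 21, nat_lit 112438760177664), (nat_lit 29, nat_lit 3966720939332206592)], FastCell.sprN 52 [(nat_lit 3, nat_lit 471596692679418503168), (nat_lit 7, nat_lit 2050807900460613722112), (nat_lit 11, nat_lit 1011272063169220263936), (nat_lit 15, nat_lit 37458489529913688064), (nat_lit 19, nat_lit 609043284295680), (nat_lit 23, nat_lit 9369896681472), (nat_lit 27, nat_lit 3966720939332206592)], FastCell.sprN 52 [(nat_lit 1, nat_lit 72714756936979431424), (nat_lit 3, nat_lit 471596692679418503168), (nat_lit 5, nat_lit 1325947659233675984896), (nat_lit 7, nat_lit 2050807900460613722112), (nat_lit 9, nat_lit 1872830786782802296832), (nat_lit 11, nat_lit 1011272063169220263936), (nat_lit 13, nat_lit 299640481181826154496), (nat_lit 15, nat_lit 37458489529913688064), (nat_lit 17, nat_lit 1967678303109120),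 (nat_lit 19, nat_lit 609043284295680), (nat_lit 21, nat_lit 112438760177664), (nat_lit 23, nat_lit 9369896681472), (nat_lit 27, nat_lit 3966720939332206592), (nat_lit 29, nat_lit 3966720939332206592)]), (FastCell.sprN 52 [(nat_lit 0, nat_lit 11766048149884370944), (nat_lit 2, nat_lit 358262365069116440576), (nat_lit 5, nat_lit 382048957319547453440), (nat_lit 6, nat_lit 725853204637615652864), (nat_lit 8, nat_lit 65492061606241107968), (nat_lit 32, nat_lit 1898656741928621572096), (nat_lit 36, nat_lit 2913367285864677244928), (nat_lit 40, nat_lit 582631892345178554368), (nat_lit 44, nat_lit 3435630239416320), (nat_lit 48, nat_lit 229042015961088)], FastCell.sprN 52 [(nat_lit 4, nat_lit 1128627648659737018368), (nat_lit 7, nat_lit 382048957319547453440), (nat_lit 10, nat_lit 32746030803120553984), (nat_lit 28, nat_lit 104675385144883806208), (nat_lit 30, nat_lit 396512773186527428608), (nat_lit 34, nat_lit 3062355198454779609088), (nat_lit 38, nat_lit 1747876437506194931712), (nat_lit 42, nat_lit 83238624486265716736), (nat_lit 46, nat_lit 1145210079805440), (nat_lit 50, nat_lit 20822001451008)],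 FastCell.sprN 52 [(nat_lit 0, nat_lit 11766048149884370944), (nat_lit 2, nat_lit 358262365069116440576), (nat_lit 4, nat_lit 1128627648659737018368), (nat_lit 5, nat_lit 382048957319547453440), (nat_lit 6, nat_lit 725853204637615652864), (nat_lit 7, nat_lit 382048957319547453440), (nat_lit 8, nat_lit 65492061606241107968), (nat_lit 10, nat_lit 32746030803120553984), (nat_lit 28, nat_lit 104675385144883806208), (nat_lit 30, nat_lit 396512773186527428608), (nat_lit 32, nat_lit 1898656741928621572096), (nat_lit 34, nat_lit 3062355198454779609088), (nat_lit 36, nat_lit 2913367285864677244928), (nat_lit 38, nat_lit 1747876437506194931712), (nat_lit 40, nat_lit 582631892345178554368), (nat_lit 42, nat_lit 83238624486265716736), (nat_lit 44, nat_lit 3435630239416320), (nat_lit 46, nat_lit 1145210079805440), (nat_lit 48, nat_lit 229042015961088), (nat_lit 50, nat_lit 20822001451008)]), (FastCell.sprN 52 [(nat_lit 3, nat_lit 10453601872605347840), (nat_lit 7, nat_lit 848623595712059277312), (nat_lit 11, nat_lit 1456683642932338622464), (nat_lit 15, nat_lit 291315946172589277184), (nat_lit 19,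 nat_lit 1717815119708160), (nat_lit 23, nat_lit 114521007980544), (nat_lit 29, nat_lit 18231769042010505216)], FastCell.sprN 52 [(nat_lit 5, nat_lit 234202433430818390016), (nat_lit 9, nat_lit 1457318071582630871040), (nat_lit 13, nat_lit 873938218753097465856), (nat_lit 17, nat_lit 41619312243132858368), (nat_lit 21, nat_lit 572605039902720), (nat_lit 25, nat_lit 10411000725504), (nat_lit 31, nat_lit 18231769042010505216)], FastCell.sprN 52 [(nat_lit 3, nat_lit 10453601872605347840), (nat_lit 5, nat_lit 234202433430818390016), (nat_lit 7, nat_lit 848623595712059277312), (nat_lit 9, nat_lit 1457318071582630871040), (nat_lit 11, nat_lit 1456683642932338622464), (nat_lit 13, nat_lit 873938218753097465856), (nat_lit 15, nat_lit 291315946172589277184), (nat_lit 17, nat_lit 41619312243132858368), (nat_lit 19, nat_lit 1717815119708160), (nat_lit 21, nat_lit 572605039902720), (nat_lit 23, nat_lit 114521007980544), (nat_lit 25, nat_lit 10411000725504), (nat_lit 29, nat_lit 18231769042010505216), (nat_lit 31, nat_lit 18231769042010505216)]), z52, (FastCell.sprN 52 [(nat_lit 1, nat_lit 1915464575457689600),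 (nat_lit 6, nat_lit 2299594647841800192), (nat_lit 31, nat_lit 3154725617182703616)], FastCell.sprN 52 [(nat_lit 3, nat_lit 5720373519561261056), (nat_lit 29, nat_lit 1970856214623420416)], FastCell.sprN 52 [(nat_lit 1, nat_lit 1915464575457689600), (nat_lit 3, nat_lit 5720373519561261056), (nat_lit 6, nat_lit 2299594647841800192), (nat_lit 29, nat_lit 1970856214623420416), (nat_lit 31, nat_lit 3154725617182703616)]), z52, z52⟩⟩

theorem eTsn : rfam2 Bt 3 s sn = some Tsn := by decide +kernel

theorem ttsn : tailTest2 1107727027 false 72 3 989560045568 (2412577500) Bt Tsn lastRow tn = true := by decide +kernel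

/-- Data. -/
noncomputable def Hsp : VFam := ⟨⟨(FastCell.sprN 65 [(nat_lit 2, nat_lit 4611686018427387904), (nat_lit 50, nat_lit 8192856870036946944), (nat_lit 53, nat_lit 4312030797340082176), (nat_lit 57, nat_lit 22473628659125821440), (nat_lit 59, nat_lit 11828227984861429760)], FastCell.sprN 65 [(nat_lit 20, nat_lit 2591781968773382144)], FastCell.sprN 65 [(nat_lit 2, nat_lit 4611686018427387904), (nat_lit 20, nat_lit 2591781968773382144), (nat_lit 50, nat_lit 8192856870036946944), (nat_lit 53, nat_lit 4312030797340082176), (nat_lit 57, nat_lit 22473628659125821440), (nat_lit 59, nat_lit 11828227984861429760)]), (FastCell.sprN 65 [(nat_lit 52, nat_lit 8624061594680164352), (nat_lit 58, nat_lit 23656455969722859520)], FastCell.sprN 65 [(nat_lit 10, nat_lit 5183563937546764288)], FastCell.sprN 65 [(nat_lit 10, nat_lit 5183563937546764288), (nat_lit 52, nat_lit 8624061594680164352), (nat_lit 58, nat_lit 23656455969722859520)]), (FastCell.sprN 65 [(nat_lit 50, nat_lit 4312030797340082176), (nat_lit 51, nat_lit 71409456973013319680), (nat_lit 57, nat_lit 11828227984861429760)], FastCell.sprN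 65 [(nat_lit 2, nat_lit 2591781968773382144)], FastCell.sprN 65 [(nat_lit 2, nat_lit 2591781968773382144), (nat_lit 50, nat_lit 4312030797340082176), (nat_lit 51, nat_lit 71409456973013319680), (nat_lit 57, nat_lit 11828227984861429760)]), z65, z65, z65, z65⟩,
  ⟨(FastCell.sprN 65 [(nat_lit 2, nat_lit 3094183446793158656), (nat_lit 10, nat_lit 3966720939332206592), (nat_lit 36, nat_lit 9976467175013089280), (nat_lit 44, nat_lit 4312030797340082176), (nat_lit 53, nat_lit 11828227984861429760)], FastCell.sprN 65 [(nat_lit 20, nat_lit 2591781968773382144), (nat_lit 21, nat_lit 5568386368322666496), (nat_lit 45, nat_lit 8192856870036946944), (nat_lit 54, nat_lit 22473628659125821440)], FastCell.sprN 65 [(nat_lit 2, nat_lit 3094183446793158656), (nat_lit 10, nat_lit 3966720939332206592), (nat_lit 20, nat_lit 2591781968773382144), (nat_lit 21, nat_lit 5568386368322666496), (nat_lit 36, nat_lit 9976467175013089280), (nat_lit 44, nat_lit 4312030797340082176), (nat_lit 45, nat_lit 8192856870036946944), (nat_lit 53, nat_lit 11828227984861429760), (nat_lit 54, nat_lit 22473628659125821440)]), (FastCell.sprN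 65 [(nat_lit 2, nat_lit 376804774071851024384), (nat_lit 10, nat_lit 183497784782634352640), (nat_lit 24, nat_lit 32746030803120553984), (nat_lit 35, nat_lit 758599235440736206848)], FastCell.sprN 65 [(nat_lit 4, nat_lit 382048957319547453440), (nat_lit 14, nat_lit 147719055289517867008), (nat_lit 20, nat_lit 770365283590620577792)], FastCell.sprN 65 [(nat_lit 2, nat_lit 376804774071851024384), (nat_lit 4, nat_lit 382048957319547453440), (nat_lit 10, nat_lit 183497784782634352640), (nat_lit 14, nat_lit 147719055289517867008), (nat_lit 20, nat_lit 770365283590620577792), (nat_lit 24, nat_lit 32746030803120553984), (nat_lit 35, nat_lit 758599235440736206848)]), (FastCell.sprN 65 [(nat_lit 2, nat_lit 2112350338777350144), (nat_lit 21, nat_lit 26845247607492575232)], FastCell.sprN 65 [(nat_lit 10, nat_lit 18231769042010505216)], FastCell.sprN 65 [(nat_lit 2, nat_lit 2112350338777350144), (nat_lit 10, nat_lit 18231769042010505216), (nat_lit 21, nat_lit 26845247607492575232)]), z65, (FastCell.sprN 65 [(nat_lit 0, nat_lit 3804908944103571456), (nat_lit 29, nat_lit 3154725617182703616)], FastCell.sprN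 65 [(nat_lit 4, nat_lit 2299594647841800192), (nat_lit 10, nat_lit 1183869402559283200), (nat_lit 20, nat_lit 5720373519561261056)], FastCell.sprN 65 [(nat_lit 0, nat_lit 3804908944103571456), (nat_lit 4, nat_lit 2299594647841800192), (nat_lit 10, nat_lit 1183869402559283200), (nat_lit 20, nat_lit 5720373519561261056), (nat_lit 29, nat_lit 3154725617182703616)]), z65, z65⟩,
  ⟨(FastCell.sprN 65 [(nat_lit 2, nat_lit 2297877295504818176), (nat_lit 11, nat_lit 1706180224028246016), (nat_lit 24, nat_lit 105815413005196722176), (nat_lit 29, nat_lit 453827430495289344), (nat_lit 36, nat_lit 122873023974799835136), (nat_lit 39, nat_lit 200695791566280720384), (nat_lit 46, nat_lit 171393720322140422144)], FastCell.sprN 65 [(nat_lit 16, nat_lit 4309374352551313408), (nat_lit 21, nat_lit 127144390448056893440), (nat_lit 55, nat_lit 10645400674264391680)], FastCell.sprN 65 [(nat_lit 2, nat_lit 2297877295504818176), (nat_lit 11, nat_lit 1706180224028246016), (nat_lit 16, nat_lit 4309374352551313408), (nat_lit 21, nat_lit 127144390448056893440), (nat_lit 24, nat_lit 105815413005196722176), (nat_lit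 29, nat_lit 453827430495289344), (nat_lit 36, nat_lit 122873023974799835136), (nat_lit 39, nat_lit 200695791566280720384), (nat_lit 46, nat_lit 171393720322140422144), (nat_lit 55, nat_lit 10645400674264391680)]), (FastCell.sprN 65 [(nat_lit 2, nat_lit 11900162817996619776), (nat_lit 30, nat_lit 109974280364982534144)], FastCell.sprN 65 [(nat_lit 12, nat_lit 11651027471851061248), (nat_lit 21, nat_lit 27767046575325446144), (nat_lit 42, nat_lit 109741138925143982080), (nat_lit 48, nat_lit 8624061594680164352), (nat_lit 56, nat_lit 23656455969722859520)], FastCell.sprN 65 [(nat_lit 2, nat_lit 11900162817996619776), (nat_lit 12, nat_lit 11651027471851061248), (nat_lit 21, nat_lit 27767046575325446144), (nat_lit 30, nat_lit 109974280364982534144), (nat_lit 42, nat_lit 109741138925143982080), (nat_lit 48, nat_lit 8624061594680164352), (nat_lit 56, nat_lit 23656455969722859520)]), (FastCell.sprN 65 [(nat_lit 2, nat_lit 272654895205178146816), (nat_lit 15, nat_lit 1910244786597737267200), (nat_lit 16, nat_lit 65492061606241107968), (nat_lit 24, nat_lit 812454804092348268544), (nat_lit 26, nat_lit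 12618902468730814464), (nat_lit 29, nat_lit 4972076198889380642816), (nat_lit 50, nat_lit 4312030797340082176), (nat_lit 51, nat_lit 71409456973013319680), (nat_lit 57, nat_lit 11828227984861429760)], FastCell.sprN 65 [(nat_lit 5, nat_lit 221578582934276800512), (nat_lit 7, nat_lit 4735477610237132800), (nat_lit 10, nat_lit 1540730567181241155584), (nat_lit 12, nat_lit 1318816709251478585344), (nat_lit 17, nat_lit 22881494078245044224), (nat_lit 21, nat_lit 642242246739220234240), (nat_lit 34, nat_lit 212849200220283600896), (nat_lit 41, nat_lit 3413696559483312930816), (nat_lit 48, nat_lit 71409456973013319680)], FastCell.sprN 65 [(nat_lit 2, nat_lit 272654895205178146816), (nat_lit 5, nat_lit 221578582934276800512), (nat_lit 7, nat_lit 4735477610237132800), (nat_lit 10, nat_lit 1540730567181241155584), (nat_lit 12, nat_lit 1318816709251478585344), (nat_lit 15, nat_lit 1910244786597737267200), (nat_lit 16, nat_lit 65492061606241107968), (nat_lit 17, nat_lit 22881494078245044224), (nat_lit 21, nat_lit 642242246739220234240), (nat_lit 24, nat_lit 812454804092348268544), (nat_lit 26, nat_lit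 12618902468730814464), (nat_lit 29, nat_lit 4972076198889380642816), (nat_lit 34, nat_lit 212849200220283600896), (nat_lit 41, nat_lit 3413696559483312930816), (nat_lit 48, nat_lit 71409456973013319680), (nat_lit 50, nat_lit 4312030797340082176), (nat_lit 51, nat_lit 71409456973013319680), (nat_lit 57, nat_lit 11828227984861429760)]), (FastCell.sprN 65 [(nat_lit 12, nat_lit 30864846019509616640), (nat_lit 21, nat_lit 42540794431357845504)], FastCell.sprN 65 [(nat_lit 2, nat_lit 18231769042010505216), (nat_lit 30, nat_lit 80535742822477725696)], FastCell.sprN 65 [(nat_lit 2, nat_lit 18231769042010505216), (nat_lit 12, nat_lit 30864846019509616640), (nat_lit 21, nat_lit 42540794431357845504), (nat_lit 30, nat_lit 80535742822477725696)]), z65, (FastCell.sprN 65 [(nat_lit 15, nat_lit 22995946478418001920), (nat_lit 21, nat_lit 17751262669463093248), (nat_lit 29, nat_lit 40042614636928827392)], FastCell.sprN 65 [(nat_lit 2, nat_lit 1183869402559283200), (nat_lit 10, nat_lit 23476622809263767552), (nat_lit 36, nat_lit 28392530554644332544)], FastCell.sprN 65 [(nat_lit 2, nat_lit 1183869402559283200),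 (nat_lit 10, nat_lit 23476622809263767552), (nat_lit 15, nat_lit 22995946478418001920), (nat_lit 21, nat_lit 17751262669463093248), (nat_lit 29, nat_lit 40042614636928827392), (nat_lit 36, nat_lit 28392530554644332544)]), z65⟩,
  ⟨(FastCell.sprN 65 [(nat_lit 2, nat_lit 1517502571634229248), (nat_lit 21, nat_lit 5568386368322666496), (nat_lit 45, nat_lit 3880826072696864768), (nat_lit 50, nat_lit 3880826072696864768), (nat_lit 54, nat_lit 10645400674264391680), (nat_lit 57, nat_lit 10645400674264391680)], FastCell.sprN 65 [(nat_lit 10, nat_lit 3966720939332206592), (nat_lit 36, nat_lit 9976467175013089280)], FastCell.sprN 65 [(nat_lit 2, nat_lit 1517502571634229248), (nat_lit 10, nat_lit 3966720939332206592), (nat_lit 21, nat_lit 5568386368322666496), (nat_lit 36, nat_lit 9976467175013089280), (nat_lit 45, nat_lit 3880826072696864768), (nat_lit 50, nat_lit 3880826072696864768), (nat_lit 54, nat_lit 10645400674264391680), (nat_lit 57, nat_lit 10645400674264391680)]), (FastCell.sprN 65 [(nat_lit 4, nat_lit 382048957319547453440), (nat_lit 14, nat_lit 147719055289517867008), (nat_lit 20,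 nat_lit 770365283590620577792), (nat_lit 52, nat_lit 8624061594680164352), (nat_lit 58, nat_lit 23656455969722859520)], FastCell.sprN 65 [(nat_lit 2, nat_lit 376804774071851024384), (nat_lit 10, nat_lit 188681348720181116928), (nat_lit 24, nat_lit 32746030803120553984), (nat_lit 35, nat_lit 758599235440736206848)], FastCell.sprN 65 [(nat_lit 2, nat_lit 376804774071851024384), (nat_lit 4, nat_lit 382048957319547453440), (nat_lit 10, nat_lit 188681348720181116928), (nat_lit 14, nat_lit 147719055289517867008), (nat_lit 20, nat_lit 770365283590620577792), (nat_lit 24, nat_lit 32746030803120553984), (nat_lit 35, nat_lit 758599235440736206848), (nat_lit 52, nat_lit 8624061594680164352), (nat_lit 58, nat_lit 23656455969722859520)]), (FastCell.sprN 65 [(nat_lit 10, nat_lit 18231769042010505216), (nat_lit 50, nat_lit 4312030797340082176), (nat_lit 51, nat_lit 71409456973013319680), (nat_lit 57, nat_lit 11828227984861429760)], FastCell.sprN 65 [(nat_lit 2, nat_lit 4704132307550732288), (nat_lit 21, nat_lit 26845247607492575232)], FastCell.sprN 65 [(nat_lit 2, nat_lit 4704132307550732288), (nat_lit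 10, nat_lit 18231769042010505216), (nat_lit 21, nat_lit 26845247607492575232), (nat_lit 50, nat_lit 4312030797340082176), (nat_lit 51, nat_lit 71409456973013319680), (nat_lit 57, nat_lit 11828227984861429760)]), z65, (FastCell.sprN 65 [(nat_lit 4, nat_lit 2299594647841800192), (nat_lit 10, nat_lit 1183869402559283200), (nat_lit 20, nat_lit 5720373519561261056)], FastCell.sprN 65 [(nat_lit 0, nat_lit 3804908944103571456), (nat_lit 29, nat_lit 3154725617182703616)], FastCell.sprN 65 [(nat_lit 0, nat_lit 3804908944103571456), (nat_lit 4, nat_lit 2299594647841800192), (nat_lit 10, nat_lit 1183869402559283200), (nat_lit 20, nat_lit 5720373519561261056), (nat_lit 29, nat_lit 3154725617182703616)]), z65, z65⟩⟩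

/-- Data. -/
noncomputable def Gsp : VFam := ⟨⟨(FastCell.sprN 65 [(nat_lit 1, nat_lit 48389539891274317824), (nat_lit 3, nat_lit 50424275910405390336)], FastCell.sprN 65 [(nat_lit 2, nat_lit 98812235540403847168)], FastCell.sprN 65 [(nat_lit 1, nat_lit 48389539891274317824), (nat_lit 2, nat_lit 98812235540403847168), (nat_lit 3, nat_lit 50424275910405390336)]), (FastCell.sprN 65 [(nat_lit 2, nat_lit 376804774071851024384), (nat_lit 6, nat_lit 15219635776414285824)], FastCell.sprN 65 [(nat_lit 4, nat_lit 382048957319547453440), (nat_lit 8, nat_lit 9198378591367200768)], FastCell.sprN 65 [(nat_lit 2, nat_lit 376804774071851024384), (nat_lit 4, nat_lit 382048957319547453440), (nat_lit 6, nat_lit 15219635776414285824), (nat_lit 8, nat_lit 9198378591367200768)]), (FastCell.sprN 65 [(nat_lit 2, nat_lit 1408233559184900096)], FastCell.sprN 65 [], FastCell.sprN 65 [(nat_lit 2, nat_lit 1408233559184900096)]), z65, z65, z65, z65⟩,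
  ⟨(FastCell.sprN 65 [(nat_lit 1, nat_lit 48389539891274317824), (nat_lit 3, nat_lit 50424275910405390336)], FastCell.sprN 65 [(nat_lit 2, nat_lit 98812235540403847168)], FastCell.sprN 65 [(nat_lit 1, nat_lit 48389539891274317824), (nat_lit 2, nat_lit 98812235540403847168), (nat_lit 3, nat_lit 50424275910405390336)]), (FastCell.sprN 65 [(nat_lit 2, nat_lit 376804774071851024384), (nat_lit 6, nat_lit 15219635776414285824)], FastCell.sprN 65 [(nat_lit 4, nat_lit 382048957319547453440), (nat_lit 8, nat_lit 9198378591367200768)], FastCell.sprN 65 [(nat_lit 2, nat_lit 376804774071851024384), (nat_lit 4, nat_lit 382048957319547453440), (nat_lit 6, nat_lit 15219635776414285824), (nat_lit 8, nat_lit 9198378591367200768)]), (FastCell.sprN 65 [(nat_lit 2, nat_lit 1408233559184900096)], FastCell.sprN 65 [], FastCell.sprN 65 [(nat_lit 2, nat_lit 1408233559184900096)]), z65, z65, z65, z65⟩,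
  ⟨(FastCell.sprN 65 [(nat_lit 1, nat_lit 48389539891274317824), (nat_lit 3, nat_lit 50424275910405390336)], FastCell.sprN 65 [(nat_lit 2, nat_lit 98812235540403847168)], FastCell.sprN 65 [(nat_lit 1, nat_lit 48389539891274317824), (nat_lit 2, nat_lit 98812235540403847168), (nat_lit 3, nat_lit 50424275910405390336)]), (FastCell.sprN 65 [(nat_lit 2, nat_lit 376804774071851024384), (nat_lit 6, nat_lit 15219635776414285824)], FastCell.sprN 65 [(nat_lit 4, nat_lit 382048957319547453440), (nat_lit 8, nat_lit 9198378591367200768)], FastCell.sprN 65 [(nat_lit 2, nat_lit 376804774071851024384), (nat_lit 4, nat_lit 382048957319547453440), (nat_lit 6, nat_lit 15219635776414285824), (nat_lit 8, nat_lit 9198378591367200768)]), (FastCell.sprN 65 [(nat_lit 2, nat_lit 1408233559184900096)], FastCell.sprN 65 [], FastCell.sprN 65 [(nat_lit 2, nat_lit 1408233559184900096)]), z65, z65, z65, z65⟩,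
  ⟨z65, z65, z65, z65, z65, z65, z65⟩⟩

theorem eHsp : rfamH Bh 3 s sp = some (Hsp, Gsp) := by decide +kernel

theorem hhsp : headTestS 72 3 15235533062 Bh Hsp Gsp z n0 hp = true := by decide +kernel

/-- Data. -/
noncomputable def Tsp : VFam := ⟨⟨(FastCell.sprN 52 [(nat_lit 0, nat_lit 13548476813428129792), (nat_lit 4, nat_lit 190387692584955011072), (nat_lit 8, nat_lit 24150849130628096000), (nat_lit 10, nat_lit 139288335483307925504), (nat_lit 14, nat_lit 62689576734989312000)], FastCell.sprN 52 [(nat_lit 2, nat_lit 80036273177795010560), (nat_lit 6, nat_lit 194746612557029990400), (nat_lit 12, nat_lit 144636644338219081728), (nat_lit 16, nat_lit 10645400674264391680)], FastCell.sprN 52 [(nat_lit 0, nat_lit 13548476813428129792), (nat_lit 2, nat_lit 80036273177795010560), (nat_lit 4, nat_lit 190387692584955011072), (nat_lit 6, nat_lit 194746612557029990400), (nat_lit 8, nat_lit 24150849130628096000), (nat_lit 10, nat_lit 139288335483307925504), (nat_lit 12, nat_lit 144636644338219081728), (nat_lit 14, nat_lit 62689576734989312000), (nat_lit 16, nat_lit 10645400674264391680)]), (FastCell.sprN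 52 [(nat_lit 29, nat_lit 27096953626856259584), (nat_lit 33, nat_lit 583026191310981693440), (nat_lit 37, nat_lit 871096266913700904960), (nat_lit 41, nat_lit 165595191788060016640)], FastCell.sprN 52 [(nat_lit 31, nat_lit 203531935823914074112), (nat_lit 35, nat_lit 914216574887101726720), (nat_lit 39, nat_lit 505409636958860214272), (nat_lit 43, nat_lit 23656455969722859520)], FastCell.sprN 52 [(nat_lit 29, nat_lit 27096953626856259584), (nat_lit 31, nat_lit 203531935823914074112), (nat_lit 33, nat_lit 583026191310981693440), (nat_lit 35, nat_lit 914216574887101726720), (nat_lit 37, nat_lit 871096266913700904960), (nat_lit 39, nat_lit 505409636958860214272), (nat_lit 41, nat_lit 165595191788060016640), (nat_lit 43, nat_lit 23656455969722859520)]), (FastCell.sprN 52 [(nat_lit 4, nat_lit 13548476813428129792), (nat_lit 5, nat_lit 71409456973013319680), (nat_lit 8, nat_lit 291513095655490846720), (nat_lit 9, nat_lit 714094569730133196800), (nat_lit 12, nat_lit 435548133456850452480), (nat_lit 13, nat_lit 357047284865066598400), (nat_lit 16, nat_lit 82797595894030008320)], FastCell.sprN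 52 [(nat_lit 6, nat_lit 101765967911957037056), (nat_lit 7, nat_lit 357047284865066598400), (nat_lit 10, nat_lit 457108287443550863360), (nat_lit 11, nat_lit 714094569730133196800), (nat_lit 14, nat_lit 252704818479430107136), (nat_lit 15, nat_lit 71409456973013319680), (nat_lit 18, nat_lit 11828227984861429760)], FastCell.sprN 52 [(nat_lit 4, nat_lit 13548476813428129792), (nat_lit 5, nat_lit 71409456973013319680), (nat_lit 6, nat_lit 101765967911957037056), (nat_lit 7, nat_lit 357047284865066598400), (nat_lit 8, nat_lit 291513095655490846720), (nat_lit 9, nat_lit 714094569730133196800), (nat_lit 10, nat_lit 457108287443550863360), (nat_lit 11, nat_lit 714094569730133196800), (nat_lit 12, nat_lit 435548133456850452480), (nat_lit 13, nat_lit 357047284865066598400), (nat_lit 14, nat_lit 252704818479430107136), (nat_lit 15, nat_lit 71409456973013319680), (nat_lit 16, nat_lit 82797595894030008320), (nat_lit 18, nat_lit 11828227984861429760)]), z52, z52, z52, z52⟩,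
  ⟨(FastCell.sprN 52 [(nat_lit 0, nat_lit 13548476813428129792), (nat_lit 4, nat_lit 346430209787904180224), (nat_lit 8, nat_lit 654002984057912655872), (nat_lit 12, nat_lit 146669999939616358400), (nat_lit 28, nat_lit 3966720939332206592)], FastCell.sprN 52 [(nat_lit 2, nat_lit 106198148436661329920), (nat_lit 6, nat_lit 615713238836981325824), (nat_lit 10, nat_lit 416266654666092847104), (nat_lit 14, nat_lit 22473628659125821440), (nat_lit 30, nat_lit 3966720939332206592)], FastCell.sprN 52 [(nat_lit 0, nat_lit 13548476813428129792), (nat_lit 2, nat_lit 106198148436661329920), (nat_lit 4, nat_lit 346430209787904180224), (nat_lit 6, nat_lit 615713238836981325824), (nat_lit 8, nat_lit 654002984057912655872), (nat_lit 10, nat_lit 416266654666092847104), (nat_lit 12, nat_lit 146669999939616358400), (nat_lit 14, nat_lit 22473628659125821440), (nat_lit 28, nat_lit 3966720939332206592), (nat_lit 30, nat_lit 3966720939332206592)]), (FastCell.sprN 52 [(nat_lit 5, nat_lit 1128627648659737018368), (nat_lit 8, nat_lit 382048957319547453440), (nat_lit 11, nat_lit 32746030803120553984), (nat_lit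 29, nat_lit 183497784782634352640), (nat_lit 35, nat_lit 147719055289517867008)], FastCell.sprN 52 [(nat_lit 1, nat_lit 11766048149884370944), (nat_lit 3, nat_lit 358262365069116440576), (nat_lit 6, nat_lit 382048957319547453440), (nat_lit 7, nat_lit 725853204637615652864), (nat_lit 9, nat_lit 65492061606241107968), (nat_lit 31, nat_lit 183497784782634352640), (nat_lit 33, nat_lit 147719055289517867008)], FastCell.sprN 52 [(nat_lit 1, nat_lit 11766048149884370944), (nat_lit 3, nat_lit 358262365069116440576), (nat_lit 5, nat_lit 1128627648659737018368), (nat_lit 6, nat_lit 382048957319547453440), (nat_lit 7, nat_lit 725853204637615652864), (nat_lit 8, nat_lit 382048957319547453440), (nat_lit 9, nat_lit 65492061606241107968), (nat_lit 11, nat_lit 32746030803120553984), (nat_lit 29, nat_lit 183497784782634352640), (nat_lit 31, nat_lit 183497784782634352640), (nat_lit 33, nat_lit 147719055289517867008), (nat_lit 35, nat_lit 147719055289517867008)]), (FastCell.sprN 52 [(nat_lit 4, nat_lit 28957597946269925376), (nat_lit 8, nat_lit 26845247607492575232), (nat_lit 32, nat_lit 18231769042010505216)],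 FastCell.sprN 52 [(nat_lit 6, nat_lit 55802845553762500608), (nat_lit 30, nat_lit 18231769042010505216)], FastCell.sprN 52 [(nat_lit 4, nat_lit 28957597946269925376), (nat_lit 6, nat_lit 55802845553762500608), (nat_lit 8, nat_lit 26845247607492575232), (nat_lit 30, nat_lit 18231769042010505216), (nat_lit 32, nat_lit 18231769042010505216)]), z52, (FastCell.sprN 52 [(nat_lit 4, nat_lit 5720373519561261056), (nat_lit 30, nat_lit 1970856214623420416)], FastCell.sprN 52 [(nat_lit 2, nat_lit 1915464575457689600), (nat_lit 7, nat_lit 2299594647841800192), (nat_lit 32, nat_lit 3154725617182703616)], FastCell.sprN 52 [(nat_lit 2, nat_lit 1915464575457689600), (nat_lit 4, nat_lit 5720373519561261056), (nat_lit 7, nat_lit 2299594647841800192), (nat_lit 30, nat_lit 1970856214623420416), (nat_lit 32, nat_lit 3154725617182703616)]), z52, z52⟩,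
  ⟨(FastCell.sprN 52 [(nat_lit 3, nat_lit 44120151324085493760), (nat_lit 7, nat_lit 734873253399964098560), (nat_lit 11, nat_lit 613800084907016708096), (nat_lit 27, nat_lit 453827430495289344), (nat_lit 28, nat_lit 1706180224028246016), (nat_lit 31, nat_lit 453827430495289344), (nat_lit 35, nat_lit 4309374352551313408)], FastCell.sprN 52 [(nat_lit 1, nat_lit 1973489177752240128), (nat_lit 5, nat_lit 274412382761436004352), (nat_lit 9, nat_lit 968938829496919293952), (nat_lit 13, nat_lit 136823387520694370304), (nat_lit 15, nat_lit 10645400674264391680), (nat_lit 29, nat_lit 907654860990578688), (nat_lit 30, nat_lit 1706180224028246016), (nat_lit 33, nat_lit 4309374352551313408)], FastCell.sprN 52 [(nat_lit 1, nat_lit 1973489177752240128), (nat_lit 3, nat_lit 44120151324085493760), (nat_lit 5, nat_lit 274412382761436004352), (nat_lit 7, nat_lit 734873253399964098560), (nat_lit 9, nat_lit 968938829496919293952), (nat_lit 11, nat_lit 613800084907016708096), (nat_lit 13, nat_lit 136823387520694370304), (nat_lit 15, nat_lit 10645400674264391680), (nat_lit 27, nat_lit 453827430495289344),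 (nat_lit 28, nat_lit 1706180224028246016), (nat_lit 29, nat_lit 907654860990578688), (nat_lit 30, nat_lit 1706180224028246016), (nat_lit 31, nat_lit 453827430495289344), (nat_lit 33, nat_lit 4309374352551313408), (nat_lit 35, nat_lit 4309374352551313408)]), (FastCell.sprN 52 [(nat_lit 4, nat_lit 43633930332654272512), (nat_lit 29, nat_lit 48389539891274317824), (nat_lit 32, nat_lit 347785141624781144064), (nat_lit 36, nat_lit 617366504698321829888), (nat_lit 40, nat_lit 141938735818337157120)], FastCell.sprN 52 [(nat_lit 2, nat_lit 15866883757328826368), (nat_lit 6, nat_lit 27767046575325446144), (nat_lit 30, nat_lit 142510639136819380224), (nat_lit 34, nat_lit 625840345524373291008), (nat_lit 38, nat_lit 363470901140523057152), (nat_lit 42, nat_lit 23656455969722859520)], FastCell.sprN 52 [(nat_lit 2, nat_lit 15866883757328826368), (nat_lit 4, nat_lit 43633930332654272512), (nat_lit 6, nat_lit 27767046575325446144), (nat_lit 29, nat_lit 48389539891274317824), (nat_lit 30, nat_lit 142510639136819380224), (nat_lit 32, nat_lit 347785141624781144064), (nat_lit 34, nat_lit 625840345524373291008),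 (nat_lit 36, nat_lit 617366504698321829888), (nat_lit 38, nat_lit 363470901140523057152), (nat_lit 40, nat_lit 141938735818337157120), (nat_lit 42, nat_lit 23656455969722859520)]), (FastCell.sprN 52 [(nat_lit 4, nat_lit 71409456973013319680), (nat_lit 5, nat_lit 907471848392531902464), (nat_lit 7, nat_lit 240147070074342080512), (nat_lit 8, nat_lit 714094569730133196800), (nat_lit 11, nat_lit 1248002937549198721024), (nat_lit 12, nat_lit 336544957537842102272), (nat_lit 15, nat_lit 82797595894030008320), (nat_lit 29, nat_lit 17649072224826556416), (nat_lit 31, nat_lit 824246455699777781760), (nat_lit 34, nat_lit 1528195829278189813760), (nat_lit 35, nat_lit 2837882679031190519808), (nat_lit 37, nat_lit 645844166726379372544), (nat_lit 38, nat_lit 22881494078245044224)], FastCell.sprN 52 [(nat_lit 3, nat_lit 353447092751840575488), (nat_lit 6, nat_lit 357047284865066598400), (nat_lit 9, nat_lit 1860439312693970599936), (nat_lit 10, nat_lit 706211144871639515136), (nat_lit 13, nat_lit 252704818479430107136), (nat_lit 14, nat_lit 58790554504282505216), (nat_lit 17, nat_lit 11828227984861429760),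 (nat_lit 33, nat_lit 3664558942417026285568), (nat_lit 36, nat_lit 1917906644899568025600), (nat_lit 39, nat_lit 284258657193296920576), (nat_lit 41, nat_lit 9198378591367200768)], FastCell.sprN 52 [(nat_lit 3, nat_lit 353447092751840575488), (nat_lit 4, nat_lit 71409456973013319680), (nat_lit 5, nat_lit 907471848392531902464), (nat_lit 6, nat_lit 357047284865066598400), (nat_lit 7, nat_lit 240147070074342080512), (nat_lit 8, nat_lit 714094569730133196800), (nat_lit 9, nat_lit 1860439312693970599936), (nat_lit 10, nat_lit 706211144871639515136), (nat_lit 11, nat_lit 1248002937549198721024), (nat_lit 12, nat_lit 336544957537842102272), (nat_lit 13, nat_lit 252704818479430107136), (nat_lit 14, nat_lit 58790554504282505216), (nat_lit 15, nat_lit 82797595894030008320), (nat_lit 17, nat_lit 11828227984861429760), (nat_lit 29, nat_lit 17649072224826556416), (nat_lit 31, nat_lit 824246455699777781760), (nat_lit 33, nat_lit 3664558942417026285568), (nat_lit 34, nat_lit 1528195829278189813760), (nat_lit 35, nat_lit 2837882679031190519808), (nat_lit 36, nat_lit 1917906644899568025600), (nat_lit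 37, nat_lit 645844166726379372544), (nat_lit 38, nat_lit 22881494078245044224), (nat_lit 39, nat_lit 284258657193296920576), (nat_lit 41, nat_lit 9198378591367200768)]), (FastCell.sprN 52 [(nat_lit 4, nat_lit 24309025389347340288), (nat_lit 8, nat_lit 42540794431357845504), (nat_lit 34, nat_lit 130206639625445834752)], FastCell.sprN 52 [(nat_lit 6, nat_lit 66849819820705185792), (nat_lit 32, nat_lit 48262663243783208960), (nat_lit 36, nat_lit 80535742822477725696)], FastCell.sprN 52 [(nat_lit 4, nat_lit 24309025389347340288), (nat_lit 6, nat_lit 66849819820705185792), (nat_lit 8, nat_lit 42540794431357845504), (nat_lit 32, nat_lit 48262663243783208960), (nat_lit 34, nat_lit 130206639625445834752), (nat_lit 36, nat_lit 80535742822477725696)]), z52, (FastCell.sprN 52 [(nat_lit 6, nat_lit 39033798439825571840), (nat_lit 30, nat_lit 16565991827665059840), (nat_lit 35, nat_lit 22995946478418001920)], FastCell.sprN 52 [(nat_lit 4, nat_lit 11825137287740522496), (nat_lit 8, nat_lit 28392530554644332544), (nat_lit 32, nat_lit 40042614636928827392)], FastCell.sprN 52 [(nat_lit 4, nat_lit 11825137287740522496),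 (nat_lit 6, nat_lit 39033798439825571840), (nat_lit 8, nat_lit 28392530554644332544), (nat_lit 30, nat_lit 16565991827665059840), (nat_lit 32, nat_lit 40042614636928827392), (nat_lit 35, nat_lit 22995946478418001920)]), z52⟩,
  ⟨(FastCell.sprN 52 [(nat_lit 1, nat_lit 26161875258866319360), (nat_lit 5, nat_lit 420966626279951335424), (nat_lit 9, nat_lit 555554990149400772608), (nat_lit 13, nat_lit 85163205394115133440), (nat_lit 29, nat_lit 3966720939332206592)], FastCell.sprN 52 [(nat_lit 3, nat_lit 156042517202949169152), (nat_lit 7, nat_lit 629852134927284559872), (nat_lit 11, nat_lit 291306644277835440128), (nat_lit 15, nat_lit 10645400674264391680), (nat_lit 27, nat_lit 3966720939332206592)], FastCell.sprN 52 [(nat_lit 1, nat_lit 26161875258866319360), (nat_lit 3, nat_lit 156042517202949169152), (nat_lit 5, nat_lit 420966626279951335424), (nat_lit 7, nat_lit 629852134927284559872), (nat_lit 9, nat_lit 555554990149400772608), (nat_lit 11, nat_lit 291306644277835440128), (nat_lit 13, nat_lit 85163205394115133440), (nat_lit 15, nat_lit 10645400674264391680), (nat_lit 27, nat_lit 3966720939332206592),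 (nat_lit 29, nat_lit 3966720939332206592)]), (FastCell.sprN 52 [(nat_lit 0, nat_lit 11766048149884370944), (nat_lit 2, nat_lit 358262365069116440576), (nat_lit 5, nat_lit 382048957319547453440), (nat_lit 6, nat_lit 725853204637615652864), (nat_lit 8, nat_lit 65492061606241107968), (nat_lit 32, nat_lit 730745246600499560448), (nat_lit 36, nat_lit 871096266913700904960), (nat_lit 40, nat_lit 165595191788060016640)], FastCell.sprN 52 [(nat_lit 4, nat_lit 1128627648659737018368), (nat_lit 7, nat_lit 382048957319547453440), (nat_lit 10, nat_lit 32746030803120553984), (nat_lit 28, nat_lit 156400831155778093056), (nat_lit 30, nat_lit 20034151041279721472), (nat_lit 34, nat_lit 1061935630176619593728), (nat_lit 38, nat_lit 505409636958860214272), (nat_lit 42, nat_lit 23656455969722859520)], FastCell.sprN 52 [(nat_lit 0, nat_lit 11766048149884370944), (nat_lit 2, nat_lit 358262365069116440576), (nat_lit 4, nat_lit 1128627648659737018368), (nat_lit 5, nat_lit 382048957319547453440), (nat_lit 6, nat_lit 725853204637615652864), (nat_lit 7, nat_lit 382048957319547453440), (nat_lit 8, nat_lit 65492061606241107968),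 (nat_lit 10, nat_lit 32746030803120553984), (nat_lit 28, nat_lit 156400831155778093056), (nat_lit 30, nat_lit 20034151041279721472), (nat_lit 32, nat_lit 730745246600499560448), (nat_lit 34, nat_lit 1061935630176619593728), (nat_lit 36, nat_lit 871096266913700904960), (nat_lit 38, nat_lit 505409636958860214272), (nat_lit 40, nat_lit 165595191788060016640), (nat_lit 42, nat_lit 23656455969722859520)]), (FastCell.sprN 52 [(nat_lit 4, nat_lit 71409456973013319680), (nat_lit 7, nat_lit 264667848047998271488), (nat_lit 8, nat_lit 714094569730133196800), (nat_lit 11, nat_lit 435548133456850452480), (nat_lit 12, nat_lit 357047284865066598400), (nat_lit 15, nat_lit 82797595894030008320), (nat_lit 29, nat_lit 18231769042010505216)], FastCell.sprN 52 [(nat_lit 3, nat_lit 15409121132841795584), (nat_lit 5, nat_lit 45963122358194536448), (nat_lit 6, nat_lit 357047284865066598400), (nat_lit 9, nat_lit 457108287443550863360), (nat_lit 10, nat_lit 714094569730133196800), (nat_lit 13, nat_lit 252704818479430107136), (nat_lit 14, nat_lit 71409456973013319680), (nat_lit 17, nat_lit 11828227984861429760),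 (nat_lit 31, nat_lit 18231769042010505216)], FastCell.sprN 52 [(nat_lit 3, nat_lit 15409121132841795584), (nat_lit 4, nat_lit 71409456973013319680), (nat_lit 5, nat_lit 45963122358194536448), (nat_lit 6, nat_lit 357047284865066598400), (nat_lit 7, nat_lit 264667848047998271488), (nat_lit 8, nat_lit 714094569730133196800), (nat_lit 9, nat_lit 457108287443550863360), (nat_lit 10, nat_lit 714094569730133196800), (nat_lit 11, nat_lit 435548133456850452480), (nat_lit 12, nat_lit 357047284865066598400), (nat_lit 13, nat_lit 252704818479430107136), (nat_lit 14, nat_lit 71409456973013319680), (nat_lit 15, nat_lit 82797595894030008320), (nat_lit 17, nat_lit 11828227984861429760), (nat_lit 29, nat_lit 18231769042010505216), (nat_lit 31, nat_lit 18231769042010505216)]), z52, (FastCell.sprN 52 [(nat_lit 1, nat_lit 1915464575457689600), (nat_lit 6, nat_lit 2299594647841800192), (nat_lit 31, nat_lit 3154725617182703616)], FastCell.sprN 52 [(nat_lit 3, nat_lit 5720373519561261056), (nat_lit 29, nat_lit 1970856214623420416)], FastCell.sprN 52 [(nat_lit 1, nat_lit 1915464575457689600), (nat_lit 3, nat_lit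 5720373519561261056), (nat_lit 6, nat_lit 2299594647841800192), (nat_lit 29, nat_lit 1970856214623420416), (nat_lit 31, nat_lit 3154725617182703616)]), z52, z52⟩⟩

theorem eTsp : rfam2 Bt 3 s sp = some Tsp := by decide +kernel

theorem ttsp : tailTest2 1107727027 true 72 3 989560045568 (2412577500) Bt Tsp lastRow tp = true := by decide +kernel


end Vale.Agent.P237.Small.N5W7
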